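import Crest.Agent.R113.Defs

/-! # T00: basic facts about projections onto subspaces of `EuclideanSpace ℂ ι` -/

set_option autoImplicit false

namespace Crest.Agent.R113

open scoped BigOperators

variable {ι : Type*} [Fintype ι] [DecidableEq ι]

/-! ### helpers -/

lemma norm_ev (i : ι) : ‖(ev i : EuclideanSpace ℂ ι)‖ = 1 := by
  simp [ev]

lemma inner_ev_left (i : ι) (v : EuclideanSpace ℂ ι) : inner ℂ (ev i) v = v i := by
  rw [ev, EuclideanSpace.inner_single_left]; simp

lemma norm_inner_ev_right (i : ι) (v : EuclideanSpace ℂ ι) : ‖inner ℂ v (ev i)‖ = ‖v i‖ := by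
  rw [← inner_ev_left i v, ← inner_conj_symm, RCLike.norm_conj]

lemma ent_eq_apply (X : Submodule ℂ (EuclideanSpace ℂ ι)) (i j : ι) :
    ent X i j = X.starProjection (ev j) i := by
  rw [ent, inner_ev_left]

lemma starProj_idem (X : Submodule ℂ (EuclideanSpace ℂ ι)) (v : EuclideanSpace ℂ ι) :
    X.starProjection (X.starProjection v) = X.starProjection v :=
  Submodule.starProjection_eq_self_iff.mpr (by
    rw [Submodule.starProjection_apply]; exact Submodule.coe_mem _)

lemma sum_norm_inner_ev (v : EuclideanSpace ℂ ι) : ∑ i, ‖inner ℂ v (ev i)‖ ^ 2 = ‖v‖ ^ 2 := by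
  rw [EuclideanSpace.norm_sq_eq]
  exact Finset.sum_congr rfl fun i _ => by rw [norm_inner_ev_right]

lemma sum_norm_inner_basis (X : Submodule ℂ (EuclideanSpace ℂ ι)) {κ : Type*} [Fintype κ]
    (b : OrthonormalBasis κ ℂ X) (w : EuclideanSpace ℂ ι) :
    ∑ k, ‖inner ℂ w (b k : EuclideanSpace ℂ ι)‖ ^ 2 = ‖X.starProjection w‖ ^ 2 := by
  have h := b.sum_sq_norm_inner_left (X.orthogonalProjectionOnto w)
  have e : ‖((X.orthogonalProjectionOnto w : X) : EuclideanSpace ℂ ι)‖
      = ‖X.orthogonalProjectionOnto w‖ := rfl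
  rw [Submodule.starProjection_apply, e, ← h]
  exact Finset.sum_congr rfl fun k _ => by
    rw [Submodule.inner_orthogonalProjectionOnto_eq_of_mem_right]

/-- trace of an operator -/
noncomputable def tr0 (T : EuclideanSpace ℂ ι →ₗ[ℂ] EuclideanSpace ℂ ι) : ℂ :=
  ∑ i, inner ℂ (ev i) (T (ev i))

lemma tr0_eq_trace (T : EuclideanSpace ℂ ι →ₗ[ℂ] EuclideanSpace ℂ ι) :
    tr0 T = LinearMap.trace ℂ _ T := by
  rw [LinearMap.trace_eq_sum_inner T (EuclideanSpace.basisFun ι ℂ)]
  simp [tr0, ev]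

lemma tr0_comm (S T : EuclideanSpace ℂ ι →ₗ[ℂ] EuclideanSpace ℂ ι) :
    tr0 (S ∘ₗ T) = tr0 (T ∘ₗ S) := by
  rw [tr0_eq_trace, tr0_eq_trace]
  exact LinearMap.trace_mul_comm ℂ S T

/-! ### statements -/

theorem dg_nonneg (X : Submodule ℂ (EuclideanSpace ℂ ι)) (i : ι) : 0 ≤ dg X i := by
  unfold dg; positivity

theorem dg_le_one (X : Submodule ℂ (EuclideanSpace ℂ ι)) (i : ι) : dg X i ≤ 1 := by
  unfold dg
  have h := X.norm_starProjection_apply_le (ev i)
  rw [norm_ev] at h
  nlinarith [norm_nonneg (X.starProjection (ev i))]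

theorem ent_self (X : Submodule ℂ (EuclideanSpace ℂ ι)) (i : ι) : ent X i i = (dg X i : ℂ) := by
  unfold ent dg
  rw [← starProj_idem, ← Submodule.inner_starProjection_left_eq_right, starProj_idem,
    inner_self_eq_norm_sq_to_K]
  push_cast
  rfl

theorem norm_ent_symm (X : Submodule ℂ (EuclideanSpace ℂ ι)) (i j : ι) :
    ‖ent X i j‖ = ‖ent X j i‖ := by
  unfold ent
  rw [← Submodule.inner_starProjection_left_eq_right, ← inner_conj_symm, RCLike.norm_conj]

theorem sum_ent_sq (X : Submodule ℂ (EuclideanSpace ℂ ι)) (i : ι) :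
    ∑ j, ‖ent X i j‖ ^ 2 = dg X i := by
  unfold dg
  rw [EuclideanSpace.norm_sq_eq]
  refine Finset.sum_congr rfl fun j _ => ?_
  rw [norm_ent_symm, ent_eq_apply]

/-- Sum of squared norms of `d • v_k` over an orthonormal basis, general version: for a linear
map `B`, `∑_k ‖B v_k‖² = ∑_i ‖B P_X e_i‖²`. -/
theorem sum_norm_sq_basis (X : Submodule ℂ (EuclideanSpace ℂ ι)) {κ κ' : Type*} [Fintype κ]
    [Fintype κ'] [DecidableEq κ'] (b : OrthonormalBasis κ ℂ X)
    (B : EuclideanSpace ℂ ι →ₗ[ℂ] EuclideanSpace ℂ κ') :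
    ∑ k, ‖B (b k : EuclideanSpace ℂ ι)‖ ^ 2 = ∑ i, ‖B (X.starProjection (ev i))‖ ^ 2 := by
  have key : ∀ v : EuclideanSpace ℂ ι, ‖B v‖ ^ 2
      = ∑ l, ‖inner ℂ (LinearMap.adjoint B (EuclideanSpace.single l (1 : ℂ))) v‖ ^ 2 := by
    intro v
    rw [EuclideanSpace.norm_sq_eq]
    refine Finset.sum_congr rfl fun l _ => ?_
    rw [LinearMap.adjoint_inner_left, EuclideanSpace.inner_single_left]
    simp
  simp_rw [key]
  rw [Finset.sum_comm, Finset.sum_comm (s := Finset.univ (α := ι))]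
  refine Finset.sum_congr rfl fun l _ => ?_
  rw [sum_norm_inner_basis]
  simp_rw [← Submodule.inner_starProjection_left_eq_right]
  rw [sum_norm_inner_ev]

theorem sum_dg (X : Submodule ℂ (EuclideanSpace ℂ ι)) :
    ∑ i, dg X i = (Module.finrank ℂ X : ℝ) := by
  have h := sum_norm_sq_basis X (stdOrthonormalBasis ℂ X) LinearMap.id
  simp only [LinearMap.id_apply] at h
  unfold dg
  rw [← h]
  have : ∀ k, ‖((stdOrthonormalBasis ℂ X k : X) : EuclideanSpace ℂ ι)‖ ^ 2 = 1 := by
    intro k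
    rw [← Submodule.coe_norm, (stdOrthonormalBasis ℂ X).norm_eq_one]; norm_num
  simp [this]

/-- Trace of a diagonal operator compressed to `X`, in an orthonormal basis of `X`. -/
theorem sum_dg_mul_eq (X : Submodule ℂ (EuclideanSpace ℂ ι)) {κ : Type*} [Fintype κ]
    (b : OrthonormalBasis κ ℂ X) (d : ι → ℝ) :
    ∑ i, dg X i * d i = ∑ k, ∑ i, d i * ‖(b k : EuclideanSpace ℂ ι) i‖ ^ 2 := by
  rw [Finset.sum_comm]
  refine Finset.sum_congr rfl fun i _ => ?_
  rw [← Finset.mul_sum, mul_comm]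
  congr 1
  unfold dg
  rw [← sum_norm_inner_basis X b]
  exact Finset.sum_congr rfl fun k _ => by rw [inner_ev_left]


theorem cut_nonneg (X : Submodule ℂ (EuclideanSpace ℂ ι)) (A : Finset ι) : 0 ≤ cut X A := by
  unfold cut; positivity



theorem hsd_triangle (X Y Z : Submodule ℂ (EuclideanSpace ℂ ι)) :
    Real.sqrt (hsd X Z) ≤ Real.sqrt (hsd X Y) + Real.sqrt (hsd Y Z) := by
  let V : Submodule ℂ (EuclideanSpace ℂ ι) → EuclideanSpace ℂ (ι × ι) :=
    fun X => WithLp.toLp 2 (fun p => ent X p.1 p.2)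
  have key : ∀ X Y, Real.sqrt (hsd X Y) = ‖V X - V Y‖ := by
    intro X Y
    rw [← Real.sqrt_sq (norm_nonneg (V X - V Y)), EuclideanSpace.norm_sq_eq, hsd,
      Fintype.sum_prod_type]
    rfl
  rw [key, key, key]
  exact norm_sub_le_norm_sub_add_norm_sub _ _ _

theorem abs_dg_sub_le (X Y : Submodule ℂ (EuclideanSpace ℂ ι)) (S : Finset ι) :
    ∑ i ∈ S, |dg X i - dg Y i| ≤ Real.sqrt S.card * Real.sqrt (hsd X Y) := by
  have h1 : (∑ i ∈ S, |dg X i - dg Y i|) ^ 2 ≤ S.card * ∑ i ∈ S, |dg X i - dg Y i| ^ 2 :=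
    sq_sum_le_card_mul_sum_sq
  have h2 : ∑ i ∈ S, |dg X i - dg Y i| ^ 2 ≤ hsd X Y := by
    unfold hsd
    refine (Finset.sum_le_sum (g := fun i => ∑ j, ‖ent X i j - ent Y i j‖ ^ 2)
      fun i _ => ?_).trans
      (Finset.sum_le_sum_of_subset_of_nonneg (Finset.subset_univ _) fun _ _ _ => by positivity)
    have : |dg X i - dg Y i| = ‖ent X i i - ent Y i i‖ := by
      rw [ent_self, ent_self, ← Complex.ofReal_sub, Complex.norm_real, Real.norm_eq_abs]
    rw [this]
    exact Finset.single_le_sum (f := fun j => ‖ent X i j - ent Y i j‖ ^ 2)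
      (fun _ _ => by positivity) (Finset.mem_univ i)
  rw [← Real.sqrt_mul (Nat.cast_nonneg _)]
  refine Real.le_sqrt_of_sq_le (h1.trans ?_)
  exact mul_le_mul_of_nonneg_left h2 (Nat.cast_nonneg _)

theorem finrank_map_mulD (X : Submodule ℂ (EuclideanSpace ℂ ι)) (d : ι → ℝ) (hd : ∀ i, 0 < d i) :
    Module.finrank ℂ (X.map (mulD d)) = Module.finrank ℂ X := by
  have hinj : Function.Injective (mulD d : EuclideanSpace ℂ ι →ₗ[ℂ] EuclideanSpace ℂ ι) := by
    intro v w h
    ext i
    have h2 := congrArg (fun u : EuclideanSpace ℂ ι => u i) h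
    simp only [mulD_apply] at h2
    have : (d i : ℂ) ≠ 0 := by exact_mod_cast (hd i).ne'
    exact mul_left_cancel₀ this h2
  exact (X.equivMapOfInjective _ hinj).finrank_eq.symm

lemma starProj_coordSub (A : Finset ι) (i : ι) :
    (coordSub A).starProjection (ev i : EuclideanSpace ℂ ι) = if i ∈ A then ev i else 0 := by
  split_ifs with h
  · rw [Submodule.starProjection_eq_self_iff]
    intro j hj
    have : j ≠ i := fun e => hj (e ▸ h)
    simp [ev, this]
  · rw [Submodule.starProjection_apply_eq_zero_iff, Submodule.mem_orthogonal]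
    intro u hu
    rw [ev, EuclideanSpace.inner_single_right, hu i h]; simp

theorem dg_coordSub (A : Finset ι) (i : ι) : dg (coordSub A) i = if i ∈ A then 1 else 0 := by
  rw [dg, starProj_coordSub]
  split_ifs with h
  · rw [norm_ev]; norm_num
  · simp


theorem finrank_coordSub (A : Finset ι) :
    Module.finrank ℂ (coordSub A) = A.card := by
  have h := sum_dg (coordSub A)
  simp_rw [dg_coordSub] at h
  rw [Finset.sum_ite_mem, Finset.univ_inter, Finset.sum_const, nsmul_eq_mul, mul_one] at h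
  exact_mod_cast h.symm

/-- Vectors of `X` vanishing on `S` form a subspace of codimension at most `#S`. -/
theorem finrank_inf_vanish (X : Submodule ℂ (EuclideanSpace ℂ ι)) (S : Finset ι) :
    Module.finrank ℂ X ≤ Module.finrank ℂ (X ⊓ coordSub Sᶜ : Submodule ℂ (EuclideanSpace ℂ ι))
      + S.card := by
  have h1 := Submodule.finrank_sup_add_finrank_inf_eq X (coordSub Sᶜ)
  have h2 : Module.finrank ℂ (X ⊔ coordSub Sᶜ : Submodule ℂ (EuclideanSpace ℂ ι))
      ≤ Fintype.card ι := by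
    refine (Submodule.finrank_le _).trans ?_
    rw [finrank_euclideanSpace]
  rw [finrank_coordSub, Finset.card_compl] at h1
  have h3 := Finset.card_le_univ S
  omega

lemma cpl_norm_sq (X : Submodule ℂ (EuclideanSpace ℂ ι)) (v : EuclideanSpace ℂ ι) :
    ‖v - X.starProjection v‖ ^ 2 = ‖v‖ ^ 2 - ‖X.starProjection v‖ ^ 2 := by
  have h := Submodule.norm_sq_eq_add_norm_sq_starProjection v X
  have h2 : Xᗮ.starProjection v = v - X.starProjection v := by
    rw [Submodule.starProjection_orthogonal_val]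
  rw [h2] at h
  linarith

/-- `∑_i ‖P_Y P_X e_i‖² = Re ∑_i ⟨P_X e_i, P_Y e_i⟩`. -/
lemma sum_two_proj (X Y : Submodule ℂ (EuclideanSpace ℂ ι)) :
    ((∑ i, ‖Y.starProjection (X.starProjection (ev i))‖ ^ 2 : ℝ) : ℂ)
      = ∑ i, inner ℂ (X.starProjection (ev i)) (Y.starProjection (ev i)) := by
  let P : EuclideanSpace ℂ ι →ₗ[ℂ] EuclideanSpace ℂ ι := X.starProjection.toLinearMap
  let Q : EuclideanSpace ℂ ι →ₗ[ℂ] EuclideanSpace ℂ ι := Y.starProjection.toLinearMap
  have h1 : ((∑ i, ‖Y.starProjection (X.starProjection (ev i))‖ ^ 2 : ℝ) : ℂ)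
      = tr0 ((P ∘ₗ Q) ∘ₗ P) := by
    rw [tr0, Complex.ofReal_sum]
    refine Finset.sum_congr rfl fun i _ => ?_
    rw [LinearMap.comp_apply, LinearMap.comp_apply]
    show _ = inner ℂ (ev i) (X.starProjection (Y.starProjection (X.starProjection (ev i))))
    rw [← Submodule.inner_starProjection_left_eq_right, ← starProj_idem Y,
      ← Submodule.inner_starProjection_left_eq_right Y, starProj_idem Y,
      inner_self_eq_norm_sq_to_K]
    push_cast; rfl
  have h2 : P ∘ₗ P ∘ₗ Q = P ∘ₗ Q := by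
    ext v i
    show X.starProjection (X.starProjection (Y.starProjection v)) i = _
    rw [starProj_idem]; rfl
  rw [h1, tr0_comm, h2, tr0]
  refine Finset.sum_congr rfl fun i _ => ?_
  show inner ℂ (ev i) (X.starProjection (Y.starProjection (ev i))) = _
  rw [← Submodule.inner_starProjection_left_eq_right]

/-- `‖P_X - P_Y‖² = dim X + dim Y - 2 tr(P_X P_Y)`, and `tr (P_X P_Y) = ∑_k ‖P_Y v_k‖²`. -/
theorem hsd_eq (X Y : Submodule ℂ (EuclideanSpace ℂ ι)) {κ : Type*} [Fintype κ]
    (b : OrthonormalBasis κ ℂ X) :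
    hsd X Y = (Module.finrank ℂ X : ℝ) + Module.finrank ℂ Y
      - 2 * ∑ k, ‖Y.starProjection (b k : EuclideanSpace ℂ ι)‖ ^ 2 := by
  have h1 : hsd X Y = ∑ j, ‖X.starProjection (ev j) - Y.starProjection (ev j)‖ ^ 2 := by
    unfold hsd
    rw [Finset.sum_comm]
    refine Finset.sum_congr rfl fun j _ => ?_
    rw [EuclideanSpace.norm_sq_eq]
    refine Finset.sum_congr rfl fun i _ => ?_
    rw [ent_eq_apply, ent_eq_apply]; rfl
  have h2 : ∀ j, ‖X.starProjection (ev j) - Y.starProjection (ev j)‖ ^ 2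
      = dg X j + dg Y j - 2 * (inner ℂ (X.starProjection (ev j)) (Y.starProjection (ev j))).re := by
    intro j
    have := @norm_sub_sq ℂ (EuclideanSpace ℂ ι) _ _ _ (X.starProjection (ev j))
      (Y.starProjection (ev j))
    rw [this]; unfold dg
    simp only [RCLike.re_to_complex]; ring
  have h3 := sum_norm_sq_basis X b Y.starProjection.toLinearMap
  simp only [ContinuousLinearMap.coe_coe] at h3
  rw [h1, h3]
  simp_rw [h2]
  rw [Finset.sum_sub_distrib, Finset.sum_add_distrib, sum_dg, sum_dg, ← Finset.mul_sum]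
  have h4 := congrArg Complex.re (sum_two_proj X Y)
  rw [Complex.ofReal_re, Complex.re_sum] at h4
  rw [h4]

lemma inner_restr_left (A : Finset ι) (u v : EuclideanSpace ℂ ι) :
    inner ℂ (restr (A : Set ι) u) v = inner ℂ u (restr (A : Set ι) v) := by
  rw [PiLp.inner_apply, PiLp.inner_apply]
  refine Finset.sum_congr rfl fun i _ => ?_
  rw [restr_apply, restr_apply]
  split_ifs <;> simp

lemma restr_restr (A : Finset ι) (u : EuclideanSpace ℂ ι) :
    restr (A : Set ι) (restr (A : Set ι) u) = restr (A : Set ι) u := by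
  ext i
  rw [restr_apply, restr_apply]
  split_ifs <;> rfl

lemma restr_ev (A : Finset ι) (i : ι) :
    restr (A : Set ι) (ev i : EuclideanSpace ℂ ι) = if i ∈ A then ev i else 0 := by
  ext j
  rw [restr_apply]
  by_cases hij : j = i
  · subst hij
    by_cases h : j ∈ A <;> simp [h]
  · by_cases h : i ∈ A <;> simp [h, ev, hij]

lemma norm_restr_sq (A : Finset ι) (v : EuclideanSpace ℂ ι) :
    ‖restr (A : Set ι) v‖ ^ 2 = ∑ j ∈ A, ‖v j‖ ^ 2 := by
  rw [EuclideanSpace.norm_sq_eq, ← Finset.sum_subset (Finset.subset_univ A)]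
  · exact Finset.sum_congr rfl fun j hj => by rw [restr_apply, if_pos (by simpa using hj)]
  · intro j _ hj
    rw [restr_apply, if_neg (by simpa using hj)]; simp

lemma sum_PCP (X : Submodule ℂ (EuclideanSpace ℂ ι)) (A : Finset ι) :
    ∑ i, ‖X.starProjection (restr (A : Set ι) (X.starProjection (ev i)))‖ ^ 2
      = ∑ i ∈ A, ∑ j ∈ A, ‖ent X i j‖ ^ 2 := by
  let P : EuclideanSpace ℂ ι →ₗ[ℂ] EuclideanSpace ℂ ι := X.starProjection.toLinearMap
  let C : EuclideanSpace ℂ ι →ₗ[ℂ] EuclideanSpace ℂ ι := restr (A : Set ι)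
  have h1 : ((∑ i, ‖X.starProjection (restr (A : Set ι) (X.starProjection (ev i)))‖ ^ 2 : ℝ) : ℂ)
      = tr0 (P ∘ₗ (C ∘ₗ P ∘ₗ C ∘ₗ P)) := by
    rw [tr0, Complex.ofReal_sum]
    refine Finset.sum_congr rfl fun i _ => ?_
    show _ = inner ℂ (ev i) (X.starProjection (restr (A : Set ι) (X.starProjection
      (restr (A : Set ι) (X.starProjection (ev i))))))
    rw [← Submodule.inner_starProjection_left_eq_right, ← inner_restr_left,
      ← starProj_idem X (restr (A : Set ι) (X.starProjection (ev i))),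
      ← Submodule.inner_starProjection_left_eq_right,
      starProj_idem, inner_self_eq_norm_sq_to_K]
    push_cast; rfl
  have h2 : (C ∘ₗ P ∘ₗ C ∘ₗ P) ∘ₗ P = C ∘ₗ P ∘ₗ C ∘ₗ P := by
    ext v i
    show restr (A : Set ι) (X.starProjection (restr (A : Set ι) (X.starProjection
      (X.starProjection v)))) i = _
    rw [starProj_idem]; rfl
  have h3 : tr0 (C ∘ₗ P ∘ₗ C ∘ₗ P)
      = ((∑ i ∈ A, ∑ j ∈ A, ‖ent X i j‖ ^ 2 : ℝ) : ℂ) := by
    rw [tr0, ← Finset.sum_subset (Finset.subset_univ A), Complex.ofReal_sum]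
    · refine Finset.sum_congr rfl fun i hi => ?_
      show inner ℂ (ev i) (restr (A : Set ι) (X.starProjection (restr (A : Set ι)
        (X.starProjection (ev i))))) = _
      rw [← inner_restr_left, restr_ev, if_pos hi, ← Submodule.inner_starProjection_left_eq_right,
        ← restr_restr, ← inner_restr_left, inner_self_eq_norm_sq_to_K]
      have := norm_restr_sq A (X.starProjection (ev i))
      have h4 : ∑ j ∈ A, ‖ent X i j‖ ^ 2 = ‖restr (A : Set ι) (X.starProjection (ev i))‖ ^ 2 := by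
        rw [this]
        exact Finset.sum_congr rfl fun j _ => by rw [norm_ent_symm, ent_eq_apply]
      rw [h4]; push_cast; rfl
    · intro i _ hi
      show inner ℂ (ev i) (restr (A : Set ι) (X.starProjection (restr (A : Set ι)
        (X.starProjection (ev i))))) = _
      rw [← inner_restr_left, restr_ev, if_neg hi, inner_zero_left]
  have h5 := h1.trans ((tr0_comm _ _).trans ((congrArg tr0 h2).trans h3))
  exact_mod_cast h5

/-- `cut X A = ∑ ‖(1-P_X) 1_A v_k‖²` over an orthonormal basis `v_k` of `X`. -/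
theorem cut_eq_sum_basis (X : Submodule ℂ (EuclideanSpace ℂ ι)) {κ : Type*} [Fintype κ]
    (b : OrthonormalBasis κ ℂ X) (A : Finset ι) :
    cut X A = ∑ k, ‖restr (A : Set ι) (b k : EuclideanSpace ℂ ι)
      - X.starProjection (restr (A : Set ι) (b k : EuclideanSpace ℂ ι))‖ ^ 2 := by
  simp_rw [cpl_norm_sq]
  rw [Finset.sum_sub_distrib, sum_norm_sq_basis X b (restr (A : Set ι))]
  have h1 := sum_norm_sq_basis X b (X.starProjection.toLinearMap ∘ₗ (restr (A : Set ι)))
  simp only [LinearMap.comp_apply, ContinuousLinearMap.coe_coe] at h1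
  rw [h1, sum_PCP]
  have h2 : ∑ i, ‖restr (A : Set ι) (X.starProjection (ev i))‖ ^ 2
      = ∑ i ∈ A, ∑ j, ‖ent X i j‖ ^ 2 := by
    simp_rw [norm_restr_sq]
    rw [Finset.sum_comm]
    exact Finset.sum_congr rfl fun j _ => Finset.sum_congr rfl fun i _ => by rw [ent_eq_apply]
  rw [h2, ← Finset.sum_sub_distrib]
  unfold cut
  refine Finset.sum_congr rfl fun i _ => ?_
  rw [← Finset.sum_add_sum_compl A (fun j => ‖ent X i j‖ ^ 2)]
  ring

end Crest.Agent.R113
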