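import Crest.Agent.R113.Num

/-!
# Row 113 / S0149: shared definitions (blueprint notes 6834-6836 on rid 113)

Finite dimensional part: subspaces `X` of `EuclideanSpace ℂ ι`, entries `ent X i j` and diagonal
`dg X i` of the orthogonal projection onto `X`, mass `cut X A` between a set and its complement,
squared Hilbert-Schmidt distance `hsd X Y`.
-/

set_option autoImplicit false
set_option linter.unusedSectionVars false

namespace Crest.Agent.R113

open scoped BigOperators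

noncomputable section

/-! ### Linear algebra on coordinate spaces -/

section LinAlg

variable {ι : Type*} [Fintype ι] [DecidableEq ι]

/-- Coordinate basis vector. -/
def ev (i : ι) : EuclideanSpace ℂ ι := EuclideanSpace.single i (1 : ℂ)

/-- Matrix entries of the orthogonal projection onto `X`. -/
def ent (X : Submodule ℂ (EuclideanSpace ℂ ι)) (i j : ι) : ℂ :=
  inner ℂ (ev i) (X.starProjection (ev j))

/-- Diagonal entries of the orthogonal projection onto `X` (a real number in `[0,1]`). -/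
def dg (X : Submodule ℂ (EuclideanSpace ℂ ι)) (i : ι) : ℝ := ‖X.starProjection (ev i)‖ ^ 2

/-- Trace of the projection on a set of coordinates. -/
def trOn (X : Submodule ℂ (EuclideanSpace ℂ ι)) (A : Finset ι) : ℝ := ∑ i ∈ A, dg X i

/-- Mass of the projection between `A` and its complement. -/
def cut (X : Submodule ℂ (EuclideanSpace ℂ ι)) (A : Finset ι) : ℝ :=
  ∑ i ∈ A, ∑ j ∈ Aᶜ, ‖ent X i j‖ ^ 2

/-- Squared Hilbert-Schmidt distance of the projections onto `X` and `Y`. -/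
def hsd (X Y : Submodule ℂ (EuclideanSpace ℂ ι)) : ℝ := ∑ i, ∑ j, ‖ent X i j - ent Y i j‖ ^ 2

/-- Diagonal operator with real entries `d`. -/
def mulD (d : ι → ℝ) : EuclideanSpace ℂ ι →ₗ[ℂ] EuclideanSpace ℂ ι where
  toFun v := WithLp.toLp 2 (fun i => (d i : ℂ) * v i)
  map_add' v w := by ext i; simp [mul_add]
  map_smul' r v := by ext i; simp [mul_left_comm]

@[simp] lemma mulD_apply (d : ι → ℝ) (v : EuclideanSpace ℂ ι) (i : ι) :
    mulD d v i = (d i : ℂ) * v i := rfl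

/-- Restriction of a vector to a set of coordinates. -/
def restr (A : Set ι) [DecidablePred (· ∈ A)] : EuclideanSpace ℂ ι →ₗ[ℂ] EuclideanSpace ℂ ι :=
  mulD (fun i => if i ∈ A then 1 else 0)

@[simp] lemma restr_apply (A : Set ι) [DecidablePred (· ∈ A)] (v : EuclideanSpace ℂ ι) (i : ι) :
    restr A v i = if i ∈ A then v i else 0 := by
  by_cases h : i ∈ A <;> simp [restr, h]

/-- The coordinate subspace of vectors supported in `A`. -/
def coordSub (A : Finset ι) : Submodule ℂ (EuclideanSpace ℂ ι) where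
  carrier := {v | ∀ i, i ∉ A → v i = 0}
  add_mem' := by
    intro v w hv hw i hi
    simp [hv i hi, hw i hi]
  zero_mem' := by intro i _; simp
  smul_mem' := by
    intro r v hv i hi
    simp [hv i hi]

/-- Linear maps that are block diagonal with respect to the partition of `ι` into the fibres of
`win`. -/
def BlockDiag {κ : Type*} [DecidableEq κ] (win : ι → κ)
    (a : EuclideanSpace ℂ ι →ₗ[ℂ] EuclideanSpace ℂ ι) : Prop :=
  ∀ (c : κ) (v : EuclideanSpace ℂ ι), a (restr {i | win i = c} v) = restr {i | win i = c} (a v)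

/-- Subspaces that are direct sums of their parts in the windows. -/
def BlockSub {κ : Type*} [DecidableEq κ] (win : ι → κ)
    (F : Submodule ℂ (EuclideanSpace ℂ ι)) : Prop :=
  ∀ (c : κ), ∀ v ∈ F, restr {i | win i = c} v ∈ F

/-- Scaling by `exp(-s)` on the coordinates in `A`. -/
def scal (A : Finset ι) (s : ℝ) : EuclideanSpace ℂ ι →ₗ[ℂ] EuclideanSpace ℂ ι :=
  mulD (fun i => if i ∈ A then Real.exp (-s) else 1)

/-- Off-window mass of the projection onto `X`. -/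
def offw {κ : Type*} [DecidableEq κ] (win : ι → κ) (X : Submodule ℂ (EuclideanSpace ℂ ι)) : ℝ :=
  ∑ i, ∑ j, if win i = win j then 0 else ‖ent X i j‖ ^ 2

end LinAlg

/-! ### Weighted shift on a finite segment -/

/-- Sum of the costs over `n` steps starting at `m`. -/
def wsum (u : ℤ → ℝ) (m : ℤ) (n : ℕ) : ℝ := ∑ i ∈ Finset.range n, u (m + i)

/-- The `n`-th power of the truncated weighted shift `e_m ↦ exp(-u m) e_{m+1}` on `ℂ^q`:
`e_m ↦ exp(-(u m + ... + u (m+n-1))) e_{m+n}` if `m+n<q`, and `0` otherwise. -/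
def shiftN {q : ℕ} (u : ℤ → ℝ) (n : ℕ) :
    EuclideanSpace ℂ (Fin q) →ₗ[ℂ] EuclideanSpace ℂ (Fin q) where
  toFun v := WithLp.toLp 2 (fun j =>
    if h : n ≤ (j : ℕ) then
      (Real.exp (-(wsum u ((j : ℤ) - n) n)) : ℂ) * v ⟨(j : ℕ) - n, lt_of_le_of_lt (Nat.sub_le _ _) j.2⟩
    else 0)
  map_add' v w := by
    ext j
    by_cases h : n ≤ (j : ℕ) <;> simp [h, mul_add]
  map_smul' r v := by
    ext j
    by_cases h : n ≤ (j : ℕ) <;> simp [h, mul_left_comm]

/-- Approximate invariance of `E ⊂ ℂ^q` under `n` steps: `E'` is a subspace of `E` of codimension at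
most `d`, supported in `[0,q-n)`, and `T^n v` is within `δ‖v‖` of `E` for `v ∈ E'`. -/
structure AppInv {q : ℕ} (E E' : Submodule ℂ (EuclideanSpace ℂ (Fin q))) (u : ℤ → ℝ) (n : ℕ)
    (δ d : ℝ) : Prop where
  le : E' ≤ E
  codim : (Module.finrank ℂ E : ℝ) ≤ Module.finrank ℂ E' + d
  supp : ∀ v ∈ E', ∀ j : Fin q, q ≤ (j : ℕ) + n → v j = 0
  inv : ∀ v ∈ E', ‖shiftN u n v - E.starProjection (shiftN u n v)‖ ≤ δ * ‖v‖

/-- Coordinates `m ∈ [q]` lying in a set of integers. -/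
def fs (q : ℕ) (A : Set ℤ) [DecidablePred (· ∈ A)] : Finset (Fin q) :=
  Finset.univ.filter (fun m => ((m : ℕ) : ℤ) ∈ A)

/-- Embedding of `ℂ^l` as the coordinates `[s0, s0+l)` of `ℂ^q`. -/
def emb (q l s0 : ℕ) : EuclideanSpace ℂ (Fin l) →ₗ[ℂ] EuclideanSpace ℂ (Fin q) where
  toFun v := WithLp.toLp 2 (fun i =>
    if h : s0 ≤ (i : ℕ) ∧ (i : ℕ) < s0 + l then v ⟨(i : ℕ) - s0, by omega⟩ else 0)
  map_add' v w := by
    ext i
    by_cases h : s0 ≤ (i : ℕ) ∧ (i : ℕ) < s0 + l <;> simp [h]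
  map_smul' r v := by
    ext i
    by_cases h : s0 ≤ (i : ℕ) ∧ (i : ℕ) < s0 + l <;> simp [h]

/-- The part of `F ⊂ ℂ^q` in the window `[s0, s0+l)`, seen in `ℂ^l`. -/
def winSub {q : ℕ} (l s0 : ℕ) (F : Submodule ℂ (EuclideanSpace ℂ (Fin q))) :
    Submodule ℂ (EuclideanSpace ℂ (Fin l)) := F.comap (emb q l s0)

/-- The last `k` coordinates of `[l]`. -/
def tailF (l k : ℕ) : Finset (Fin l) := Finset.univ.filter (fun i => l ≤ (i : ℕ) + k)

/-! ### Numeric parameters, words, design, orbits -/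

/-- Density parameter of the exceptional sets of block `b`. -/
def zb (b : ℕ) : ℝ := (1 / 2 : ℝ) ^ b

/-- Real value of a bit. -/
def bv (x : Bool) : ℝ := if x then 1 else 0

/-- The words used by the blocks. -/
structure IsWords (w : ℕ → ℕ → Bool) : Prop where
  per : ∀ b a, w b (a + Pib b) = w b a
  bal : ∀ b s, w b (2 * s + 1) = !(w b (2 * s))
  sep_eq : ∀ b, 1 ≤ b → ∀ i j, ¬ i ≡ j [MOD Pib b] →
    rb b ≤ 64 * ((Finset.range (rb b)).filter (fun t => w b (i + t) = w b (j + t))).card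
  sep_ne : ∀ b, 1 ≤ b → ∀ i j, ¬ i ≡ j [MOD Pib b] →
    rb b ≤ 64 * ((Finset.range (rb b)).filter (fun t => w b (i + t) ≠ w b (j + t))).card

/-- Growth of the numerical parameters `c` (costs), `e` (errors), `g` (jitter). -/
structure IsGrowth (c e : ℕ → ℝ) (g : ℕ → ℕ) : Prop where
  e_nonneg : ∀ b, 0 ≤ e b
  c_ge : ∀ b, 1 ≤ b → (4 : ℝ) ^ b * (Mb b : ℝ) ^ 20 * (1 + e b) ≤ c b
  g_le : ∀ b, 1 ≤ b → 4 ^ b * g b ≤ Mb b

/-- Ideal cost between level `L` and level `L + n` of a column of block `b`. -/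
def idealCost (w : ℕ → ℕ → Bool) (c : ℕ → ℝ) (b L n : ℕ) : ℝ :=
  c b * (2 * (((L + n) / Mb b : ℕ) - (L / Mb b : ℕ) : ℝ) + bv (w b (L / Mb b))
    - bv (w b ((L + n) / Mb b)))

/-- Structure of the costs along one orbit. -/
structure OrbitData (w : ℕ → ℕ → Bool) (c e : ℕ → ℝ) (g : ℕ → ℕ) (u : ℤ → ℝ)
    (lev : ℕ → ℤ → ℕ) (bad : ℕ → Set ℤ) : Prop where
  u_nonneg : ∀ m, 0 ≤ u m
  lev_step : ∀ b m, 1 ≤ b → lev b (m + 1) = lev b m + 1 ∨ lev b (m + 1) = 0
  run_low : ∀ b, 1 ≤ b → ∀ m, m ∉ bad b → 2 * Pib b * Mb b ≤ lev b m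
  run : ∀ b, 1 ≤ b → ∀ m, m ∉ bad b → ∀ i : ℕ, i ≤ 2 * Pib b * Mb b →
    lev b (m + i) = lev b m + i
  cost_low : ∀ b, 1 ≤ b → ∀ m, m ∉ bad b → ∀ n ≤ rb b * Mb b,
    g b ≤ lev b m % Mb b → g b ≤ (lev b m + n) % Mb b →
    idealCost w c b (lev b m) n ≤ wsum u m n
  cost_high : ∀ b, 1 ≤ b → ∀ m, m ∉ bad b → ∀ n ≤ rb b * Mb b,
    g b ≤ lev b m % Mb b → g b ≤ (lev b m + n) % Mb b →
    wsum u m n ≤ idealCost w c b (lev b m) n + e b

open Classical in
/-- Bounds for the number of exceptional positions of the blocks `B ≤ b ≤ J` in the segment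
`[-N, q+N]`. -/
structure OrbitCounts (q N B J : ℕ) (lev : ℕ → ℤ → ℕ) (bad : ℕ → Set ℤ) : Prop where
  bad_count : ∀ b, B ≤ b → b ≤ J →
    (((Finset.Icc (-(N : ℤ)) (q + N)).filter
      (fun m => ∃ i : ℤ, |i| ≤ 2 * Mb b ∧ m + i ∈ bad b)).card : ℝ) ≤ zb b * q
  reset_count : ∀ b, B ≤ b → b ≤ J →
    (((Finset.Icc (-(N : ℤ)) (q + N)).filter (fun m => lev b m = 0)).card : ℝ) * (Pib b * Mb b)
      ≤ zb b * q

/-! ### Equation lemmas (realised once here, to avoid collisions between importing modules) -/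

section Eqns

variable {ι : Type*} [Fintype ι] [DecidableEq ι]







theorem trOn_eqna (X : Submodule ℂ (EuclideanSpace ℂ ι)) (A : Finset ι) :
    trOn X A = ∑ i ∈ A, dg X i := by rw [trOn.eq_1]


theorem cut_eqna (X : Submodule ℂ (EuclideanSpace ℂ ι)) (A : Finset ι) :
    cut X A = ∑ i ∈ A, ∑ j ∈ Aᶜ, ‖ent X i j‖ ^ 2 := by rw [cut.eq_1]




theorem scal_eqna (A : Finset ι) (s : ℝ) :
    (scal A s : EuclideanSpace ℂ ι →ₗ[ℂ] EuclideanSpace ℂ ι) = mulD (fun i => if i ∈ A then Real.exp (-s) else 1) := by rw [scal.eq_1]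




theorem offw_eqna {κ : Type*} [DecidableEq κ] (win : ι → κ) (X : Submodule ℂ (EuclideanSpace ℂ ι)) :
    offw win X = ∑ i, ∑ j, if win i = win j then 0 else ‖ent X i j‖ ^ 2 := by rw [offw.eq_1]




theorem BlockSub_eqna {κ : Type*} [DecidableEq κ] (win : ι → κ)
    (F : Submodule ℂ (EuclideanSpace ℂ ι)) :
    BlockSub win F = ∀ (c : κ), ∀ v ∈ F, restr {i | win i = c} v ∈ F := by rw [BlockSub.eq_1]


theorem wsum_eqna (u : ℤ → ℝ) (m : ℤ) (n : ℕ) :
    wsum u m n = ∑ i ∈ Finset.range n, u (m + i) := by rw [wsum.eq_1]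




theorem tailF_eqna (l k : ℕ) :
    tailF l k = Finset.univ.filter (fun i : Fin l => l ≤ (i : ℕ) + k) := by rw [tailF.eq_1]


theorem winSub_eqna {q : ℕ} (l s0 : ℕ) (F : Submodule ℂ (EuclideanSpace ℂ (Fin q))) :
    winSub l s0 F = F.comap (emb q l s0) := by rw [winSub.eq_1]











theorem mem_coordSub (A : Finset ι) (v : EuclideanSpace ℂ ι) :
    v ∈ coordSub A ↔ ∀ i, i ∉ A → v i = 0 := by
  rw [coordSub.eq_def]; rfl

theorem shiftN_apply {q : ℕ} (u : ℤ → ℝ) (n : ℕ) (v : EuclideanSpace ℂ (Fin q)) (j : Fin q) :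
    shiftN u n v j = if h : n ≤ (j : ℕ) then
      (Real.exp (-(wsum u ((j : ℤ) - n) n)) : ℂ) *
        v ⟨(j : ℕ) - n, lt_of_le_of_lt (Nat.sub_le _ _) j.2⟩
    else 0 := by
  rw [shiftN.eq_1]; rfl


theorem emb_apply (q l s0 : ℕ) (v : EuclideanSpace ℂ (Fin l)) (i : Fin q) :
    emb q l s0 v i =
      if h : s0 ≤ (i : ℕ) ∧ (i : ℕ) < s0 + l then v ⟨(i : ℕ) - s0, by omega⟩ else 0 := by
  rw [emb.eq_1]; rfl


end Eqns

end

end Crest.Agent.R113
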