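import Mathlib
import Crest.Prelude.Def_ProductShift

-- ▼ part R113/DetAbs
section

/-! Row 113, S0151: abstract computation of `vectorDet` for a quasinilpotent operator whose
`*`-algebra is traced by a vector. -/

set_option autoImplicit false

namespace Crest.Agent.R113.Det

open Crest.AnalysisR.ProductShift
open Finset Polynomial

variable {H : Type*} [NormedAddCommGroup H] [InnerProductSpace ℂ H] [CompleteSpace H]

/-- the vector functional -/
noncomputable def tau (ξ : H) : (H →L[ℂ] H) →L[ℂ] ℂ :=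
  (innerSL ℂ ξ).comp (ContinuousLinearMap.apply ℂ H ξ)

lemma tau_apply (ξ : H) (X : H →L[ℂ] H) : tau ξ X = inner ℂ ξ (X ξ) := rfl

lemma norm_tau_le {ξ : H} (hξ : ‖ξ‖ = 1) (X : H →L[ℂ] H) : ‖tau ξ X‖ ≤ ‖X‖ := by
  rw [tau_apply]
  calc ‖inner ℂ ξ (X ξ)‖ ≤ ‖ξ‖ * ‖X ξ‖ := norm_inner_le_norm _ _
    _ ≤ ‖ξ‖ * (‖X‖ * ‖ξ‖) := by gcongr; exact X.le_opNorm _
    _ = ‖X‖ := by rw [hξ]; ring

lemma tau_one {ξ : H} (hξ : ‖ξ‖ = 1) : tau ξ 1 = 1 := by
  rw [tau_apply, one_apply_eq_self, inner_self_eq_norm_sq_to_K, hξ]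
  simp

lemma tau_star (ξ : H) (X : H →L[ℂ] H) : tau ξ (star X) = star (tau ξ X) := by
  rw [tau_apply, tau_apply, ContinuousLinearMap.star_eq_adjoint,
    ContinuousLinearMap.adjoint_inner_right]
  exact (inner_conj_symm _ _).symm

lemma real_smul_eq (r : ℝ) (X : H →L[ℂ] H) : r • X = ((r : ℝ) : ℂ) • X :=
  (Complex.coe_smul r X).symm

/-- polynomial approximation of the logarithm, functional calculus form -/
lemma cfc_log_approx (B : H →L[ℂ] H) (hB : IsSelfAdjoint B) (a b : ℝ) (ha : 0 < a)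
    (hab : a ≤ b) (hsp : ∀ x ∈ spectrum ℝ B, a ≤ x ∧ x ≤ b) (n : ℕ) :
    ‖cfc Real.log B - ((Real.log b) • (1 : H →L[ℂ] H)
      - ∑ k ∈ range n, ((1 : ℝ) / (k + 1)) • (1 - b⁻¹ • B) ^ (k + 1))‖
      ≤ (1 - a / b) ^ (n + 1) / (a / b) := by
  have hb : 0 < b := ha.trans_le hab
  set p : ℝ[X] := C (Real.log b) - ∑ k ∈ range n, C ((1 : ℝ) / (k + 1)) * (1 - C b⁻¹ * X) ^ (k + 1)
    with hp
  have h1 : cfc p.eval B = (Real.log b) • (1 : H →L[ℂ] H)
      - ∑ k ∈ range n, ((1 : ℝ) / (k + 1)) • (1 - b⁻¹ • B) ^ (k + 1) := by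
    rw [cfc_polynomial p B]
    simp only [hp, map_sub, map_sum, map_mul, map_pow, map_one, aeval_C, aeval_X,
      Algebra.algebraMap_eq_smul_one, smul_mul_assoc, one_mul]
  have h2 : cfc Real.log B - cfc p.eval B = cfc (fun x => Real.log x - p.eval x) B := by
    refine (cfc_sub Real.log p.eval B ?_ p.continuous.continuousOn).symm
    refine Real.continuousOn_log.mono ?_
    intro x hx
    have := (hsp x hx).1
    simp only [Set.mem_compl_iff, Set.mem_singleton_iff]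
    intro h; rw [h] at this; linarith
  rw [← h1, h2]
  have hab1 : a / b ≤ 1 := by rw [div_le_one hb]; exact hab
  have hab0 : 0 < a / b := by positivity
  refine norm_cfc_le ?_ ?_
  · have : 0 ≤ 1 - a / b := by linarith
    positivity
  · intro x hx
    obtain ⟨hx1, hx2⟩ := hsp x hx
    have hx0 : 0 < x := ha.trans_le hx1
    set y : ℝ := 1 - x / b with hy
    have hxb : a / b ≤ x / b := by gcongr
    have hxb1 : x / b ≤ 1 := by rw [div_le_one hb]; exact hx2
    have hy0 : 0 ≤ y := by rw [hy]; linarith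
    have hy1 : y < 1 := by rw [hy]; have : 0 < x / b := by positivity
                           linarith
    have h3 := Real.abs_log_sub_add_sum_range_le (x := y) (by rw [abs_of_nonneg hy0]; exact hy1) n
    have h4 : Real.log (1 - y) = Real.log x - Real.log b := by
      rw [hy, sub_sub_cancel, Real.log_div hx0.ne' hb.ne']
    have h5 : p.eval x = Real.log b - ∑ i ∈ range n, y ^ (i + 1) / (i + 1) := by
      simp only [hp, eval_sub, eval_finsetSum, eval_mul, eval_pow, eval_one, eval_C, eval_X]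
      congr 1
      refine Finset.sum_congr rfl fun i _ => ?_
      have : 1 - b⁻¹ * x = y := by rw [hy]; ring
      rw [this]; ring
    have h6 : Real.log x - p.eval x = (∑ i ∈ range n, y ^ (i + 1) / (i + 1)) + Real.log (1 - y) := by
      rw [h5, h4]; ring
    rw [h6, Real.norm_eq_abs]
    refine h3.trans ?_
    rw [abs_of_nonneg hy0]
    have hya : y ≤ 1 - a / b := by rw [hy]; linarith
    have hya2 : a / b ≤ 1 - y := by linarith
    have : 0 ≤ 1 - a / b := by linarith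
    gcongr

/-- derivative of `τ(Y^(k+1))` along a path, when `τ` is tracial on the relevant products -/
lemma hasDerivAt_tau_pow (ξ : H) (Y : ℝ → H →L[ℂ] H) (Y' : H →L[ℂ] H) (s : ℝ)
    (hY : HasDerivAt Y Y' s)
    (htr : ∀ i j : ℕ, tau ξ (Y s ^ i * Y' * Y s ^ j) = tau ξ (Y s ^ (i + j) * Y')) (k : ℕ) :
    HasDerivAt (fun s => tau ξ (((1 : ℝ) / (k + 1)) • (Y s) ^ (k + 1)))
      (tau ξ (Y s ^ k * Y')) s := by
  have h1 := hY.fun_pow' (k + 1)
  have h2 := h1.const_smul ((1 : ℝ) / (k + 1))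
  have h3 : HasDerivAt (fun s => ((tau ξ).restrictScalars ℝ) (((1 : ℝ) / (k + 1)) • (Y s) ^ (k + 1)))
      (((tau ξ).restrictScalars ℝ) (((1 : ℝ) / (k + 1)) •
        ∑ i ∈ range (k + 1), Y s ^ ((k + 1).pred - i) * Y' * Y s ^ i)) s :=
    ((tau ξ).restrictScalars ℝ).hasFDerivAt.comp_hasDerivAt s h2
  have h4 : ((tau ξ).restrictScalars ℝ) (((1 : ℝ) / (k + 1)) •
        ∑ i ∈ range (k + 1), Y s ^ ((k + 1).pred - i) * Y' * Y s ^ i) = tau ξ (Y s ^ k * Y') := by
    rw [map_smul, map_sum]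
    have : ∀ i ∈ range (k + 1), ((tau ξ).restrictScalars ℝ) (Y s ^ ((k + 1).pred - i) * Y' * Y s ^ i)
        = tau ξ (Y s ^ k * Y') := by
      intro i hi
      rw [mem_range] at hi
      have : (k + 1).pred - i + i = k := by simp; omega
      rw [ContinuousLinearMap.coe_restrictScalars', htr, this]
    rw [Finset.sum_congr rfl this, Finset.sum_const, card_range, nsmul_eq_mul, Complex.real_smul]
    have hk : ((k : ℂ) + 1) ≠ 0 := by exact_mod_cast Nat.succ_ne_zero k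
    push_cast
    field_simp
  rw [h4] at h3
  exact h3

/-- the trace property extends to the closure -/
lemma tau_comm_closure (ξ : H) (S : StarSubalgebra ℂ (H →L[ℂ] H))
    (h : ∀ X ∈ S, ∀ Y ∈ S, tau ξ (X * Y) = tau ξ (Y * X)) :
    ∀ X ∈ S.topologicalClosure, ∀ Y ∈ S.topologicalClosure, tau ξ (X * Y) = tau ξ (Y * X) := by
  have h1 : ∀ X ∈ S, ∀ Y ∈ S.topologicalClosure, tau ξ (X * Y) = tau ξ (Y * X) := by
    intro X hX Y hY
    have hc : IsClosed {Y : H →L[ℂ] H | tau ξ (X * Y) = tau ξ (Y * X)} :=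
      isClosed_eq (by fun_prop) (by fun_prop)
    exact (hc.closure_subset_iff.mpr (fun Z hZ => h X hX Z hZ)) hY
  intro X hX Y hY
  have hc : IsClosed {X : H →L[ℂ] H | tau ξ (X * Y) = tau ξ (Y * X)} :=
    isClosed_eq (by fun_prop) (by fun_prop)
  exact (hc.closure_subset_iff.mpr (fun Z hZ => h1 Z hZ Y hY)) hX

section Path

variable (T : H →L[ℂ] H) (z : ℂ)

/-- the path `s T - z` -/
noncomputable def Ap (s : ℝ) : H →L[ℂ] H := s • T - z • (1 : H →L[ℂ] H)

noncomputable def Bp (s : ℝ) : H →L[ℂ] H := star (Ap T z s) * Ap T z s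

noncomputable def Np (s : ℝ) : H →L[ℂ] H := z⁻¹ • (s • T)

/-- the inverse of `s T - z` -/
noncomputable def Rp (s : ℝ) : H →L[ℂ] H := (-z⁻¹) • ∑' k : ℕ, (Np T z s) ^ k

noncomputable def Kp : ℝ := ‖z‖⁻¹ * ∑' k : ℕ, ‖z‖⁻¹ ^ k * ‖T ^ k‖

lemma norm_Np_pow_le {s : ℝ} (hs : |s| ≤ 1) (k : ℕ) :
    ‖(Np T z s) ^ k‖ ≤ ‖z‖⁻¹ ^ k * ‖T ^ k‖ := by
  have h : (Np T z s) ^ k = (z⁻¹) ^ k • (s ^ k • T ^ k) := by
    rw [Np, _root_.smul_pow, _root_.smul_pow]
  rw [h, norm_smul, norm_smul, norm_pow, norm_inv, norm_pow, Real.norm_eq_abs]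
  have : |s| ^ k ≤ 1 := pow_le_one₀ (abs_nonneg _) hs
  have h2 : |s| ^ k * ‖T ^ k‖ ≤ 1 * ‖T ^ k‖ := by gcongr
  rw [one_mul] at h2
  gcongr

variable {T z}

lemma summable_Np (hq : Summable (fun k : ℕ => ‖z‖⁻¹ ^ k * ‖T ^ k‖)) {s : ℝ} (hs : |s| ≤ 1) :
    Summable (fun k : ℕ => (Np T z s) ^ k) :=
  Summable.of_norm_bounded hq (fun k => norm_Np_pow_le T z hs k)

lemma Ap_eq (hz : z ≠ 0) (s : ℝ) : Ap T z s = (-z) • (1 - Np T z s) := by
  rw [Ap, Np, smul_sub, smul_smul]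
  have : -z * z⁻¹ = -1 := by field_simp
  rw [this]
  simp only [neg_smul, one_smul]
  abel

lemma Ap_mul_Rp (hz : z ≠ 0) (hq : Summable (fun k : ℕ => ‖z‖⁻¹ ^ k * ‖T ^ k‖)) {s : ℝ}
    (hs : |s| ≤ 1) : Ap T z s * Rp T z s = 1 := by
  rw [Ap_eq hz, Rp, smul_mul_smul_comm, (summable_Np hq hs).one_sub_mul_tsum_pow]
  have : -z * -z⁻¹ = 1 := by field_simp
  rw [this, one_smul]

lemma Rp_mul_Ap (hz : z ≠ 0) (hq : Summable (fun k : ℕ => ‖z‖⁻¹ ^ k * ‖T ^ k‖)) {s : ℝ}
    (hs : |s| ≤ 1) : Rp T z s * Ap T z s = 1 := by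
  rw [Ap_eq hz, Rp, smul_mul_smul_comm, (summable_Np hq hs).tsum_pow_mul_one_sub]
  have : -z⁻¹ * -z = 1 := by field_simp
  rw [this, one_smul]

lemma norm_Rp_le (hq : Summable (fun k : ℕ => ‖z‖⁻¹ ^ k * ‖T ^ k‖)) {s : ℝ}
    (hs : |s| ≤ 1) : ‖Rp T z s‖ ≤ Kp T z := by
  rw [Rp, Kp, norm_smul, norm_neg, norm_inv]
  have h := tsum_of_norm_bounded hq.hasSum (fun k => norm_Np_pow_le T z hs k)
  gcongr

lemma norm_Ap_le {s : ℝ} (hs : |s| ≤ 1) : ‖Ap T z s‖ ≤ ‖T‖ + ‖z‖ := by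
  rw [Ap]
  refine (norm_sub_le _ _).trans ?_
  have h1 : ‖s • T‖ ≤ ‖T‖ := by
    rw [norm_smul, Real.norm_eq_abs]
    calc |s| * ‖T‖ ≤ 1 * ‖T‖ := by gcongr
      _ = ‖T‖ := one_mul _
  have h2 : ‖z • (1 : H →L[ℂ] H)‖ ≤ ‖z‖ := by
    rw [norm_smul]
    calc ‖z‖ * ‖(1 : H →L[ℂ] H)‖ ≤ ‖z‖ * 1 := by gcongr; exact ContinuousLinearMap.norm_id_le
      _ = ‖z‖ := mul_one _
  linarith

lemma isSelfAdjoint_Bp (s : ℝ) : IsSelfAdjoint (Bp T z s) := IsSelfAdjoint.star_mul_self _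

lemma hasDerivAt_Ap (s : ℝ) : HasDerivAt (fun s => Ap T z s) T s := by
  have h := ((hasDerivAt_id s).smul_const T).sub_const (z • (1 : H →L[ℂ] H))
  simpa [Ap] using h

lemma hasDerivAt_Bp (s : ℝ) :
    HasDerivAt (fun s => Bp T z s) (star T * Ap T z s + star (Ap T z s) * T) s := by
  have h0 : ∀ s : ℝ, star (Ap T z s) = s • star T - star (z • (1 : H →L[ℂ] H)) := by
    intro s
    rw [Ap, star_sub, star_smul, star_trivial]
  have h1 : HasDerivAt (fun s => star (Ap T z s)) (star T) s := by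
    have h := ((hasDerivAt_id s).smul_const (star T)).sub_const (star (z • (1 : H →L[ℂ] H)))
    rw [one_smul] at h
    refine h.congr_of_eventuallyEq (Filter.Eventually.of_forall fun t => ?_)
    simp only [id]
    exact h0 t
  exact h1.mul (hasDerivAt_Ap s)

lemma Bp_inv (hz : z ≠ 0) (hq : Summable (fun k : ℕ => ‖z‖⁻¹ ^ k * ‖T ^ k‖)) {s : ℝ}
    (hs : |s| ≤ 1) : Bp T z s * (Rp T z s * star (Rp T z s)) = 1 := by
  have h1 := Ap_mul_Rp hz hq hs
  have h2 := Rp_mul_Ap hz hq hs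
  calc Bp T z s * (Rp T z s * star (Rp T z s))
      = star (Ap T z s) * (Ap T z s * Rp T z s) * star (Rp T z s) := by rw [Bp]; noncomm_ring
    _ = star (Rp T z s * Ap T z s) := by rw [h1, mul_one, star_mul]
    _ = 1 := by rw [h2, star_one]

lemma Bp_inv' (hz : z ≠ 0) (hq : Summable (fun k : ℕ => ‖z‖⁻¹ ^ k * ‖T ^ k‖)) {s : ℝ}
    (hs : |s| ≤ 1) : (Rp T z s * star (Rp T z s)) * Bp T z s = 1 := by
  have h1 := Ap_mul_Rp hz hq hs
  have h2 := Rp_mul_Ap hz hq hs
  calc (Rp T z s * star (Rp T z s)) * Bp T z s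
      = Rp T z s * star (Ap T z s * Rp T z s) * Ap T z s := by rw [Bp, star_mul]; noncomm_ring
    _ = 1 := by rw [h1, star_one, mul_one, h2]

end Path

section Main

variable {T : H →L[ℂ] H} {z : ℂ}

lemma Kp_pos [Nontrivial H] (hz : z ≠ 0) (hq : Summable (fun k : ℕ => ‖z‖⁻¹ ^ k * ‖T ^ k‖)) :
    0 < Kp T z := by
  have h0 : ‖Rp T z 0‖ ≤ Kp T z := norm_Rp_le hq (by simp)
  have h1 : Rp T z 0 ≠ 0 := by
    intro h
    have h2 := Ap_mul_Rp (T := T) hz hq (s := 0) (by simp)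
    rw [h, mul_zero] at h2
    exact zero_ne_one h2
  exact (norm_pos_iff.mpr h1).trans_le h0

lemma spectrum_Bp [Nontrivial H] (hz : z ≠ 0)
    (hq : Summable (fun k : ℕ => ‖z‖⁻¹ ^ k * ‖T ^ k‖)) {s : ℝ} (hs : |s| ≤ 1) :
    ∀ x ∈ spectrum ℝ (Bp T z s), (Kp T z ^ 2)⁻¹ ≤ x ∧ x ≤ (‖T‖ + ‖z‖) ^ 2 := by
  intro x hx
  have hK := Kp_pos (T := T) hz hq
  have hx0 : 0 ≤ x := spectrum_nonneg_of_nonneg (star_mul_self_nonneg _) hx
  have hup : x ≤ (‖T‖ + ‖z‖) ^ 2 := by
    have h1 := spectrum.norm_le_norm_of_mem hx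
    rw [Real.norm_eq_abs, abs_of_nonneg hx0] at h1
    refine h1.trans ?_
    rw [Bp, CStarRing.norm_star_mul_self, ← sq]
    have := norm_Ap_le (T := T) (z := z) hs
    gcongr
  refine ⟨?_, hup⟩
  set u : (H →L[ℂ] H)ˣ := ⟨Bp T z s, Rp T z s * star (Rp T z s), Bp_inv hz hq hs, Bp_inv' hz hq hs⟩
    with hu
  have hxne : x ≠ 0 := by
    intro h
    rw [h] at hx
    exact spectrum.zero_notMem ℝ u.isUnit hx
  have h2 : x⁻¹ ∈ spectrum ℝ ((u⁻¹ : (H →L[ℂ] H)ˣ) : H →L[ℂ] H) := by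
    have := (spectrum.inv_mem_iff (r := Units.mk0 x hxne) (a := u)).mp hx
    simpa using this
  have h3 := spectrum.norm_le_norm_of_mem h2
  have h4 : ((u⁻¹ : (H →L[ℂ] H)ˣ) : H →L[ℂ] H) = Rp T z s * star (Rp T z s) := rfl
  rw [h4, CStarRing.norm_self_mul_star, Real.norm_eq_abs, abs_of_nonneg (by positivity)] at h3
  have h5 : ‖Rp T z s‖ * ‖Rp T z s‖ ≤ Kp T z ^ 2 := by
    rw [← sq]
    have := norm_Rp_le (T := T) (z := z) hq hs
    gcongr
  have hxp : 0 < x := lt_of_le_of_ne hx0 (Ne.symm hxne)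
  rw [inv_le_comm₀ (by positivity) hxp]
  exact h3.trans h5

/-- the quantity `τ(B⁻¹ B')` vanishes -/
lemma tau_logderiv {ξ : H} (S : StarSubalgebra ℂ (H →L[ℂ] H)) (hS : IsClosed (S : Set (H →L[ℂ] H)))
    (hTS : T ∈ S) (htr : ∀ X ∈ S, ∀ Y ∈ S, tau ξ (X * Y) = tau ξ (Y * X))
    (hT : ∀ k : ℕ, tau ξ (T ^ (k + 1)) = 0) (hz : z ≠ 0)
    (hq : Summable (fun k : ℕ => ‖z‖⁻¹ ^ k * ‖T ^ k‖)) {s : ℝ} (hs : |s| ≤ 1) :
    Rp T z s ∈ S ∧ Ap T z s ∈ S ∧
    tau ξ ((Rp T z s * star (Rp T z s)) * (star T * Ap T z s + star (Ap T z s) * T)) = 0 := by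
  have hN : Np T z s ∈ S := by
    rw [Np]
    have : s • T = ((s : ℂ)) • T := by simp
    rw [this]
    exact S.smul_mem (S.smul_mem hTS _) _
  have hR : Rp T z s ∈ S := by
    rw [Rp]
    refine S.smul_mem ?_ _
    exact tsum_mem hS (fun k => pow_mem hN k)
  have hA : Ap T z s ∈ S := by
    rw [Ap]
    have : s • T = ((s : ℂ)) • T := by simp
    rw [this]
    exact S.sub_mem (S.smul_mem hTS _) (S.smul_mem (one_mem S) _)
  refine ⟨hR, hA, ?_⟩
  have hAR := Ap_mul_Rp (T := T) hz hq hs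
  have hRA := Rp_mul_Ap (T := T) hz hq hs
  have hRT : tau ξ (Rp T z s * T) = 0 := by
    rw [Rp, smul_mul_assoc, map_smul]
    have h1 : (∑' k : ℕ, Np T z s ^ k) * T = ∑' k : ℕ, Np T z s ^ k * T :=
      ((summable_Np hq hs).tsum_mul_right T).symm
    rw [h1, ContinuousLinearMap.map_tsum _ ((summable_Np hq hs).mul_right T)]
    have h2 : ∀ k : ℕ, tau ξ (Np T z s ^ k * T) = 0 := by
      intro k
      have h : (Np T z s) ^ k * T = (z⁻¹) ^ k • (((s ^ k : ℝ) : ℂ) • T ^ (k + 1)) := by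
        rw [Np, _root_.smul_pow, _root_.smul_pow, smul_mul_assoc, smul_mul_assoc, ← pow_succ]
        congr 1
      rw [h, map_smul, map_smul, hT, smul_zero, smul_zero]
    simp [h2]
  have e1 : (Rp T z s * star (Rp T z s)) * (star T * Ap T z s + star (Ap T z s) * T)
      = (Rp T z s * star (Rp T z s) * star T) * Ap T z s
        + Rp T z s * star (Ap T z s * Rp T z s) * T := by
    rw [star_mul]; noncomm_ring
  rw [e1, hAR, star_one, mul_one, map_add, hRT, add_zero]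
  rw [htr _ (mul_mem (mul_mem hR (star_mem hR)) (star_mem hTS)) _ hA]
  have e2 : Ap T z s * (Rp T z s * star (Rp T z s) * star T)
      = (Ap T z s * Rp T z s) * star (T * Rp T z s) := by
    rw [star_mul]; noncomm_ring
  rw [e2, hAR, one_mul, tau_star, htr _ hTS _ hR, hRT, star_zero]

theorem tau_log_eq {ξ : H} (hξ : ‖ξ‖ = 1) (S : StarSubalgebra ℂ (H →L[ℂ] H))
    (hS : IsClosed (S : Set (H →L[ℂ] H)))
    (hTS : T ∈ S) (htr : ∀ X ∈ S, ∀ Y ∈ S, tau ξ (X * Y) = tau ξ (Y * X))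
    (hT : ∀ k : ℕ, tau ξ (T ^ (k + 1)) = 0) (hz : z ≠ 0)
    (hq : Summable (fun k : ℕ => ‖z‖⁻¹ ^ k * ‖T ^ k‖)) :
    tau ξ (cfc Real.log (Bp T z 1)) = (Real.log (‖z‖ ^ 2) : ℂ) := by
  have hξ0 : ξ ≠ 0 := by intro h; rw [h, norm_zero] at hξ; exact zero_ne_one hξ
  have : Nontrivial H := ⟨ξ, 0, hξ0⟩
  have hK := Kp_pos (T := T) hz hq
  have hzn : 0 < ‖z‖ := norm_pos_iff.mpr hz
  set a : ℝ := (Kp T z ^ 2)⁻¹ with ha
  set b : ℝ := (‖T‖ + ‖z‖) ^ 2 with hb
  have ha0 : 0 < a := by positivity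
  have hb0 : 0 < b := by positivity
  have hsp : ∀ s : ℝ, |s| ≤ 1 → ∀ x ∈ spectrum ℝ (Bp T z s), a ≤ x ∧ x ≤ b :=
    fun s hs => spectrum_Bp hz hq hs
  have hab : a ≤ b := by
    obtain ⟨x, hx⟩ := ContinuousFunctionalCalculus.spectrum_nonempty (R := ℝ) (Bp T z 0) (isSelfAdjoint_Bp 0)
    exact (hsp 0 (by simp) x hx).1.trans (hsp 0 (by simp) x hx).2
  set q : ℝ := 1 - a / b with hqdef
  have hab1 : a / b ≤ 1 := by rw [div_le_one hb0]; exact hab
  have hab0 : 0 < a / b := by positivity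
  have hq0 : 0 ≤ q := by rw [hqdef]; linarith
  have hq1 : q < 1 := by rw [hqdef]; linarith
  set Y : ℝ → H →L[ℂ] H := fun s => 1 - b⁻¹ • Bp T z s with hY
  have hYnorm : ∀ s : ℝ, |s| ≤ 1 → ‖Y s‖ ≤ q := by
    intro s hs
    have h1 : Y s = cfc (fun x : ℝ => 1 - b⁻¹ * x) (Bp T z s) := by
      rw [cfc_sub (fun _ => (1 : ℝ)) (fun x => b⁻¹ * x) (Bp T z s) (by fun_prop) (by fun_prop),
        cfc_const_one ℝ (Bp T z s) (isSelfAdjoint_Bp s),
        cfc_const_mul_id b⁻¹ (Bp T z s) (isSelfAdjoint_Bp s)]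
    rw [h1]
    refine norm_cfc_le hq0 ?_
    intro x hx
    obtain ⟨h2, h3⟩ := hsp s hs x hx
    have h4 : x / b ≤ 1 := by rw [div_le_one hb0]; exact h3
    have h5 : a / b ≤ x / b := by gcongr
    rw [Real.norm_eq_abs, abs_le]
    constructor
    · have : b⁻¹ * x = x / b := by ring
      rw [this]; linarith
    · have : b⁻¹ * x = x / b := by ring
      rw [this, hqdef]; linarith
  set B' : ℝ → H →L[ℂ] H := fun s => star T * Ap T z s + star (Ap T z s) * T with hB'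
  have hYder : ∀ s : ℝ, HasDerivAt Y (-(b⁻¹ • B' s)) s := by
    intro s
    have := (hasDerivAt_Bp (T := T) (z := z) s).const_smul b⁻¹
    exact this.const_sub 1
  have hone : (1 : H →L[ℂ] H) ∈ S := one_mem S
  have hYS : ∀ s : ℝ, |s| ≤ 1 → Y s ∈ S := by
    intro s hs
    have hA := (tau_logderiv S hS hTS htr hT hz hq hs).2.1
    simp only [hY]
    rw [real_smul_eq]
    exact S.sub_mem hone (S.smul_mem (mul_mem (star_mem hA) hA) _)
  have hY'S : ∀ s : ℝ, |s| ≤ 1 → -(b⁻¹ • B' s) ∈ S := by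
    intro s hs
    have hA := (tau_logderiv S hS hTS htr hT hz hq hs).2.1
    rw [real_smul_eq]
    exact neg_mem (S.smul_mem (add_mem (mul_mem (star_mem hTS) hA) (mul_mem (star_mem hA) hTS)) _)
  -- the approximants
  set g : ℕ → ℝ → ℂ := fun n s => ∑ k ∈ range n, tau ξ (((1 : ℝ) / (k + 1)) • (Y s) ^ (k + 1))
    with hg
  set D : ℝ := 2 * ‖T‖ * (‖T‖ + ‖z‖) with hD
  have hB'norm : ∀ s : ℝ, |s| ≤ 1 → ‖B' s‖ ≤ D := by
    intro s hs
    have h1 := norm_Ap_le (T := T) (z := z) hs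
    calc ‖B' s‖ ≤ ‖star T * Ap T z s‖ + ‖star (Ap T z s) * T‖ := norm_add_le _ _
      _ ≤ ‖star T‖ * ‖Ap T z s‖ + ‖star (Ap T z s)‖ * ‖T‖ := by
          gcongr <;> exact norm_mul_le _ _
      _ ≤ ‖T‖ * (‖T‖ + ‖z‖) + (‖T‖ + ‖z‖) * ‖T‖ := by
          rw [norm_star, norm_star]; gcongr
      _ = D := by rw [hD]; ring
  have hgder : ∀ n : ℕ, ∀ s : ℝ, |s| ≤ 1 → ∃ d : ℂ, HasDerivAt (g n) d s ∧
      ‖d‖ ≤ q ^ n * (Kp T z ^ 2 * D) := by
    intro n s hs
    have hmem := hYS s hs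
    have hmem' := hY'S s hs
    have htr' : ∀ i j : ℕ, tau ξ (Y s ^ i * (-(b⁻¹ • B' s)) * Y s ^ j)
        = tau ξ (Y s ^ (i + j) * (-(b⁻¹ • B' s))) := by
      intro i j
      rw [htr _ (mul_mem (pow_mem hmem i) hmem') _ (pow_mem hmem j), ← mul_assoc, ← pow_add,
        add_comm]
    refine ⟨∑ k ∈ range n, tau ξ (Y s ^ k * (-(b⁻¹ • B' s))), ?_, ?_⟩
    · exact HasDerivAt.fun_sum
        (fun k _ => hasDerivAt_tau_pow ξ Y (-(b⁻¹ • B' s)) s (hYder s) htr' k)
    · obtain ⟨hR, hA, h0⟩ := tau_logderiv S hS hTS htr hT hz hq hs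
      set R2 := Rp T z s * star (Rp T z s) with hR2
      have hBR := Bp_inv (T := T) hz hq hs
      rw [← hR2] at hBR
      have h1 : (∑ k ∈ range n, Y s ^ k) * (b⁻¹ • Bp T z s) = 1 - Y s ^ n := by
        have := geom_sum_mul_neg (Y s) n
        have h2 : 1 - Y s = b⁻¹ • Bp T z s := by simp [hY]
        rwa [h2] at this
      have h2 : (∑ k ∈ range n, Y s ^ k) = (1 - Y s ^ n) * (b • R2) := by
        rw [← h1, mul_assoc, smul_mul_smul_comm, inv_mul_cancel₀ hb0.ne', one_smul, hBR, mul_one]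
      have h3 : ∑ k ∈ range n, tau ξ (Y s ^ k * (-(b⁻¹ • B' s)))
          = tau ξ (Y s ^ n * (R2 * B' s)) := by
        rw [← map_sum, ← Finset.sum_mul, h2]
        have e : (1 - Y s ^ n) * (b • R2) * (-(b⁻¹ • B' s))
            = Y s ^ n * (R2 * B' s) - R2 * B' s := by
          rw [mul_smul_comm, mul_neg, smul_mul_smul_comm, mul_inv_cancel₀ hb0.ne', one_smul]
          noncomm_ring
        rw [e, map_sub]
        have : tau ξ (R2 * B' s) = 0 := h0
        rw [this, sub_zero]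
      rw [h3]
      have hYn : ‖Y s ^ n‖ ≤ q ^ n :=
        (norm_pow_le (Y s) n).trans (pow_le_pow_left₀ (norm_nonneg _) (hYnorm s hs) n)
      have hR2n : ‖R2‖ ≤ Kp T z ^ 2 := by
        rw [hR2, CStarRing.norm_self_mul_star, ← sq]
        have := norm_Rp_le (T := T) (z := z) hq hs
        gcongr
      calc ‖tau ξ (Y s ^ n * (R2 * B' s))‖ ≤ ‖Y s ^ n * (R2 * B' s)‖ := norm_tau_le hξ _
        _ ≤ ‖Y s ^ n‖ * (‖R2‖ * ‖B' s‖) := by
            refine (norm_mul_le _ _).trans ?_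
            gcongr
            exact norm_mul_le _ _
        _ ≤ q ^ n * (Kp T z ^ 2 * D) := by
            have := hB'norm s hs
            gcongr
  have hgdiff : ∀ n : ℕ, ‖g n 1 - g n 0‖ ≤ q ^ n * (Kp T z ^ 2 * D) := by
    intro n
    have hs : ∀ x ∈ Set.Icc (0 : ℝ) 1, |x| ≤ 1 := by
      intro x hx; rw [abs_of_nonneg hx.1]; exact hx.2
    choose! d hd using hgder n
    exact norm_image_sub_le_of_norm_deriv_le_segment_01' (f' := d)
      (fun x hx => (hd x (hs x hx)).1.hasDerivWithinAt)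
      (fun x hx => (hd x (hs x (Set.Ico_subset_Icc_self hx))).2)
  -- approximation of the logarithm
  have happ : ∀ n : ℕ, ∀ s : ℝ, |s| ≤ 1 →
      ‖tau ξ (cfc Real.log (Bp T z s)) - ((Real.log b : ℂ) - g n s)‖ ≤ q ^ (n + 1) / (a / b) := by
    intro n s hs
    have h1 := cfc_log_approx (Bp T z s) (isSelfAdjoint_Bp s) a b ha0 hab (hsp s hs) n
    have h2 := (norm_tau_le hξ _).trans h1
    have h3 : tau ξ (cfc Real.log (Bp T z s) - ((Real.log b) • (1 : H →L[ℂ] H)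
      - ∑ k ∈ range n, ((1 : ℝ) / (k + 1)) • (1 - b⁻¹ • (Bp T z s)) ^ (k + 1)))
      = tau ξ (cfc Real.log (Bp T z s)) - ((Real.log b : ℂ) - g n s) := by
      rw [map_sub, map_sub, map_sum]
      congr 2
      rw [real_smul_eq, map_smul, tau_one hξ, smul_eq_mul, mul_one]
    rwa [h3] at h2
  have h0 : tau ξ (cfc Real.log (Bp T z 0)) = (Real.log (‖z‖ ^ 2) : ℂ) := by
    have e : Bp T z 0 = algebraMap ℝ (H →L[ℂ] H) (‖z‖ ^ 2) := by
      rw [Bp, Ap, zero_smul, zero_sub, star_neg, neg_mul_neg, star_smul, star_one,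
        smul_mul_smul_comm, one_mul, Algebra.algebraMap_eq_smul_one]
      have : star z * z = ((‖z‖ ^ 2 : ℝ) : ℂ) := by
        have := Complex.conj_mul' z
        push_cast
        exact this
      rw [this, real_smul_eq]
    rw [e, cfc_algebraMap, Algebra.algebraMap_eq_smul_one]
    rw [real_smul_eq, map_smul, tau_one hξ, smul_eq_mul, mul_one]
  have hbound : ∀ n : ℕ, ‖tau ξ (cfc Real.log (Bp T z 1)) - (Real.log (‖z‖ ^ 2) : ℂ)‖
      ≤ q ^ n * (Kp T z ^ 2 * D + 2 * (q / (a / b))) := by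
    intro n
    have h1 := happ n 1 (by simp)
    have h2 := happ n 0 (by simp)
    rw [h0] at h2
    have h3 := hgdiff n
    have e : tau ξ (cfc Real.log (Bp T z 1)) - (Real.log (‖z‖ ^ 2) : ℂ)
        = (tau ξ (cfc Real.log (Bp T z 1)) - ((Real.log b : ℂ) - g n 1))
          - ((Real.log (‖z‖ ^ 2) : ℂ) - ((Real.log b : ℂ) - g n 0)) - (g n 1 - g n 0) := by ring
    rw [e]
    refine (norm_sub_le _ _).trans ((add_le_add (norm_sub_le _ _) le_rfl).trans ?_)
    have e2 : q ^ n * (Kp T z ^ 2 * D + 2 * (q / (a / b)))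
        = q ^ (n + 1) / (a / b) + q ^ (n + 1) / (a / b) + q ^ n * (Kp T z ^ 2 * D) := by
      rw [pow_succ]; ring
    rw [e2]
    linarith
  have hlim : Filter.Tendsto (fun n : ℕ => q ^ n * (Kp T z ^ 2 * D + 2 * (q / (a / b))))
      Filter.atTop (nhds (0 * (Kp T z ^ 2 * D + 2 * (q / (a / b))))) :=
    (tendsto_pow_atTop_nhds_zero_of_lt_one hq0 hq1).mul_const _
  rw [zero_mul] at hlim
  have hle : ‖tau ξ (cfc Real.log (Bp T z 1)) - (Real.log (‖z‖ ^ 2) : ℂ)‖ ≤ 0 :=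
    ge_of_tendsto' hlim hbound
  exact sub_eq_zero.mp (norm_eq_zero.mp (le_antisymm hle (norm_nonneg _)))

end Main

section VDet

lemma re_tau_mono (ξ : H) {X Y : H →L[ℂ] H} (h : X ≤ Y) : (tau ξ X).re ≤ (tau ξ Y).re := by
  rw [ContinuousLinearMap.le_def] at h
  have h1 := h.re_inner_nonneg_right ξ
  have h2 : RCLike.re (inner ℂ ξ ((Y - X) ξ)) = (tau ξ Y).re - (tau ξ X).re := by
    rw [tau_apply, tau_apply, ContinuousLinearMap.sub_apply, inner_sub_right]
    simp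
  rw [h2] at h1
  linarith

lemma cfc_log_add (B : H →L[ℂ] H) (hB : IsSelfAdjoint B) (hsp : ∀ x ∈ spectrum ℝ B, 0 ≤ x)
    (ε : ℝ) (hε : 0 < ε) :
    cfc Real.log (B + ((ε : ℝ) : ℂ) • (1 : H →L[ℂ] H)) = cfc (fun x : ℝ => Real.log (x + ε)) B := by
  have h1 : B + ((ε : ℝ) : ℂ) • (1 : H →L[ℂ] H) = cfc (fun x : ℝ => x + ε) B := by
    rw [cfc_add_const ε (fun x => x) B (by fun_prop) hB, cfc_id' ℝ B hB,
      Algebra.algebraMap_eq_smul_one, real_smul_eq]
  rw [h1, ← cfc_comp' Real.log (fun x : ℝ => x + ε) B ?_ (by fun_prop) hB]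
  refine Real.continuousOn_log.mono ?_
  rintro _ ⟨x, hx, rfl⟩
  have := hsp x hx
  simp only [Set.mem_compl_iff, Set.mem_singleton_iff]
  intro h; linarith

theorem vectorDet_sub {T : H →L[ℂ] H} {z : ℂ} {ξ : H} (hξ : ‖ξ‖ = 1)
    (S : StarSubalgebra ℂ (H →L[ℂ] H))
    (hS : IsClosed (S : Set (H →L[ℂ] H)))
    (hTS : T ∈ S) (htr : ∀ X ∈ S, ∀ Y ∈ S, tau ξ (X * Y) = tau ξ (Y * X))
    (hT : ∀ k : ℕ, tau ξ (T ^ (k + 1)) = 0) (hz : z ≠ 0)
    (hq : Summable (fun k : ℕ => ‖z‖⁻¹ ^ k * ‖T ^ k‖)) :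
    vectorDet ξ (T - z • (1 : H →L[ℂ] H)) = ‖z‖ := by
  have hξ0 : ξ ≠ 0 := by intro h; rw [h, norm_zero] at hξ; exact zero_ne_one hξ
  have : Nontrivial H := ⟨ξ, 0, hξ0⟩
  have hK := Kp_pos (T := T) hz hq
  have hzn : 0 < ‖z‖ := norm_pos_iff.mpr hz
  set a : ℝ := (Kp T z ^ 2)⁻¹ with ha
  have ha0 : 0 < a := by positivity
  have hA : T - z • (1 : H →L[ℂ] H) = Ap T z 1 := by rw [Ap, one_smul]
  have hB : star (T - z • (1 : H →L[ℂ] H)) * (T - z • (1 : H →L[ℂ] H)) = Bp T z 1 := by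
    rw [hA, Bp]
  have hsp : ∀ x ∈ spectrum ℝ (Bp T z 1), a ≤ x :=
    fun x hx => (spectrum_Bp hz hq (by simp) x hx).1
  have hlog := tau_log_eq hξ S hS hTS htr hT hz hq
  have hsa := isSelfAdjoint_Bp (T := T) (z := z) 1
  set v : {r : ℝ // 0 < r} → ℝ := fun ε => Real.exp (RCLike.re (inner ℂ ξ
      (cfc Real.log (star (T - z • (1 : H →L[ℂ] H)) * (T - z • (1 : H →L[ℂ] H))
        + ((ε : ℝ) : ℂ) • (1 : H →L[ℂ] H)) ξ)) / 2) with hv
  have hcont1 : ContinuousOn Real.log (spectrum ℝ (Bp T z 1)) := by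
    refine Real.continuousOn_log.mono ?_
    intro x hx
    have := hsp x hx
    simp only [Set.mem_compl_iff, Set.mem_singleton_iff]
    intro h; rw [h] at this; linarith
  have hcont2 : ∀ ε : ℝ, 0 < ε →
      ContinuousOn (fun x : ℝ => Real.log (x + ε)) (spectrum ℝ (Bp T z 1)) := by
    intro ε hε
    refine ContinuousOn.log (by fun_prop) ?_
    intro x hx
    have := hsp x hx
    intro h; linarith
  have hlow : ∀ ε, ‖z‖ ≤ v ε := by
    intro ε
    have h1 : cfc Real.log (Bp T z 1) ≤ cfc (fun x : ℝ => Real.log (x + ε)) (Bp T z 1) := by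
      refine cfc_mono (fun x hx => ?_) hcont1 (hcont2 ε ε.2)
      have := hsp x hx
      exact Real.log_le_log (by linarith) (by linarith [ε.2])
    have h2 := re_tau_mono ξ h1
    rw [hlog, Complex.ofReal_re] at h2
    have h3 : v ε = Real.exp ((tau ξ (cfc (fun x : ℝ => Real.log (x + ε)) (Bp T z 1))).re / 2) := by
      simp only [hv]
      rw [hB, cfc_log_add _ hsa (fun x hx => ha0.le.trans (hsp x hx)) ε ε.2]
      rfl
    rw [h3]
    calc ‖z‖ = Real.exp (Real.log (‖z‖ ^ 2) / 2) := by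
          rw [Real.log_pow]; push_cast
          rw [mul_div_cancel_left₀ _ (by norm_num : (2 : ℝ) ≠ 0), Real.exp_log hzn]
      _ ≤ _ := by gcongr
  have hup : ∀ ε, v ε ≤ Real.exp ((Real.log (‖z‖ ^ 2) + ε / a) / 2) := by
    intro ε
    have h3 : v ε = Real.exp ((tau ξ (cfc (fun x : ℝ => Real.log (x + ε)) (Bp T z 1))).re / 2) := by
      simp only [hv]
      rw [hB, cfc_log_add _ hsa (fun x hx => ha0.le.trans (hsp x hx)) ε ε.2]
      rfl
    rw [h3]
    have h4 : ‖cfc (fun x : ℝ => Real.log (x + ε)) (Bp T z 1) - cfc Real.log (Bp T z 1)‖ ≤ ε / a := by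
      rw [← cfc_sub _ _ _ (hcont2 ε ε.2) hcont1]
      refine norm_cfc_le (by have := ε.2; positivity) ?_
      intro x hx
      have hx1 := hsp x hx
      have hx0 : 0 < x := ha0.trans_le hx1
      have hε := ε.2
      rw [← Real.log_div (by positivity) hx0.ne', Real.norm_eq_abs, abs_of_nonneg]
      · have : (x + ε) / x = 1 + ε / x := by field_simp
        rw [this]
        have h5 := Real.log_le_sub_one_of_pos (x := 1 + (ε : ℝ) / x) (by positivity)
        have h6 : (ε : ℝ) / x ≤ ε / a := by gcongr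
        linarith
      · apply Real.log_nonneg
        rw [le_div_iff₀ hx0]; linarith
    have h5 := (norm_tau_le hξ _).trans h4
    rw [map_sub, hlog] at h5
    have h6 := (Complex.abs_re_le_norm _).trans h5
    rw [Complex.sub_re, Complex.ofReal_re] at h6
    have h7 := (abs_le.mp h6).2
    gcongr
    linarith
  change (⨅ ε, v ε) = ‖z‖
  have hne : Nonempty {r : ℝ // 0 < r} := ⟨⟨1, one_pos⟩⟩
  apply le_antisymm
  · have hbdd : BddBelow (Set.range v) := ⟨‖z‖, by rintro _ ⟨ε, rfl⟩; exact hlow ε⟩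
    have h1 : ∀ ε : ℝ, 0 < ε → (⨅ ε, v ε) ≤ Real.exp ((Real.log (‖z‖ ^ 2) + ε / a) / 2) :=
      fun ε hε => (ciInf_le hbdd ⟨ε, hε⟩).trans (hup ⟨ε, hε⟩)
    have h2 : Filter.Tendsto (fun ε : ℝ => Real.exp ((Real.log (‖z‖ ^ 2) + ε / a) / 2))
        (nhdsWithin 0 (Set.Ioi 0)) (nhds (Real.exp ((Real.log (‖z‖ ^ 2) + 0 / a) / 2))) := by
      apply Filter.Tendsto.mono_left _ nhdsWithin_le_nhds
      have : Continuous (fun ε : ℝ => Real.exp ((Real.log (‖z‖ ^ 2) + ε / a) / 2)) := by fun_prop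
      exact this.tendsto 0
    have h3 : Real.exp ((Real.log (‖z‖ ^ 2) + 0 / a) / 2) = ‖z‖ := by
      rw [zero_div, add_zero, Real.log_pow]; push_cast
      rw [mul_div_cancel_left₀ _ (by norm_num : (2 : ℝ) ≠ 0), Real.exp_log hzn]
    rw [h3] at h2
    exact ge_of_tendsto h2 (eventually_nhdsWithin_of_forall fun ε hε => h1 ε hε)
  · exact le_ciInf hlow

theorem vectorDet_zero {T : H →L[ℂ] H} {ξ : H} (hξ : ‖ξ‖ = 1) (hTn : ‖T‖ ≤ 1) (m : ℕ → ℝ)
    (hm : ∀ k : ℕ, tau ξ ((1 - star T * T) ^ k) = (m k : ℂ))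
    (hdiv : ∀ M : ℝ, ∃ n : ℕ, M ≤ ∑ k ∈ range n, m (k + 1) / (k + 1)) :
    vectorDet ξ T = 0 := by
  have hξ0 : ξ ≠ 0 := by intro h; rw [h, norm_zero] at hξ; exact zero_ne_one hξ
  have : Nontrivial H := ⟨ξ, 0, hξ0⟩
  set C : H →L[ℂ] H := star T * T with hC
  have hCsa : IsSelfAdjoint C := IsSelfAdjoint.star_mul_self _
  have hsp : ∀ x ∈ spectrum ℝ C, 0 ≤ x ∧ x ≤ 1 := by
    intro x hx
    have hx0 : 0 ≤ x := spectrum_nonneg_of_nonneg (star_mul_self_nonneg _) hx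
    refine ⟨hx0, ?_⟩
    have h1 := spectrum.norm_le_norm_of_mem hx
    rw [Real.norm_eq_abs, abs_of_nonneg hx0] at h1
    refine h1.trans ?_
    rw [hC, CStarRing.norm_star_mul_self]
    nlinarith [norm_nonneg T]
  set v : {r : ℝ // 0 < r} → ℝ := fun ε => Real.exp (RCLike.re (inner ℂ ξ
      (cfc Real.log (star T * T + ((ε : ℝ) : ℂ) • (1 : H →L[ℂ] H)) ξ)) / 2) with hv
  have hup : ∀ ε : {r : ℝ // 0 < r}, ∀ n : ℕ, v ε ≤ Real.exp ((Real.log (1 + ε)
      - ∑ k ∈ range n, (1 / ((k : ℝ) + 1)) * ((1 + (ε : ℝ))⁻¹) ^ (k + 1) * m (k + 1)) / 2) := by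
    intro ε n
    have hε := ε.2
    set e : ℝ := (1 + (ε : ℝ))⁻¹ with he
    have he0 : 0 < e := by positivity
    have he1 : e < 1 := by rw [he]; exact inv_lt_one_of_one_lt₀ (by linarith)
    set p : ℝ[X] := Polynomial.C (Real.log (1 + ε))
      - ∑ k ∈ range n, Polynomial.C ((1 / ((k : ℝ) + 1)) * e ^ (k + 1)) * (1 - X) ^ (k + 1) with hp
    have h1 : cfc p.eval C = (Real.log (1 + ε)) • (1 : H →L[ℂ] H)
        - ∑ k ∈ range n, ((1 / ((k : ℝ) + 1)) * e ^ (k + 1)) • (1 - C) ^ (k + 1) := by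
      rw [cfc_polynomial p C]
      simp only [hp, map_sub, map_sum, map_mul, map_pow, map_one, aeval_C, aeval_X,
        Algebra.algebraMap_eq_smul_one, smul_mul_assoc, one_mul]
      simp only [smul_smul, _root_.smul_pow, one_pow, smul_mul_assoc, one_mul]
    have h2 : cfc (fun x : ℝ => Real.log (x + ε)) C ≤ cfc p.eval C := by
      refine cfc_mono (fun x hx => ?_) ?_ p.continuous.continuousOn
      · obtain ⟨hx0, hx1⟩ := hsp x hx
        set y : ℝ := e * (1 - x) with hy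
        have hy0 : 0 ≤ y := mul_nonneg he0.le (by linarith)
        have hy1 : y < 1 := by
          calc y ≤ e * 1 := by rw [hy]; gcongr; linarith
            _ < 1 := by linarith
        have h3 := Real.hasSum_pow_div_log_of_abs_lt_one (x := y)
          (by rw [abs_of_nonneg hy0]; exact hy1)
        have h4 : ∑ k ∈ range n, y ^ (k + 1) / (k + 1) ≤ -Real.log (1 - y) :=
          sum_le_hasSum _ (fun i _ => by positivity) h3
        have h5 : x + ε = (1 + ε) * (1 - y) := by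
          rw [hy, he]; field_simp; ring
        have h6 : Real.log (x + ε) = Real.log (1 + ε) + Real.log (1 - y) := by
          rw [h5, Real.log_mul (by positivity) (by linarith)]
        have h7 : p.eval x = Real.log (1 + ε) - ∑ k ∈ range n, y ^ (k + 1) / (k + 1) := by
          simp only [hp, eval_sub, eval_finsetSum, eval_mul, eval_pow, eval_one, eval_C, eval_X]
          congr 1
          refine Finset.sum_congr rfl fun i _ => ?_
          rw [hy, _root_.mul_pow]; ring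
        rw [h6, h7]; linarith
      · refine ContinuousOn.log (by fun_prop) ?_
        intro x hx
        have := (hsp x hx).1
        intro h; linarith
    have h3 : v ε = Real.exp ((tau ξ (cfc (fun x : ℝ => Real.log (x + ε)) C)).re / 2) := by
      simp only [hv]
      rw [← hC, cfc_log_add _ hCsa (fun x hx => (hsp x hx).1) ε ε.2]
      rfl
    have h4 := re_tau_mono ξ h2
    rw [h3]
    have h5 : (tau ξ (cfc p.eval C)).re = Real.log (1 + ε)
      - ∑ k ∈ range n, (1 / ((k : ℝ) + 1)) * e ^ (k + 1) * m (k + 1) := by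
      rw [h1, map_sub, map_sum, real_smul_eq, map_smul, tau_one hξ, Complex.sub_re, smul_eq_mul,
        mul_one, Complex.ofReal_re]
      congr 1
      rw [Complex.re_sum]
      refine Finset.sum_congr rfl fun k _ => ?_
      rw [real_smul_eq, map_smul, hm, smul_eq_mul, ← Complex.ofReal_mul, Complex.ofReal_re]
    rw [h5] at h4
    gcongr
  change (⨅ ε, v ε) = 0
  have hne : Nonempty {r : ℝ // 0 < r} := ⟨⟨1, one_pos⟩⟩
  have hpos : ∀ ε, 0 ≤ v ε := fun ε => (Real.exp_pos _).le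
  apply le_antisymm
  · have hbdd : BddBelow (Set.range v) := ⟨0, by rintro _ ⟨ε, rfl⟩; exact hpos ε⟩
    refine le_of_forall_pos_le_add fun δ hδ => ?_
    rw [zero_add]
    obtain ⟨n, hn⟩ := hdiv (-2 * Real.log δ)
    have h1 : ∀ ε : ℝ, 0 < ε → (⨅ ε, v ε) ≤ Real.exp ((Real.log (1 + ε)
      - ∑ k ∈ range n, (1 / ((k : ℝ) + 1)) * ((1 + (ε : ℝ))⁻¹) ^ (k + 1) * m (k + 1)) / 2) :=
      fun ε hε => (ciInf_le hbdd ⟨ε, hε⟩).trans (hup ⟨ε, hε⟩ n)
    have h2 : Filter.Tendsto (fun ε : ℝ => Real.exp ((Real.log (1 + ε)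
      - ∑ k ∈ range n, (1 / ((k : ℝ) + 1)) * ((1 + (ε : ℝ))⁻¹) ^ (k + 1) * m (k + 1)) / 2))
        (nhdsWithin 0 (Set.Ioi 0)) (nhds (Real.exp ((Real.log (1 + 0)
      - ∑ k ∈ range n, (1 / ((k : ℝ) + 1)) * ((1 + (0 : ℝ))⁻¹) ^ (k + 1) * m (k + 1)) / 2))) := by
      apply Filter.Tendsto.mono_left _ nhdsWithin_le_nhds
      have : ContinuousAt (fun ε : ℝ => Real.exp ((Real.log (1 + ε)
        - ∑ k ∈ range n, (1 / ((k : ℝ) + 1)) * ((1 + (ε : ℝ))⁻¹) ^ (k + 1) * m (k + 1)) / 2)) 0 := by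
        have hc1 : ContinuousAt (fun ε : ℝ => Real.log (1 + ε)) 0 :=
          ContinuousAt.log (by fun_prop) (by norm_num)
        have hc2 : ContinuousAt (fun ε : ℝ => (1 + (ε : ℝ))⁻¹) 0 :=
          ContinuousAt.inv₀ (by fun_prop) (by norm_num)
        have hc3 : ContinuousAt (fun ε : ℝ => ∑ k ∈ range n,
            (1 / ((k : ℝ) + 1)) * ((1 + (ε : ℝ))⁻¹) ^ (k + 1) * m (k + 1)) 0 := by
          apply tendsto_finsetSum
          intro k _
          exact ((tendsto_const_nhds.mul (hc2.pow (k + 1))).mul tendsto_const_nhds)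
        exact ((hc1.sub hc3).div_const 2).rexp
      exact this
    have h3 : Real.exp ((Real.log (1 + 0)
      - ∑ k ∈ range n, (1 / ((k : ℝ) + 1)) * ((1 + (0 : ℝ))⁻¹) ^ (k + 1) * m (k + 1)) / 2) ≤ δ := by
      have h4 : ∑ k ∈ range n, (1 / ((k : ℝ) + 1)) * ((1 + (0 : ℝ))⁻¹) ^ (k + 1) * m (k + 1)
          = ∑ k ∈ range n, m (k + 1) / (k + 1) := by
        refine Finset.sum_congr rfl fun k _ => ?_
        rw [add_zero, inv_one, one_pow]; ring
      rw [h4, add_zero, Real.log_one]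
      calc Real.exp ((0 - ∑ k ∈ range n, m (k + 1) / (k + 1)) / 2)
          ≤ Real.exp (Real.log δ) := by gcongr; linarith
        _ = δ := Real.exp_log hδ
    exact (ge_of_tendsto h2 (eventually_nhdsWithin_of_forall fun ε hε => h1 ε hε)).trans h3
  · exact le_ciInf hpos

end VDet

end Crest.Agent.R113.Det
end

-- ▼ part R113/DetMeas
section

/-!
# Row 113, S0151: measure theory of the product rotation (owner helper899)

Weighted composition operators on `L²`, invariance of the cube measure, measurability.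
-/

set_option autoImplicit false

open MeasureTheory Filter Topology
open scoped ENNReal

namespace Crest.Agent.R113.Det

open Crest.AnalysisR.ProductShift

/-- weighted composition operators -/
theorem exists_wcomp {Ω : Type*} [MeasurableSpace Ω] {μ : Measure Ω} (φ : Ω → Ω)
    (hφ : MeasurePreserving φ μ μ) (m : Ω → ℂ) (hm : Measurable m) (C : ℝ)
    (hC : ∀ p, ‖m p‖ ≤ C) (hC0 : 0 ≤ C) :
    ∃ W : Lp ℂ 2 μ →L[ℂ] Lp ℂ 2 μ,
      (∀ g : Lp ℂ 2 μ, (W g : Ω → ℂ) =ᵐ[μ] fun p => m p * (g : Ω → ℂ) (φ p)) ∧ ‖W‖ ≤ C := by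
  have hmem : ∀ g : Lp ℂ 2 μ,
      MemLp (fun p => m p * (Lp.compMeasurePreserving φ hφ g : Ω → ℂ) p) 2 μ := by
    intro g
    refine MemLp.of_le_mul (c := C) (Lp.memLp (Lp.compMeasurePreserving φ hφ g))
      (hm.aestronglyMeasurable.mul (Lp.aestronglyMeasurable _)) (Eventually.of_forall fun p => ?_)
    rw [norm_mul]
    exact mul_le_mul_of_nonneg_right (hC p) (norm_nonneg _)
  have hae : ∀ g : Lp ℂ 2 μ, ((hmem g).toLp _ : Ω → ℂ) =ᵐ[μ] fun p => m p * (g : Ω → ℂ) (φ p) := by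
    intro g
    filter_upwards [(hmem g).coeFn_toLp, Lp.coeFn_compMeasurePreserving g hφ] with p h1 h2
    rw [h1, h2]
    rfl
  have hpull : ∀ {f g : Ω → ℂ}, f =ᵐ[μ] g → (fun p => f (φ p)) =ᵐ[μ] fun p => g (φ p) := by
    intro f g h
    exact hφ.quasiMeasurePreserving.ae_eq_comp h
  let L : Lp ℂ 2 μ →ₗ[ℂ] Lp ℂ 2 μ :=
    { toFun := fun g => (hmem g).toLp _
      map_add' := by
        intro f g
        refine Lp.ext ?_
        filter_upwards [hae (f + g), hae f, hae g, Lp.coeFn_add ((hmem f).toLp _) ((hmem g).toLp _),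
          hpull (Lp.coeFn_add f g)] with p h1 h2 h3 h4 h5
        rw [h1, h4, Pi.add_apply, h2, h3, h5, Pi.add_apply, mul_add]
      map_smul' := by
        intro c f
        refine Lp.ext ?_
        filter_upwards [hae (c • f), hae f, Lp.coeFn_smul c ((hmem f).toLp _),
          hpull (Lp.coeFn_smul c f)] with p h1 h2 h4 h5
        rw [RingHom.id_apply, h1, h4, Pi.smul_apply, h2, h5, Pi.smul_apply, smul_eq_mul, smul_eq_mul]
        ring }
  have hb : ∀ g : Lp ℂ 2 μ, ‖L g‖ ≤ C * ‖g‖ := by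
    intro g
    rw [← Lp.norm_compMeasurePreserving g hφ]
    refine Lp.norm_le_mul_norm_of_ae_le_mul ?_
    filter_upwards [(hmem g).coeFn_toLp] with p h1
    change ‖((hmem g).toLp _ : Ω → ℂ) p‖ ≤ _
    rw [h1, norm_mul]
    exact mul_le_mul_of_nonneg_right (hC p) (norm_nonneg _)
  refine ⟨L.mkContinuous C hb, fun g => ?_, L.mkContinuous_norm_le hC0 hb⟩
  exact hae g

/-! ### rotations -/

theorem measurePreserving_fract (a : ℝ) :
    MeasurePreserving (fun x : ℝ => Int.fract (x + a)) unitLebesgue unitLebesgue := by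
  have hmeas : Measurable (fun x : ℝ => Int.fract (x + a)) :=
    measurable_fract.comp (measurable_id.add_const a)
  refine ⟨hmeas, ?_⟩
  ext E hE
  rw [Measure.map_apply hmeas hE]
  unfold unitLebesgue
  have hB : MeasurableSet (Int.fract ⁻¹' E : Set ℝ) := measurable_fract hE
  rw [restrict_Ico_eq_restrict_Ioc, Measure.restrict_apply (hmeas hE)]
  have e1 : ((fun x : ℝ => Int.fract (x + a)) ⁻¹' E) ∩ Set.Ioc 0 1 =
      (fun x : ℝ => x + a) ⁻¹' ((Int.fract ⁻¹' E) ∩ Set.Ioc a (a + 1)) := by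
    ext x
    simp only [Set.mem_inter_iff, Set.mem_preimage, Set.mem_Ioc]
    constructor
    · rintro ⟨h1, h2, h3⟩
      exact ⟨h1, by linarith, by linarith⟩
    · rintro ⟨h1, h2, h3⟩
      exact ⟨h1, by linarith, by linarith⟩
  rw [e1, (measurePreserving_add_right volume a).measure_preimage
    (hB.inter measurableSet_Ioc).nullMeasurableSet]
  have h1 := (isAddFundamentalDomain_Ioc (T := 1) one_pos a volume).measure_set_eq
    (isAddFundamentalDomain_Ioc (T := 1) one_pos 0 volume) hB (by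
      rintro ⟨g, hg⟩
      rw [AddSubgroup.mem_zmultiples_iff] at hg
      obtain ⟨k, hk⟩ := hg
      ext x
      simp only [Set.mem_preimage]
      have : (⟨g, AddSubgroup.mem_zmultiples_iff.2 ⟨k, hk⟩⟩ : AddSubgroup.zmultiples (1 : ℝ)) +ᵥ x
          = x + (k : ℝ) := by
        change g + x = x + (k : ℝ)
        rw [← hk]; simp [add_comm]
      rw [this, Int.fract_add_intCast])
  rw [h1, zero_add]
  -- restrict to `Ico`
  rw [← Measure.restrict_apply hB, ← restrict_Ico_eq_restrict_Ioc, Measure.restrict_apply hB,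
    Measure.restrict_apply hE]
  congr 1
  ext x
  simp only [Set.mem_inter_iff, Set.mem_preimage, Set.mem_Ico]
  constructor
  · rintro ⟨h1, h2, h3⟩
    rw [Int.fract_eq_self.2 ⟨h2, h3⟩] at h1
    exact ⟨h1, h2, h3⟩
  · rintro ⟨h1, h2, h3⟩
    rw [Int.fract_eq_self.2 ⟨h2, h3⟩]
    exact ⟨h1, h2, h3⟩

theorem measurePreserving_orbit (θ : ℕ → ℝ) (k : ℤ) :
    MeasurePreserving (orbitPoint θ k) cubeMeasure cubeMeasure := by
  have hmeas : Measurable (orbitPoint θ k) := by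
    unfold orbitPoint
    refine measurable_pi_iff.2 fun i => ?_
    exact measurable_fract.comp ((measurable_pi_apply i).add_const _)
  refine ⟨hmeas, ?_⟩
  unfold cubeMeasure
  refine Measure.eq_infinitePi _ fun s t ht => ?_
  rw [Measure.map_apply hmeas (MeasurableSet.pi s.countable_toSet fun i _ => ht i)]
  have e1 : orbitPoint θ k ⁻¹' (Set.pi s t) =
      Set.pi s fun i => (fun x : ℝ => Int.fract (x + (k : ℝ) * θ i)) ⁻¹' (t i) := by
    ext x
    simp only [Set.mem_preimage, Set.mem_pi, orbitPoint]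
  rw [e1, Measure.infinitePi_pi]
  · refine Finset.prod_congr rfl fun i _ => ?_
    exact (measurePreserving_fract ((k : ℝ) * θ i)).measure_preimage (ht i).nullMeasurableSet
  · intro i _
    exact (measurePreserving_fract ((k : ℝ) * θ i)).measurable (ht i)

theorem measurePreserving_pair (θ : ℕ → ℝ) (a b : ℤ) :
    MeasurePreserving (fun p : (ℕ → ℝ) × ℤ => (orbitPoint θ a p.1, p.2 + b)) pairMeasure
      pairMeasure := by
  unfold pairMeasure
  have h2 : MeasurePreserving (fun k : ℤ => k + b) Measure.count Measure.count :=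
    measurePreserving_add_right Measure.count b
  exact (measurePreserving_orbit θ a).prod h2

theorem ae_unit : ∀ᵐ x ∂cubeMeasure, ∀ i, 0 ≤ x i ∧ x i < 1 := by
  rw [ae_all_iff]
  intro i
  have h1 : ∀ᵐ y ∂unitLebesgue, 0 ≤ y ∧ y < 1 := by
    unfold unitLebesgue
    filter_upwards [ae_restrict_mem measurableSet_Ico] with y hy
    exact hy
  have h2 : MeasurePreserving (Function.eval i) cubeMeasure unitLebesgue :=
    measurePreserving_eval_infinitePi (fun _ : ℕ => unitLebesgue) i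
  exact h2.quasiMeasurePreserving.ae h1

theorem measurable_dropCost (θ c : ℕ → ℝ) : Measurable (dropCost θ c) := by
  unfold dropCost
  refine Measurable.tsum fun i => ?_
  refine ENNReal.measurable_ofReal.comp (Measurable.const_mul ?_ _)
  exact (measurable_from_top (f := fun n : ℤ => (n : ℝ))).comp
    (Int.measurable_floor.comp ((measurable_pi_apply i).add_const _))

theorem measurable_weight (θ c : ℕ → ℝ) : Measurable (weight θ c) := by
  unfold weight
  refine Measurable.ite ((measurable_dropCost θ c) (measurableSet_singleton _)) measurable_const ?_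
  exact Real.measurable_exp.comp (measurable_dropCost θ c).ennreal_toReal.neg

theorem lintegral_floor (θ : ℕ → ℝ) (hθ : ∀ i, 0 < θ i ∧ θ i < 1) (c : ℝ) (hc : 0 ≤ c) (i : ℕ) :
    ∫⁻ x, ENNReal.ofReal (c * (⌊x i + θ i⌋ : ℝ)) ∂cubeMeasure = ENNReal.ofReal (c * θ i) := by
  have h2 : MeasurePreserving (Function.eval i) cubeMeasure unitLebesgue :=
    measurePreserving_eval_infinitePi (fun _ : ℕ => unitLebesgue) i
  have hm : Measurable fun y : ℝ => ENNReal.ofReal (c * (⌊y + θ i⌋ : ℝ)) := by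
    refine ENNReal.measurable_ofReal.comp (Measurable.const_mul ?_ _)
    exact (measurable_from_top (f := fun n : ℤ => (n : ℝ))).comp
      (Int.measurable_floor.comp (measurable_id.add_const _))
  have h3 : ∫⁻ x, ENNReal.ofReal (c * (⌊x i + θ i⌋ : ℝ)) ∂cubeMeasure =
      ∫⁻ y, ENNReal.ofReal (c * (⌊y + θ i⌋ : ℝ)) ∂unitLebesgue := by
    rw [← h2.map_eq, lintegral_map hm h2.measurable]
  rw [h3]
  unfold unitLebesgue
  obtain ⟨h4, h5⟩ := hθ i
  have h6 : ∫⁻ y in Set.Ico (0 : ℝ) 1, ENNReal.ofReal (c * (⌊y + θ i⌋ : ℝ)) =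
      ∫⁻ y in Set.Ico (0 : ℝ) 1, (Set.Ico (1 - θ i) 1).indicator (fun _ => ENNReal.ofReal c) y := by
    refine setLIntegral_congr_fun measurableSet_Ico fun y hy => ?_
    simp only [Set.mem_Ico] at hy
    by_cases h : 1 - θ i ≤ y
    · rw [Set.indicator_of_mem (by simp [h, hy.2])]
      have : ⌊y + θ i⌋ = 1 := by
        rw [Int.floor_eq_iff]; push_cast; constructor <;> linarith
      rw [this]; simp
    · rw [Set.indicator_of_notMem (by simp [h])]
      push Not at h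
      have : ⌊y + θ i⌋ = 0 := by
        rw [Int.floor_eq_iff]; push_cast; constructor <;> linarith
      rw [this]; simp
  rw [h6, lintegral_indicator measurableSet_Ico, lintegral_const,
    Measure.restrict_restrict measurableSet_Ico, Measure.restrict_apply MeasurableSet.univ]
  have h7 : Set.univ ∩ (Set.Ico (1 - θ i) 1 ∩ Set.Ico (0 : ℝ) 1) = Set.Ico (1 - θ i) 1 := by
    rw [Set.univ_inter, Set.inter_eq_left]
    exact Set.Ico_subset_Ico_left (by linarith)
  rw [h7, Real.volume_Ico, ← ENNReal.ofReal_mul hc]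
  congr 1
  ring

end Crest.Agent.R113.Det
end

-- ▼ part R113/DetModel

/-! Row 113, S0151: the weighted shift over the infinite torus rotation. -/

set_option autoImplicit false

namespace Crest.Agent.R113.Det

open Crest.AnalysisR.ProductShift MeasureTheory
open scoped ENNReal

section RepSec

variable {Ω : Type*} [MeasurableSpace Ω] {μ : Measure Ω}

/-- `X` is the weighted composition operator `g ↦ a · (g ∘ φ)` -/
def Rep (a : Ω → ℂ) (φ : Ω → Ω) (X : Lp ℂ 2 μ →L[ℂ] Lp ℂ 2 μ) : Prop :=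
  ∀ g : Lp ℂ 2 μ, (X g : Ω → ℂ) =ᵐ[μ] fun p => a p * (g : Ω → ℂ) (φ p)

lemma Rep.ext {a b : Ω → ℂ} {φ ψ : Ω → Ω} {X Y : Lp ℂ 2 μ →L[ℂ] Lp ℂ 2 μ}
    (hX : Rep a φ X) (hY : Rep b ψ Y) (hab : ∀ᵐ p ∂μ, a p = b p) (hφψ : ∀ᵐ p ∂μ, φ p = ψ p) :
    X = Y := by
  ext1 g
  apply Lp.ext
  filter_upwards [hX g, hY g, hab, hφψ] with p h1 h2 h3 h4
  rw [h1, h2, h3, h4]

lemma Rep.congr {a b : Ω → ℂ} {φ ψ : Ω → Ω} {X : Lp ℂ 2 μ →L[ℂ] Lp ℂ 2 μ}
    (hX : Rep a φ X) (hab : ∀ p, a p = b p) (hφψ : ∀ p, φ p = ψ p) : Rep b ψ X := by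
  have h1 : a = b := funext hab
  have h2 : φ = ψ := funext hφψ
  rw [← h1, ← h2]; exact hX

lemma Rep.mul {a b : Ω → ℂ} {φ ψ : Ω → Ω} {X Y : Lp ℂ 2 μ →L[ℂ] Lp ℂ 2 μ}
    (hX : Rep a φ X) (hY : Rep b ψ Y) (hφ : MeasurePreserving φ μ μ) :
    Rep (fun p => a p * b (φ p)) (fun p => ψ (φ p)) (X * Y) := by
  intro g
  have h1 := hX (Y g)
  have h2 := hφ.quasiMeasurePreserving.ae (hY g)
  filter_upwards [h1, h2] with p h1 h2
  have h3 : (X * Y) g = X (Y g) := rfl
  rw [h3, h1, h2, mul_assoc]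

lemma Rep.one : Rep (fun _ => (1 : ℂ)) (fun p => p) (1 : Lp ℂ 2 μ →L[ℂ] Lp ℂ 2 μ) := by
  intro g
  filter_upwards with p
  simp

lemma Rep.sub {a b : Ω → ℂ} {φ : Ω → Ω} {X Y : Lp ℂ 2 μ →L[ℂ] Lp ℂ 2 μ}
    (hX : Rep a φ X) (hY : Rep b φ Y) : Rep (fun p => a p - b p) φ (X - Y) := by
  intro g
  filter_upwards [hX g, hY g, Lp.coeFn_sub (X g) (Y g)] with p h1 h2 h3
  have : (X - Y) g = X g - Y g := rfl
  rw [this, h3, Pi.sub_apply, h1, h2]; ring

lemma Rep.norm_le {a : Ω → ℂ} {φ : Ω → Ω} {X : Lp ℂ 2 μ →L[ℂ] Lp ℂ 2 μ}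
    (hX : Rep a φ X) (hφ : MeasurePreserving φ μ μ) (ha : Measurable a) {C : ℝ} (hC0 : 0 ≤ C)
    (hC : ∀ p, ‖a p‖ ≤ C) : ‖X‖ ≤ C := by
  obtain ⟨W, hW, hWn⟩ := exists_wcomp φ hφ a ha C hC hC0
  have : X = W := hX.ext hW (ae_of_all _ fun _ => rfl) (ae_of_all _ fun _ => rfl)
  rw [this]; exact hWn

lemma Rep.adj {a : Ω → ℂ} {φ φ' : Ω → Ω} {X : Lp ℂ 2 μ →L[ℂ] Lp ℂ 2 μ}
    (hX : Rep a φ X) (hφ : MeasurePreserving φ μ μ) (hφ' : MeasurePreserving φ' μ μ)
    (h : ∀ᵐ p ∂μ, φ' (φ p) = p)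
    (ha : Measurable a) {C : ℝ} (hC0 : 0 ≤ C) (hC : ∀ p, ‖a p‖ ≤ C) :
    Rep (fun p => (starRingEnd ℂ) (a (φ' p))) φ' (star X) := by
  obtain ⟨X', hX', -⟩ := exists_wcomp φ' hφ' (fun p => (starRingEnd ℂ) (a (φ' p)))
    (Complex.continuous_conj.measurable.comp (ha.comp hφ'.measurable)) C
    (fun p => by rw [RCLike.norm_conj]; exact hC _) hC0
  have key : X' = ContinuousLinearMap.adjoint X := by
    rw [ContinuousLinearMap.eq_adjoint_iff]
    intro x y
    rw [L2.inner_def, L2.inner_def]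
    have hF : AEStronglyMeasurable
        (fun p => inner ℂ ((X' x : Ω → ℂ) p) ((y : Ω → ℂ) p)) (Measure.map φ μ) := by
      rw [hφ.map_eq]
      exact (Lp.aestronglyMeasurable _).inner (Lp.aestronglyMeasurable _)
    have h1 : ∫ p, inner ℂ ((X' x : Ω → ℂ) p) ((y : Ω → ℂ) p) ∂μ
        = ∫ p, inner ℂ ((X' x : Ω → ℂ) (φ p)) ((y : Ω → ℂ) (φ p)) ∂μ := by
      have := integral_map hφ.measurable.aemeasurable hF
      rwa [hφ.map_eq] at this
    rw [h1]
    apply integral_congr_ae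
    have h2 := hφ.quasiMeasurePreserving.ae (hX' x)
    filter_upwards [h2, hX y, h] with p h2 h3 h4
    rw [h2, h3, h4]
    simp only [RCLike.inner_apply, map_mul, Complex.conj_conj]
    ring
  have : star X = X' := by rw [ContinuousLinearMap.star_eq_adjoint, key]
  rw [this]
  exact hX'

end RepSec

section Model

variable (θ c : ℕ → ℝ)

/-- the weight along the orbit -/
noncomputable def Wt (k : ℤ) (x : ℕ → ℝ) : ℝ := weight θ c (orbitPoint θ k x)

lemma orbit_orbit (k l : ℤ) (x : ℕ → ℝ) :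
    orbitPoint θ k (orbitPoint θ l x) = orbitPoint θ (k + l) x := by
  funext i
  simp only [orbitPoint]
  have h : Int.fract (x i + (l : ℝ) * θ i) + (k : ℝ) * θ i
      = x i + ((k + l : ℤ) : ℝ) * θ i - (⌊x i + (l : ℝ) * θ i⌋ : ℝ) := by
    rw [Int.fract]; push_cast; ring
  rw [h, Int.fract_sub_intCast]

lemma Wt_orbit (k l : ℤ) (x : ℕ → ℝ) : Wt θ c k (orbitPoint θ l x) = Wt θ c (k + l) x := by
  rw [Wt, Wt, orbit_orbit]

lemma weight_nonneg (x : ℕ → ℝ) : 0 ≤ weight θ c x := by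
  rw [weight]; split_ifs
  · exact le_rfl
  · exact (Real.exp_pos _).le

lemma weight_le_one (x : ℕ → ℝ) : weight θ c x ≤ 1 := by
  rw [weight]; split_ifs
  · exact zero_le_one
  · rw [Real.exp_le_one_iff]
    have := ENNReal.toReal_nonneg (a := dropCost θ c x)
    linarith

lemma Wt_nonneg (k : ℤ) (x : ℕ → ℝ) : 0 ≤ Wt θ c k x := weight_nonneg θ c _

lemma Wt_le_one (k : ℤ) (x : ℕ → ℝ) : Wt θ c k x ≤ 1 := weight_le_one θ c _

lemma measurable_Wt (k : ℤ) : Measurable (Wt θ c k) :=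
  (measurable_weight θ c).comp (measurePreserving_orbit θ k).measurable

lemma measurable_Wt_pair (j : ℤ) :
    Measurable (fun p : (ℕ → ℝ) × ℤ => Wt θ c (p.2 + j) p.1) :=
  measurable_from_prod_countable_left (fun k => measurable_Wt θ c (k + j))

lemma mp_shift (b : ℤ) :
    MeasurePreserving (fun p : (ℕ → ℝ) × ℤ => (p.1, p.2 + b)) pairMeasure pairMeasure := by
  have h := (MeasurePreserving.id cubeMeasure).prod
    (measurePreserving_add_right (Measure.count : Measure ℤ) b)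
  exact h

/-- growth of the costs -/
lemma Wt_le (hθ : ∀ i, 0 < θ i ∧ θ i < 1) (hc : ∀ i, 0 ≤ c i) (N : ℕ) (l : ℤ) (x : ℕ → ℝ) :
    Wt θ c l x ≤ Real.exp (-∑ i ∈ Finset.range N,
      c i * ((⌊x i + ((l + 1 : ℤ) : ℝ) * θ i⌋ : ℝ) - (⌊x i + (l : ℝ) * θ i⌋ : ℝ))) := by
  have hfl : ∀ i, (⌊orbitPoint θ l x i + θ i⌋ : ℝ)
      = (⌊x i + ((l + 1 : ℤ) : ℝ) * θ i⌋ : ℝ) - (⌊x i + (l : ℝ) * θ i⌋ : ℝ) := by
    intro i
    have h : orbitPoint θ l x i + θ i
        = x i + ((l + 1 : ℤ) : ℝ) * θ i - (⌊x i + (l : ℝ) * θ i⌋ : ℝ) := by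
      rw [orbitPoint, Int.fract]; push_cast; ring
    rw [h, Int.floor_sub_intCast]
    push_cast
    ring
  have hnn : ∀ i, 0 ≤ c i * (⌊orbitPoint θ l x i + θ i⌋ : ℝ) := by
    intro i
    have h1 : 0 ≤ orbitPoint θ l x i + θ i := by
      have := Int.fract_nonneg (x i + (l : ℝ) * θ i)
      have := (hθ i).1
      rw [orbitPoint]; linarith
    have h2 : (0 : ℝ) ≤ (⌊orbitPoint θ l x i + θ i⌋ : ℝ) := by
      exact_mod_cast Int.floor_nonneg.mpr h1
    exact mul_nonneg (hc i) h2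
  rw [Wt, weight]
  split_ifs with htop
  · exact (Real.exp_pos _).le
  · apply Real.exp_le_exp.mpr
    have h1 : ∑ i ∈ Finset.range N, ENNReal.ofReal (c i * (⌊orbitPoint θ l x i + θ i⌋ : ℝ))
        ≤ dropCost θ c (orbitPoint θ l x) := ENNReal.sum_le_tsum _
    have h2 := ENNReal.toReal_mono htop h1
    rw [← ENNReal.ofReal_sum_of_nonneg (fun i _ => hnn i),
      ENNReal.toReal_ofReal (Finset.sum_nonneg fun i _ => hnn i)] at h2
    have h3 : ∑ i ∈ Finset.range N, c i * (⌊orbitPoint θ l x i + θ i⌋ : ℝ)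
        = ∑ i ∈ Finset.range N,
      c i * ((⌊x i + ((l + 1 : ℤ) : ℝ) * θ i⌋ : ℝ) - (⌊x i + (l : ℝ) * θ i⌋ : ℝ)) :=
      Finset.sum_congr rfl fun i _ => by rw [hfl]
    rw [h3] at h2
    linarith

/-- weight of `T ^ n` -/
noncomputable def An : ℕ → (ℕ → ℝ) × ℤ → ℝ
  | 0, _ => 1
  | n + 1, p => An n p * Wt θ c (p.2 + (-(n : ℤ) - 1)) p.1

lemma An_nonneg (n : ℕ) (p : (ℕ → ℝ) × ℤ) : 0 ≤ An θ c n p := by
  induction n with
  | zero => simp [An]
  | succ n ih => rw [An]; exact mul_nonneg ih (Wt_nonneg θ c _ _)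

lemma measurable_An (n : ℕ) : Measurable (An θ c n) := by
  induction n with
  | zero => exact measurable_const
  | succ n ih => exact ih.mul (measurable_Wt_pair θ c _)

lemma An_le (hθ : ∀ i, 0 < θ i ∧ θ i < 1) (hc : ∀ i, 0 ≤ c i) (N n : ℕ) (p : (ℕ → ℝ) × ℤ) :
    An θ c n p ≤ Real.exp (-∑ i ∈ Finset.range N,
      c i * ((⌊p.1 i + (p.2 : ℝ) * θ i⌋ : ℝ)
        - (⌊p.1 i + ((p.2 - n : ℤ) : ℝ) * θ i⌋ : ℝ))) := by
  induction n with
  | zero => simp [An]
  | succ n ih =>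
    rw [An]
    have h := Wt_le θ c hθ hc N (p.2 + (-(n : ℤ) - 1)) p.1
    have e : p.2 + (-(n : ℤ) - 1) + 1 = p.2 - n := by ring
    have e2 : p.2 + (-(n : ℤ) - 1) = p.2 - ((n + 1 : ℕ) : ℤ) := by push_cast; ring
    rw [e, e2] at h
    rw [e2]
    calc An θ c n p * Wt θ c (p.2 - ((n + 1 : ℕ) : ℤ)) p.1
        ≤ Real.exp (-∑ i ∈ Finset.range N,
      c i * ((⌊p.1 i + (p.2 : ℝ) * θ i⌋ : ℝ)
        - (⌊p.1 i + ((p.2 - n : ℤ) : ℝ) * θ i⌋ : ℝ))) * Real.exp (-∑ i ∈ Finset.range N,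
      c i * ((⌊p.1 i + ((p.2 - n : ℤ) : ℝ) * θ i⌋ : ℝ)
        - (⌊p.1 i + ((p.2 - ((n + 1 : ℕ) : ℤ) : ℤ) : ℝ) * θ i⌋ : ℝ))) := by
          gcongr
          exact Wt_nonneg θ c _ _
      _ = _ := by
          rw [← Real.exp_add, ← neg_add, ← Finset.sum_add_distrib]
          congr 2
          refine Finset.sum_congr rfl fun i _ => ?_
          ring

lemma An_le' (hθ : ∀ i, 0 < θ i ∧ θ i < 1) (hc : ∀ i, 0 ≤ c i) (N n : ℕ) (p : (ℕ → ℝ) × ℤ) :
    An θ c n p ≤ Real.exp (∑ i ∈ Finset.range N, c i)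
      * (Real.exp (-∑ i ∈ Finset.range N, c i * θ i)) ^ n := by
  refine (An_le θ c hθ hc N n p).trans ?_
  rw [← Real.exp_nat_mul, ← Real.exp_add]
  apply Real.exp_le_exp.mpr
  have h : ∀ i ∈ Finset.range N, -(c i) + n * (c i * θ i)
      ≤ c i * ((⌊p.1 i + (p.2 : ℝ) * θ i⌋ : ℝ) - (⌊p.1 i + ((p.2 - n : ℤ) : ℝ) * θ i⌋ : ℝ)) := by
    intro i _
    have h1 := Int.lt_floor_add_one (p.1 i + (p.2 : ℝ) * θ i)
    have h2 := Int.floor_le (p.1 i + ((p.2 - n : ℤ) : ℝ) * θ i)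
    push_cast at h2
    push_cast
    have h3 : (n : ℝ) * θ i - 1 ≤ (⌊p.1 i + (p.2 : ℝ) * θ i⌋ : ℝ)
        - (⌊p.1 i + ((p.2 : ℝ) - n) * θ i⌋ : ℝ) := by nlinarith
    have h4 := mul_le_mul_of_nonneg_left h3 (hc i)
    calc -(c i) + n * (c i * θ i) = c i * ((n : ℝ) * θ i - 1) := by ring
      _ ≤ _ := h4
  have h5 := Finset.sum_le_sum h
  rw [Finset.sum_add_distrib, Finset.sum_neg_distrib, ← Finset.mul_sum] at h5
  linarith

end Model

section Final

variable (θ c : ℕ → ℝ)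

/-- the indicator of `k = 0` -/
noncomputable def e0 (p : (ℕ → ℝ) × ℤ) : ℂ := if p.2 = 0 then 1 else 0

lemma vacuum_ae : (vacuumVector : (ℕ → ℝ) × ℤ → ℂ) =ᵐ[pairMeasure] e0 := by
  refine (indicatorConstLp_coeFn (p := 2) (c := (1 : ℂ))).trans ?_
  filter_upwards with p
  rw [e0, Set.indicator]
  simp

lemma pairMeasure_univ_zero :
    pairMeasure (Set.univ ×ˢ ({0} : Set ℤ) : Set ((ℕ → ℝ) × ℤ)) = 1 := by
  rw [pairMeasure, Measure.prod_prod, measure_univ, Measure.count_singleton, one_mul]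

lemma norm_vacuum : ‖vacuumVector‖ = 1 := by
  rw [vacuumVector, norm_indicatorConstLp (by norm_num) (by norm_num)]
  rw [measureReal_def, pairMeasure_univ_zero]
  simp

/-- integrating against the vacuum -/
lemma integral_e0 (F : (ℕ → ℝ) × ℤ → ℂ) (hF : Measurable F) :
    ∫ p, e0 p * F p ∂pairMeasure = ∫ x, F (x, 0) ∂cubeMeasure := by
  have h1 : (fun p => e0 p * F p)
      = (Set.univ ×ˢ ({0} : Set ℤ) : Set ((ℕ → ℝ) × ℤ)).indicator F := by
    funext p
    rw [e0, Set.indicator]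
    by_cases h : p.2 = 0 <;> simp [h]
  rw [h1, integral_indicator (MeasurableSet.univ.prod (measurableSet_singleton 0)), pairMeasure,
    ← Measure.prod_restrict, Measure.restrict_univ, Measure.restrict_singleton,
    Measure.count_singleton, one_smul, Measure.prod_dirac, integral_map]
  · exact (measurable_id.prodMk measurable_const).aemeasurable
  · exact hF.aestronglyMeasurable

variable {θ c}
variable {T : pairSpace →L[ℂ] pairSpace} (hT : IsWeightedShift θ c T)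
include hT

lemma rep_T : Rep (μ := pairMeasure) (fun p => ((Wt θ c (p.2 + (-1)) p.1 : ℝ) : ℂ))
    (fun p => (p.1, p.2 + (-1))) T := by
  intro g
  filter_upwards [hT g] with p hp
  rw [hp]
  rfl

lemma rep_T_pow (n : ℕ) : Rep (μ := pairMeasure) (fun p => ((An θ c n p : ℝ) : ℂ))
    (fun p => (p.1, p.2 + (-(n : ℤ)))) (T ^ n) := by
  induction n with
  | zero =>
    rw [pow_zero]
    refine Rep.one.congr (fun p => by simp [An]) (fun p => by simp)
  | succ n ih =>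
    rw [pow_succ]
    refine (ih.mul (rep_T hT) (mp_shift _)).congr (fun p => ?_) (fun p => ?_)
    · simp only [An]
      rw [show p.2 + -(n : ℤ) + -1 = p.2 + (-(n : ℤ) - 1) by ring]
      push_cast
      rfl
    · simp only [Prod.mk.injEq, true_and]
      push_cast; ring

lemma meas_T : Measurable (fun p : (ℕ → ℝ) × ℤ => ((Wt θ c (p.2 + (-1)) p.1 : ℝ) : ℂ)) :=
  Complex.measurable_ofReal.comp (measurable_Wt_pair θ c (-1))

lemma rep_Tstar : Rep (μ := pairMeasure) (fun p => ((Wt θ c p.2 p.1 : ℝ) : ℂ))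
    (fun p => (p.1, p.2 + 1)) (star T) := by
  have h := (rep_T hT).adj (mp_shift (-1)) (mp_shift 1) (ae_of_all _ fun p => by simp)
    (meas_T hT) zero_le_one (fun p => by
      rw [Complex.norm_real, Real.norm_eq_abs, abs_of_nonneg (Wt_nonneg θ c _ _)]
      exact Wt_le_one θ c _ _)
  refine h.congr (fun p => ?_) (fun p => rfl)
  rw [Complex.conj_ofReal]
  simp

lemma norm_T_pow_le (hθ : ∀ i, 0 < θ i ∧ θ i < 1) (hc : ∀ i, 0 ≤ c i) (N n : ℕ) :
    ‖T ^ n‖ ≤ Real.exp (∑ i ∈ Finset.range N, c i)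
      * (Real.exp (-∑ i ∈ Finset.range N, c i * θ i)) ^ n := by
  refine (rep_T_pow hT n).norm_le (mp_shift _)
    (Complex.measurable_ofReal.comp (measurable_An θ c n)) (by positivity) (fun p => ?_)
  rw [Complex.norm_real, Real.norm_eq_abs, abs_of_nonneg (An_nonneg θ c n p)]
  exact An_le' θ c hθ hc N n p

lemma norm_T_le : ‖T‖ ≤ 1 := by
  refine (rep_T hT).norm_le (mp_shift _) (meas_T hT) zero_le_one (fun p => ?_)
  rw [Complex.norm_real, Real.norm_eq_abs, abs_of_nonneg (Wt_nonneg θ c _ _)]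
  exact Wt_le_one θ c _ _

lemma tau_T_pow (n : ℕ) : tau vacuumVector (T ^ (n + 1)) = 0 := by
  rw [tau_apply, L2.inner_def]
  rw [integral_eq_zero_of_ae]
  have h1 := rep_T_pow hT (n + 1) vacuumVector
  have h2 := (mp_shift (-((n + 1 : ℕ) : ℤ))).quasiMeasurePreserving.ae vacuum_ae
  filter_upwards [h1, h2, vacuum_ae] with p h1 h2 h3
  rw [h1, h2, h3]
  simp only [e0, Pi.zero_apply]
  by_cases h : p.2 = 0
  · have : ¬ (p.2 + -((n + 1 : ℕ) : ℤ) = 0) := by rw [h]; push_cast; omega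
    rw [if_neg this]; simp
  · rw [if_neg h]; simp

/-- a right multiplication operator: it commutes with `T`, `T*` and agrees with `T` on the vacuum -/
lemma exists_R : ∃ R : pairSpace →L[ℂ] pairSpace, R * T = T * R ∧ R * star T = star T * R ∧
    T vacuumVector = R vacuumVector ∧ (star T) vacuumVector = (star R) vacuumVector := by
  have hm : Measurable (fun p : (ℕ → ℝ) × ℤ => ((Wt θ c 0 p.1 : ℝ) : ℂ)) :=
    Complex.measurable_ofReal.comp ((measurable_Wt θ c 0).comp measurable_fst)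
  have hb : ∀ p : (ℕ → ℝ) × ℤ, ‖((Wt θ c 0 p.1 : ℝ) : ℂ)‖ ≤ 1 := fun p => by
    rw [Complex.norm_real, Real.norm_eq_abs, abs_of_nonneg (Wt_nonneg θ c _ _)]
    exact Wt_le_one θ c _ _
  obtain ⟨R, hR, -⟩ := exists_wcomp (fun p : (ℕ → ℝ) × ℤ => (orbitPoint θ 1 p.1, p.2 + (-1)))
    (measurePreserving_pair θ 1 (-1)) (fun p => ((Wt θ c 0 p.1 : ℝ) : ℂ)) hm 1 hb zero_le_one
  have hRr : Rep (μ := pairMeasure) (fun p => ((Wt θ c 0 p.1 : ℝ) : ℂ))
    (fun p => (orbitPoint θ 1 p.1, p.2 + (-1))) R := hR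
  have hRs := hRr.adj (measurePreserving_pair θ 1 (-1)) (measurePreserving_pair θ (-1) 1)
    (by
      have h1 : ∀ᵐ p : (ℕ → ℝ) × ℤ ∂pairMeasure, ∀ i, 0 ≤ p.1 i ∧ p.1 i < 1 := by
        have h2 : Measure.QuasiMeasurePreserving (Prod.fst : (ℕ → ℝ) × ℤ → (ℕ → ℝ))
            pairMeasure cubeMeasure := Measure.quasiMeasurePreserving_fst
        exact h2.ae ae_unit
      filter_upwards [h1] with p hp
      ext1
      · simp only
        rw [orbit_orbit]
        funext i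
        simp only [orbitPoint]
        rw [Int.fract_eq_self.mpr]
        · simp
        · simpa using hp i
      · simp) hm zero_le_one hb
  have hs := rep_Tstar hT
  refine ⟨R, ?_, ?_, ?_, ?_⟩
  · refine (hRr.mul (rep_T hT) (measurePreserving_pair θ 1 (-1))).ext
      ((rep_T hT).mul hRr (mp_shift _)) (ae_of_all _ fun p => ?_) (ae_of_all _ fun p => rfl)
    simp only
    rw [Wt_orbit, mul_comm]
    congr 3
    ring
  · refine (hRr.mul hs (measurePreserving_pair θ 1 (-1))).ext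
      (hs.mul hRr (mp_shift _)) (ae_of_all _ fun p => ?_) (ae_of_all _ fun p => ?_)
    · simp only
      rw [Wt_orbit, mul_comm]
      congr 3
      ring
    · simp only [Prod.mk.injEq, true_and]
      ring
  · apply Lp.ext
    have h2 := (mp_shift (-1)).quasiMeasurePreserving.ae vacuum_ae
    have h3 := (measurePreserving_pair θ 1 (-1)).quasiMeasurePreserving.ae vacuum_ae
    filter_upwards [rep_T hT vacuumVector, hRr vacuumVector, h2, h3] with p h1 h2 h3 h4
    rw [h1, h2, h3, h4]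
    simp only [e0]
    by_cases h : p.2 + -1 = 0
    · simp only [if_pos h]
      rw [h]
    · simp only [if_neg h, mul_zero]
  · apply Lp.ext
    have h2 := (mp_shift 1).quasiMeasurePreserving.ae vacuum_ae
    have h3 := (measurePreserving_pair θ (-1) 1).quasiMeasurePreserving.ae vacuum_ae
    filter_upwards [hs vacuumVector, hRs vacuumVector, h2, h3] with p h1 h2 h3 h4
    rw [h1, h2, h3, h4]
    simp only [e0]
    by_cases h : p.2 + 1 = 0
    · have h5 : p.2 = -1 := by omega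
      simp only [if_pos h]
      rw [Complex.conj_ofReal, Wt_orbit, h5]
      simp
    · simp only [if_neg h, mul_zero]

/-- the trace property -/
lemma trace_adjoin : ∀ X ∈ StarAlgebra.adjoin ℂ {T}, ∀ Y ∈ StarAlgebra.adjoin ℂ {T},
    tau vacuumVector (X * Y) = tau vacuumVector (Y * X) := by
  obtain ⟨R, hRT, hRTs, hv, hvs⟩ := exists_R hT
  have hsT : star R * T = T * star R := by
    have := congrArg star hRTs
    rw [star_mul, star_mul, star_star] at this
    exact this.symm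
  have hcomm : ∀ X ∈ StarAlgebra.adjoin ℂ {T}, R * X = X * R ∧ star R * X = X * star R := by
    intro X hX
    induction hX using StarAlgebra.adjoin_induction with
    | mem x hx =>
      rw [Set.mem_singleton_iff] at hx
      rw [hx]; exact ⟨hRT, hsT⟩
    | algebraMap r => exact ⟨(Algebra.commutes r R).symm, (Algebra.commutes r (star R)).symm⟩
    | add x y _ _ hx hy =>
      rw [mul_add, add_mul, hx.1, hy.1, mul_add, add_mul, hx.2, hy.2]; exact ⟨rfl, rfl⟩
    | mul x y _ _ hx hy =>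
      constructor
      · rw [← mul_assoc, hx.1, mul_assoc, hy.1, mul_assoc]
      · rw [← mul_assoc, hx.2, mul_assoc, hy.2, mul_assoc]
    | star x _ hx =>
      constructor
      · have := congrArg star hx.2
        rw [star_mul, star_mul, star_star] at this
        exact this.symm
      · have := congrArg star hx.1
        rw [star_mul, star_mul] at this
        exact this.symm
  have h1 : ∀ X ∈ StarAlgebra.adjoin ℂ {T},
      tau vacuumVector (X * T) = tau vacuumVector (T * X) := by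
    intro X hX
    rw [tau_apply, tau_apply]
    have e1 : (X * T) vacuumVector = R (X vacuumVector) := by
      have : (X * T) vacuumVector = X (T vacuumVector) := rfl
      rw [this, hv]
      have : X (R vacuumVector) = (X * R) vacuumVector := rfl
      rw [this, ← (hcomm X hX).1]; rfl
    have e2 : (T * X) vacuumVector = T (X vacuumVector) := rfl
    rw [e1, e2]
    rw [← ContinuousLinearMap.adjoint_inner_left R (X vacuumVector) vacuumVector,
      ← ContinuousLinearMap.adjoint_inner_left T (X vacuumVector) vacuumVector]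
    rw [← ContinuousLinearMap.star_eq_adjoint, ← ContinuousLinearMap.star_eq_adjoint, hvs]
  intro X hX Y hY
  induction hY using StarAlgebra.adjoin_induction generalizing X with
  | mem y hy =>
    rw [Set.mem_singleton_iff] at hy
    rw [hy]; exact h1 X hX
  | algebraMap r => rw [Algebra.commutes r X]
  | add x y _ _ hx hy =>
    rw [mul_add, add_mul, map_add, map_add, hx X hX, hy X hX]
  | mul x y hx' hy' hx hy =>
    rw [← mul_assoc, hy (X * x) (mul_mem hX hx'), ← mul_assoc, hx (y * X) (mul_mem hy' hX),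
      mul_assoc]
  | star y _ hy =>
    have h2 : X * star y = star (y * star X) := by rw [star_mul, star_star]
    have h3 : star y * X = star (star X * y) := by rw [star_mul, star_star]
    rw [h2, h3, tau_star, tau_star, hy (star X) (star_mem hX)]

end Final

section Zero

variable {θ c : ℕ → ℝ}
variable {T : pairSpace →L[ℂ] pairSpace} (hT : IsWeightedShift θ c T)
include hT

lemma rep_one_sub : Rep (μ := pairMeasure)
    (fun p => ((1 - Wt θ c p.2 p.1 ^ 2 : ℝ) : ℂ)) (fun p => p) (1 - star T * T) := by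
  have h1 := (rep_Tstar hT).mul (rep_T hT) (mp_shift 1)
  have h2 : Rep (μ := pairMeasure) (fun p => ((Wt θ c p.2 p.1 ^ 2 : ℝ) : ℂ)) (fun p => p)
      (star T * T) := by
    refine h1.congr (fun p => ?_) (fun p => ?_)
    · simp only
      rw [show p.2 + 1 + -1 = p.2 by ring]
      push_cast; ring
    · simp
  refine (Rep.one.sub h2).congr (fun p => ?_) (fun p => rfl)
  push_cast; ring

lemma rep_one_sub_pow (k : ℕ) : Rep (μ := pairMeasure)
    (fun p => (((1 - Wt θ c p.2 p.1 ^ 2) ^ k : ℝ) : ℂ)) (fun p => p) ((1 - star T * T) ^ k) := by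
  induction k with
  | zero =>
    rw [pow_zero]
    exact Rep.one.congr (fun p => by simp) (fun p => rfl)
  | succ k ih =>
    rw [pow_succ]
    refine (ih.mul (rep_one_sub hT) (MeasurePreserving.id _)).congr (fun p => ?_) (fun p => rfl)
    rw [pow_succ]; push_cast; ring

lemma tau_one_sub_pow (k : ℕ) : tau vacuumVector ((1 - star T * T) ^ k)
    = ((∫ x, (1 - Wt θ c 0 x ^ 2) ^ k ∂cubeMeasure : ℝ) : ℂ) := by
  rw [tau_apply, L2.inner_def]
  have hmeas : Measurable (fun p : (ℕ → ℝ) × ℤ => (((1 - Wt θ c p.2 p.1 ^ 2) ^ k : ℝ) : ℂ)) := by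
    have h := measurable_Wt_pair θ c 0
    simp only [add_zero] at h
    exact Complex.measurable_ofReal.comp ((measurable_const.sub (h.pow_const 2)).pow_const k)
  have h1 : (fun p => inner ℂ ((vacuumVector : (ℕ → ℝ) × ℤ → ℂ) p)
      (((((1 - star T * T) ^ k) vacuumVector : pairSpace) : (ℕ → ℝ) × ℤ → ℂ) p)) =ᵐ[pairMeasure]
      fun p => e0 p * (((1 - Wt θ c p.2 p.1 ^ 2) ^ k : ℝ) : ℂ) := by
    filter_upwards [rep_one_sub_pow hT k vacuumVector, vacuum_ae] with p h1 h2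
    rw [h1, h2, e0]
    by_cases h : p.2 = 0
    · simp only [if_pos h, RCLike.inner_apply, map_one]; ring
    · simp only [if_neg h, mul_zero, zero_mul, RCLike.inner_apply, map_zero]
  rw [integral_congr_ae h1, integral_e0 _ hmeas]
  exact integral_complex_ofReal

omit hT in
lemma tsum_cost_eq_top (hθ : ∀ i, 0 < θ i ∧ θ i < 1) (hc : ∀ i, 0 ≤ c i)
    (hlog : ∫⁻ x, ENNReal.ofReal (- Real.log (weight θ c x)) ∂cubeMeasure = ⊤) :
    ∑' i, ENNReal.ofReal (c i * θ i) = ⊤ := by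
  have h1 : ∫⁻ x, ENNReal.ofReal (- Real.log (weight θ c x)) ∂cubeMeasure
      ≤ ∫⁻ x, dropCost θ c x ∂cubeMeasure := by
    refine lintegral_mono fun x => ?_
    rw [weight]
    split_ifs with h
    · rw [h]; exact le_top
    · rw [Real.log_exp, neg_neg, ENNReal.ofReal_toReal h]
  have h2 : ∫⁻ x, dropCost θ c x ∂cubeMeasure = ∑' i, ENNReal.ofReal (c i * θ i) := by
    simp only [dropCost]
    rw [lintegral_tsum]
    · exact tsum_congr fun i => lintegral_floor θ hθ (c i) (hc i) i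
    · intro i
      refine Measurable.aemeasurable ?_
      refine ENNReal.measurable_ofReal.comp ?_
      refine measurable_const.mul ?_
      exact (measurable_from_top (f := fun n : ℤ => (n : ℝ))).comp
        (Int.measurable_floor.comp ((measurable_pi_apply i).add_const _))
  rw [hlog, h2] at h1
  exact top_le_iff.mp h1

omit hT in
lemma exists_large_cost (hθ : ∀ i, 0 < θ i ∧ θ i < 1) (hc : ∀ i, 0 ≤ c i)
    (hlog : ∫⁻ x, ENNReal.ofReal (- Real.log (weight θ c x)) ∂cubeMeasure = ⊤) (M : ℝ) :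
    ∃ N, M ≤ ∑ i ∈ Finset.range N, c i * θ i := by
  by_contra hcon
  push Not at hcon
  have h1 := tsum_cost_eq_top hθ hc hlog
  have h2 : ∑' i, ENNReal.ofReal (c i * θ i) ≤ ENNReal.ofReal M := by
    rw [ENNReal.tsum_eq_iSup_nat]
    refine iSup_le fun N => ?_
    rw [← ENNReal.ofReal_sum_of_nonneg (fun i _ => mul_nonneg (hc i) (hθ i).1.le)]
    exact ENNReal.ofReal_le_ofReal (hcon N).le
  rw [h1] at h2
  exact absurd (top_le_iff.mp h2) ENNReal.ofReal_ne_top

lemma summable_T (hθ : ∀ i, 0 < θ i ∧ θ i < 1) (hc : ∀ i, 0 ≤ c i)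
    (hlog : ∫⁻ x, ENNReal.ofReal (- Real.log (weight θ c x)) ∂cubeMeasure = ⊤)
    (r : ℝ) (hr : 0 < r) : Summable (fun k : ℕ => r ^ k * ‖T ^ k‖) := by
  obtain ⟨N, hN⟩ := exists_large_cost hθ hc hlog (Real.log (2 * r))
  set s := ∑ i ∈ Finset.range N, c i * θ i with hs
  set C := Real.exp (∑ i ∈ Finset.range N, c i) with hC
  have h1 : r * Real.exp (-s) ≤ 1 / 2 := by
    have : Real.exp (-s) ≤ Real.exp (-Real.log (2 * r)) := Real.exp_le_exp.mpr (by linarith)
    rw [Real.exp_neg (Real.log _), Real.exp_log (by positivity)] at this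
    calc r * Real.exp (-s) ≤ r * (2 * r)⁻¹ := by gcongr
      _ = 1 / 2 := by field_simp
  refine Summable.of_nonneg_of_le (fun k => by positivity) (fun k => ?_)
    ((summable_geometric_of_lt_one (by norm_num : (0 : ℝ) ≤ 1 / 2) (by norm_num)).mul_left C)
  calc r ^ k * ‖T ^ k‖ ≤ r ^ k * (C * Real.exp (-s) ^ k) := by
        gcongr
        exact norm_T_pow_le hT hθ hc N k
    _ = C * (r * Real.exp (-s)) ^ k := by rw [mul_pow]; ring
    _ ≤ C * (1 / 2) ^ k := by gcongr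

omit hT in
lemma hdiv_moments (hpos : ∀ᵐ x ∂cubeMeasure, 0 < weight θ c x)
    (hlog : ∫⁻ x, ENNReal.ofReal (- Real.log (weight θ c x)) ∂cubeMeasure = ⊤) (M : ℝ) :
    ∃ n : ℕ, M ≤ ∑ k ∈ Finset.range n,
      ((∫ x, (1 - Wt θ c 0 x ^ 2) ^ (k + 1) ∂cubeMeasure : ℝ) / ((k : ℝ) + 1) : ℝ) := by
  have hW : ∀ x, 0 ≤ 1 - Wt θ c 0 x ^ 2 ∧ 1 - Wt θ c 0 x ^ 2 ≤ 1 := by
    intro x
    have h1 := Wt_nonneg θ c 0 x
    have h2 := Wt_le_one θ c 0 x
    constructor <;> nlinarith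
  have hmeas : ∀ k : ℕ, Measurable (fun x => (1 - Wt θ c 0 x ^ 2) ^ k) := fun k =>
    (measurable_const.sub ((measurable_Wt θ c 0).pow_const 2)).pow_const k
  have hint : ∀ k : ℕ, Integrable (fun x => (1 - Wt θ c 0 x ^ 2) ^ k) cubeMeasure := fun k =>
    Integrable.of_bound (hmeas k).aestronglyMeasurable 1 (ae_of_all _ fun x => by
      rw [Real.norm_eq_abs, abs_of_nonneg (pow_nonneg (hW x).1 k)]
      exact pow_le_one₀ (hW x).1 (hW x).2)
  by_contra hcon
  push Not at hcon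
  have h1 : ∑' k : ℕ, ENNReal.ofReal
        ((∫ x, (1 - Wt θ c 0 x ^ 2) ^ (k + 1) ∂cubeMeasure : ℝ) / ((k : ℝ) + 1) : ℝ)
      ≤ ENNReal.ofReal M := by
    rw [ENNReal.tsum_eq_iSup_nat]
    refine iSup_le fun n => ?_
    rw [← ENNReal.ofReal_sum_of_nonneg]
    · exact ENNReal.ofReal_le_ofReal (hcon n).le
    · intro k _
      exact div_nonneg (integral_nonneg fun x => pow_nonneg (hW x).1 _) (by positivity)
  have h2 : ∀ k : ℕ, ENNReal.ofReal ((∫ x, (1 - Wt θ c 0 x ^ 2) ^ (k + 1) ∂cubeMeasure) / (k + 1))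
      = ∫⁻ x, ENNReal.ofReal ((1 - Wt θ c 0 x ^ 2) ^ (k + 1) / (k + 1)) ∂cubeMeasure := by
    intro k
    rw [← integral_div, ofReal_integral_eq_lintegral_ofReal ((hint (k + 1)).div_const _)]
    exact ae_of_all _ fun x => div_nonneg (pow_nonneg (hW x).1 _) (by positivity)
  have h3 : ∑' k : ℕ, ENNReal.ofReal ((∫ x, (1 - Wt θ c 0 x ^ 2) ^ (k + 1) ∂cubeMeasure) / (k + 1))
      = ∫⁻ x, ∑' k : ℕ, ENNReal.ofReal ((1 - Wt θ c 0 x ^ 2) ^ (k + 1) / (k + 1)) ∂cubeMeasure := by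
    rw [lintegral_tsum]
    · exact tsum_congr h2
    · intro k
      exact ((hmeas (k + 1)).div_const _).ennreal_ofReal.aemeasurable
  have h4 : ∫⁻ x, ENNReal.ofReal (- Real.log (weight θ c x)) ∂cubeMeasure
      ≤ ∫⁻ x, ∑' k : ℕ, ENNReal.ofReal ((1 - Wt θ c 0 x ^ 2) ^ (k + 1) / (k + 1)) ∂cubeMeasure := by
    refine lintegral_mono_ae ?_
    filter_upwards [hpos, ae_unit] with x hx hu
    have hx0 : Wt θ c 0 x = weight θ c x := by
      rw [Wt]
      congr 1
      funext i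
      simp only [orbitPoint]
      rw [Int.fract_eq_self.mpr]
      · simp
      · simpa using hu i
    rw [hx0]
    have hw1 := weight_le_one θ c x
    set w := weight θ c x with hw
    have hy : |1 - w ^ 2| < 1 := by
      rw [abs_of_nonneg (by nlinarith)]
      have : 0 < w ^ 2 := by positivity
      linarith
    have hs := Real.hasSum_pow_div_log_of_abs_lt_one hy
    rw [← ENNReal.ofReal_tsum_of_nonneg (fun k => div_nonneg (pow_nonneg (by nlinarith) _)
      (by positivity)) hs.summable, hs.tsum_eq]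
    apply ENNReal.ofReal_le_ofReal
    rw [sub_sub_cancel, Real.log_pow]
    have := Real.log_nonpos hx.le hw1
    push_cast
    linarith
  rw [hlog, ← h3] at h4
  exact absurd (top_le_iff.mp (h4.trans h1)) ENNReal.ofReal_ne_top

theorem main (hθ : ∀ i, 0 < θ i ∧ θ i < 1) (hc : ∀ i, 0 ≤ c i)
    (hpos : ∀ᵐ x ∂cubeMeasure, 0 < weight θ c x)
    (hlog : ∫⁻ x, ENNReal.ofReal (- Real.log (weight θ c x)) ∂cubeMeasure = ⊤) (z : ℂ) :
    vectorDet vacuumVector (T - z • (1 : pairSpace →L[ℂ] pairSpace)) = ‖z‖ := by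
  by_cases hz : z = 0
  · rw [hz, zero_smul, sub_zero, norm_zero]
    exact vectorDet_zero norm_vacuum (norm_T_le hT)
      (fun k => ∫ x, (1 - Wt θ c 0 x ^ 2) ^ k ∂cubeMeasure) (tau_one_sub_pow hT)
      (hdiv_moments hpos hlog)
  · refine vectorDet_sub norm_vacuum (StarAlgebra.adjoin ℂ {T}).topologicalClosure
      (StarSubalgebra.isClosed_topologicalClosure _)
      (StarSubalgebra.le_topologicalClosure _ (StarAlgebra.self_mem_adjoin_singleton ℂ T))
      (tau_comm_closure _ _ (trace_adjoin hT)) (tau_T_pow hT) hz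
      (summable_T hT hθ hc hlog _ (by positivity))

end Zero

end Crest.Agent.R113.Det
private theorem rz_bc0094d8d0 : type_of% @_root_.Crest.Agent.R113.Det.An.eq_def := @_root_.Crest.Agent.R113.Det.An.eq_def -- L186
private theorem rz_ac4d8e6d8e : type_of% @_root_.Crest.Agent.R113.Det.An.eq_1 := @_root_.Crest.Agent.R113.Det.An.eq_1 -- L186
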