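import Mathlib
import Crest.Agent.R113.Defs

-- ▼ part R113/FD/Sub
section

/-!
# Row 113, finite dimensional toolbox (helper600)

Subspaces of `EuclideanSpace ℂ ι`, their orthogonal projections, Hilbert-Schmidt norms,
diagonals, cuts.
-/

set_option autoImplicit false
set_option linter.unusedSectionVars false

namespace Crest.Agent.R113.FD

open Finset
open scoped InnerProductSpace

/-- the Euclidean space -/
abbrev Ev (ι : Type*) [Fintype ι] := EuclideanSpace ℂ ι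
/-- operators -/
abbrev Op (ι : Type*) [Fintype ι] := EuclideanSpace ℂ ι →L[ℂ] EuclideanSpace ℂ ι

section
variable {ι : Type*} [Fintype ι]

/-- diagonal operator -/
noncomputable def dg (d : ι → ℂ) : Op ι :=
  LinearMap.toContinuousLinearMap
    { toFun := fun v => WithLp.toLp 2 (fun m => d m * v m)
      map_add' := by intro v w; ext m; simp [mul_add]
      map_smul' := by intro c v; ext m; simp; ring }

@[simp] lemma dg_apply (d : ι → ℂ) (v : Ev ι) (m : ι) : (dg d v) m = d m * v m := rfl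

lemma norm_sq_eq_sum (v : Ev ι) : ‖v‖ ^ 2 = ∑ m, ‖v m‖ ^ 2 := EuclideanSpace.norm_sq_eq v

lemma inner_eq_sum (v w : Ev ι) : ⟪v, w⟫_ℂ = ∑ m, w m * star (v m) := by
  rw [PiLp.inner_apply]; rfl

/-- orthogonal projection on `X` as an endomorphism -/
noncomputable abbrev pj (X : Submodule ℂ (Ev ι)) : Op ι := X.starProjection

lemma pj_mem (X : Submodule ℂ (Ev ι)) (v : Ev ι) : pj X v ∈ X := X.starProjection_apply_mem v

lemma pj_eq_self {X : Submodule ℂ (Ev ι)} {v : Ev ι} (hv : v ∈ X) : pj X v = v :=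
  Submodule.starProjection_eq_self_iff.2 hv

lemma pj_pj (X : Submodule ℂ (Ev ι)) (v : Ev ι) : pj X (pj X v) = pj X v := pj_eq_self (pj_mem X v)

lemma pj_mul_self (X : Submodule ℂ (Ev ι)) : pj X * pj X = pj X := by
  ext v; simp [pj_pj]

lemma inner_pj_left (X : Submodule ℂ (Ev ι)) (v w : Ev ι) : ⟪pj X v, w⟫_ℂ = ⟪v, pj X w⟫_ℂ :=
  X.inner_starProjection_left_eq_right v w

lemma inner_pj_left_of_mem {X : Submodule ℂ (Ev ι)} (v : Ev ι) {w : Ev ι} (hw : w ∈ X) :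
    ⟪pj X v, w⟫_ℂ = ⟪v, w⟫_ℂ := by
  rw [inner_pj_left, pj_eq_self hw]

lemma norm_pj_le (X : Submodule ℂ (Ev ι)) (v : Ev ι) : ‖pj X v‖ ≤ ‖v‖ :=
  X.norm_starProjection_apply_le v

lemma adjoint_pj (X : Submodule ℂ (Ev ι)) : ContinuousLinearMap.adjoint (pj X) = pj X :=
  (ContinuousLinearMap.isSelfAdjoint_iff'.1 (isSelfAdjoint_starProjection X))

lemma norm_sq_pj_add (X : Submodule ℂ (Ev ι)) (v : Ev ι) :
    ‖pj X v‖ ^ 2 + ‖v - pj X v‖ ^ 2 = ‖v‖ ^ 2 := by
  have h : ⟪pj X v, v - pj X v⟫_ℂ = 0 := by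
    rw [inner_pj_left, map_sub, pj_pj, sub_self, inner_zero_right]
  have := norm_add_sq_eq_norm_sq_add_norm_sq_of_inner_eq_zero _ _ h
  rw [add_sub_cancel] at this
  nlinarith [this]

end

section
variable {ι : Type*} [Fintype ι] [DecidableEq ι]

/-- coordinate vector -/
noncomputable def dl (m : ι) : Ev ι := EuclideanSpace.single m (1 : ℂ)

@[simp] lemma dl_apply (m m' : ι) : (dl m : Ev ι) m' = if m' = m then 1 else 0 := by
  simp [dl]

@[simp] lemma norm_dl (m : ι) : ‖(dl m : Ev ι)‖ = 1 := by simp [dl]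

lemma inner_dl_left (m : ι) (v : Ev ι) : ⟪dl m, v⟫_ℂ = v m := by
  simp [dl, EuclideanSpace.inner_single_left]

lemma inner_dl_right (m : ι) (v : Ev ι) : ⟪v, dl m⟫_ℂ = star (v m) := by
  simp [dl, EuclideanSpace.inner_single_right]


/-- Coordinate projection onto `A`. -/
noncomputable def cp (A : Finset ι) : Op ι := dg (fun m => if m ∈ A then 1 else 0)

@[simp] lemma cp_apply (A : Finset ι) (v : Ev ι) (m : ι) : (cp A v) m = if m ∈ A then v m else 0 := by
  simp [cp]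

lemma cp_dl (A : Finset ι) (m : ι) : cp A (dl m) = if m ∈ A then dl m else 0 := by
  ext m'
  by_cases h : m ∈ A
  · simp only [cp_apply, dl_apply, h, if_true]
    by_cases h' : m' = m
    · subst h'; simp [h]
    · simp [h']
  · simp only [cp_apply, dl_apply, h, if_false, PiLp.zero_apply]
    by_cases h' : m' = m
    · subst h'; simp [h]
    · simp [h']

lemma cp_add_compl (A : Finset ι) (v : Ev ι) : cp A v + cp Aᶜ v = v := by
  ext m; by_cases h : m ∈ A <;> simp [h]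

lemma cp_cp (A : Finset ι) (v : Ev ι) : cp A (cp A v) = cp A v := by
  ext m; by_cases h : m ∈ A <;> simp [h]

lemma inner_cp (A : Finset ι) (v w : Ev ι) : ⟪v, cp A w⟫_ℂ = ∑ m ∈ A, w m * star (v m) := by
  rw [inner_eq_sum]
  simp only [cp_apply, ite_mul, zero_mul]
  rw [Finset.sum_ite_mem, Finset.univ_inter]

lemma inner_cp_left (A : Finset ι) (v w : Ev ι) : ⟪cp A v, w⟫_ℂ = ⟪v, cp A w⟫_ℂ := by
  rw [inner_eq_sum, inner_eq_sum]
  refine Finset.sum_congr rfl fun m _ => ?_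
  by_cases h : m ∈ A <;> simp [h]

lemma norm_sq_cp (A : Finset ι) (v : Ev ι) : ‖cp A v‖ ^ 2 = ∑ m ∈ A, ‖v m‖ ^ 2 := by
  rw [norm_sq_eq_sum]
  have : ∀ m, ‖(cp A v) m‖ ^ 2 = if m ∈ A then ‖v m‖ ^ 2 else 0 := by
    intro m; by_cases h : m ∈ A <;> simp [h]
  simp_rw [this]
  rw [Finset.sum_ite_mem, Finset.univ_inter]

lemma norm_sq_cp_add (A : Finset ι) (v : Ev ι) : ‖cp A v‖ ^ 2 + ‖cp Aᶜ v‖ ^ 2 = ‖v‖ ^ 2 := by
  rw [norm_sq_cp, norm_sq_cp, norm_sq_eq_sum, Finset.sum_add_sum_compl]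

lemma norm_cp_le (A : Finset ι) (v : Ev ι) : ‖cp A v‖ ≤ ‖v‖ := by
  have h := norm_sq_cp_add A v
  exact abs_le_of_sq_le_sq' (by nlinarith [sq_nonneg ‖cp Aᶜ v‖]) (norm_nonneg _) |>.2

lemma inner_cp_self (A : Finset ι) (v : Ev ι) : ⟪v, cp A v⟫_ℂ = ((‖cp A v‖ ^ 2 : ℝ) : ℂ) := by
  rw [inner_cp, norm_sq_cp]
  push_cast
  refine Finset.sum_congr rfl fun m _ => ?_
  rw [← Complex.conj_mul', mul_comm]; rfl

/-! ### Hilbert-Schmidt norm (squared) -/

/-- squared Hilbert-Schmidt norm -/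
noncomputable def hs (T : Op ι) : ℝ := ∑ m, ‖T (dl m)‖ ^ 2

lemma hs_nonneg (T : Op ι) : 0 ≤ hs T := Finset.sum_nonneg fun _ _ => by positivity

lemma hs_eq_entries (T : Op ι) : hs T = ∑ m, ∑ m', ‖(T (dl m)) m'‖ ^ 2 := by
  unfold hs; exact Finset.sum_congr rfl fun m _ => norm_sq_eq_sum _

lemma adjoint_dl_apply (T : Op ι) (m m' : ι) :
    (ContinuousLinearMap.adjoint T (dl m)) m' = star ((T (dl m')) m) := by
  rw [← inner_dl_left m', ContinuousLinearMap.adjoint_inner_right, inner_dl_right]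

lemma hs_adjoint (T : Op ι) : hs (ContinuousLinearMap.adjoint T) = hs T := by
  rw [hs_eq_entries, hs_eq_entries, Finset.sum_comm]
  simp_rw [adjoint_dl_apply, norm_star]

lemma sum_norm_inner_basis {κ : Type*} [Fintype κ] {X : Submodule ℂ (Ev ι)}
    (b : OrthonormalBasis κ ℂ X) (v : Ev ι) :
    ∑ i, ‖⟪v, (b i : Ev ι)⟫_ℂ‖ ^ 2 = ‖pj X v‖ ^ 2 := by
  have h := b.sum_sq_norm_inner_left (⟨pj X v, pj_mem X v⟩ : X)
  have e : ‖(⟨pj X v, pj_mem X v⟩ : X)‖ = ‖pj X v‖ := rfl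
  rw [e] at h
  rw [← h]
  refine Finset.sum_congr rfl fun i _ => ?_
  rw [Submodule.coe_inner]
  simp only [inner_pj_left_of_mem v (b i).2]

/-- **Basis formula**: for an orthonormal basis `b` of `X`, `∑ ‖T bᵢ‖² = hs (T P_X)`. -/
lemma sum_basis {κ : Type*} [Fintype κ] {X : Submodule ℂ (Ev ι)}
    (b : OrthonormalBasis κ ℂ X) (T : Op ι) :
    ∑ i, ‖T (b i : Ev ι)‖ ^ 2 = hs (T * pj X) := by
  have h1 : ∀ i, ‖T (b i : Ev ι)‖ ^ 2
      = ∑ m, ‖⟪ContinuousLinearMap.adjoint T (dl m), (b i : Ev ι)⟫_ℂ‖ ^ 2 := by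
    intro i
    rw [norm_sq_eq_sum]
    refine Finset.sum_congr rfl fun m _ => ?_
    rw [ContinuousLinearMap.adjoint_inner_left, inner_dl_left]
  simp_rw [h1]
  rw [Finset.sum_comm]
  simp_rw [sum_norm_inner_basis b]
  rw [← hs_adjoint (T * pj X)]
  unfold hs
  refine Finset.sum_congr rfl fun m _ => ?_
  have : ContinuousLinearMap.adjoint (T * pj X) = pj X * ContinuousLinearMap.adjoint T := by
    rw [ContinuousLinearMap.mul_def, ContinuousLinearMap.adjoint_comp, adjoint_pj]; rfl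
  rw [this]; rfl



lemma adjoint_mul' (S T : Op ι) : ContinuousLinearMap.adjoint (S * T)
    = ContinuousLinearMap.adjoint T * ContinuousLinearMap.adjoint S := by
  rw [ContinuousLinearMap.mul_def, ContinuousLinearMap.adjoint_comp]; rfl









/-- Pythagoras for left multiplication by a projection. -/
lemma hs_pj_add (X : Submodule ℂ (Ev ι)) (T : Op ι) :
    hs (pj X * T) + hs ((1 - pj X) * T) = hs T := by
  unfold hs
  rw [← Finset.sum_add_distrib]
  refine Finset.sum_congr rfl fun m _ => ?_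
  exact norm_sq_pj_add X (T (dl m))

/-- Pythagoras for right multiplication by a projection. -/
lemma hs_mul_pj_add (X : Submodule ℂ (Ev ι)) (T : Op ι) :
    hs (T * pj X) + hs (T * (1 - pj X)) = hs T := by
  rw [← hs_adjoint (T * pj X), ← hs_adjoint (T * (1 - pj X)), ← hs_adjoint T, adjoint_mul',
    adjoint_mul', adjoint_pj, map_sub, adjoint_pj]
  have : ContinuousLinearMap.adjoint (1 : Op ι) = 1 := by
    ext1 v; refine ext_inner_left ℂ fun w => ?_
    rw [ContinuousLinearMap.adjoint_inner_right]; rfl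
  rw [this]
  exact hs_pj_add X _

lemma hs_cp_add (A : Finset ι) (T : Op ι) : hs (cp A * T) + hs (cp Aᶜ * T) = hs T := by
  unfold hs
  rw [← Finset.sum_add_distrib]
  refine Finset.sum_congr rfl fun m _ => ?_
  exact norm_sq_cp_add A (T (dl m))

lemma adjoint_cp (A : Finset ι) : ContinuousLinearMap.adjoint (cp A) = cp A := by
  ext1 v; refine ext_inner_left ℂ fun w => ?_
  rw [ContinuousLinearMap.adjoint_inner_right, inner_cp_left]

lemma cp_mul_self (A : Finset ι) : cp A * cp A = cp A := by ext v m; simp [cp_cp]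

/-! ### trace -/

/-- the trace -/
noncomputable def tr (U : Op ι) : ℂ := ∑ m, ⟪dl m, U (dl m)⟫_ℂ

lemma tr_eq_trace (U : Op ι) : tr U = LinearMap.trace ℂ (Ev ι) (U : Ev ι →ₗ[ℂ] Ev ι) := by
  rw [LinearMap.trace_eq_sum_inner _ (EuclideanSpace.basisFun ι ℂ)]
  refine Finset.sum_congr rfl fun m _ => ?_
  simp [dl, EuclideanSpace.basisFun_apply]

lemma tr_mul_comm (S T : Op ι) : tr (S * T) = tr (T * S) := by
  rw [tr_eq_trace, tr_eq_trace]
  have e : ((S * T : Op ι) : Ev ι →ₗ[ℂ] Ev ι) = (S : Ev ι →ₗ[ℂ] Ev ι) * (T : Ev ι →ₗ[ℂ] Ev ι) := rfl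
  have e' : ((T * S : Op ι) : Ev ι →ₗ[ℂ] Ev ι) = (T : Ev ι →ₗ[ℂ] Ev ι) * (S : Ev ι →ₗ[ℂ] Ev ι) := rfl
  rw [e, e', LinearMap.trace_mul_comm]

lemma tr_add (S T : Op ι) : tr (S + T) = tr S + tr T := by
  unfold tr; rw [← Finset.sum_add_distrib]
  exact Finset.sum_congr rfl fun m _ => inner_add_right _ _ _

lemma tr_sub (S T : Op ι) : tr (S - T) = tr S - tr T := by
  unfold tr; rw [← Finset.sum_sub_distrib]
  exact Finset.sum_congr rfl fun m _ => inner_sub_right _ _ _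



lemma hs_eq_tr (T : Op ι) : (hs T : ℂ) = tr (ContinuousLinearMap.adjoint T * T) := by
  unfold hs tr
  push_cast
  refine Finset.sum_congr rfl fun m _ => ?_
  show _ = ⟪dl m, ContinuousLinearMap.adjoint T (T (dl m))⟫_ℂ
  rw [ContinuousLinearMap.adjoint_inner_right, inner_self_eq_norm_sq_to_K]
  norm_cast


/-! ### diagonal entries of the projection -/

/-- `h_X(m) = P_X(m,m) = ‖P_X δ_m‖²`. -/
noncomputable def hh (X : Submodule ℂ (Ev ι)) (m : ι) : ℝ := ‖pj X (dl m)‖ ^ 2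

/-- `tr (P_X 1_A)` -/
noncomputable def trA (X : Submodule ℂ (Ev ι)) (A : Finset ι) : ℝ := ∑ m ∈ A, hh X m

/-- `∑_{m∈A, m'∉A} |P_X(m,m')|²` -/
noncomputable def cut (X : Submodule ℂ (Ev ι)) (A : Finset ι) : ℝ :=
  ∑ m ∈ A, ∑ m' ∈ Aᶜ, ‖(pj X (dl m)) m'‖ ^ 2








/-- symmetry of the entries -/
lemma norm_entry_comm (X : Submodule ℂ (Ev ι)) (m m' : ι) :
    ‖(pj X (dl m)) m'‖ = ‖(pj X (dl m')) m‖ := by
  have h := adjoint_dl_apply (pj X) m m'
  rw [adjoint_pj] at h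
  rw [h, norm_star]


lemma hs_pj (X : Submodule ℂ (Ev ι)) : hs (pj X) = ∑ m, hh X m := rfl

/-- `tr P_X = dim X`. -/
lemma sum_hh (X : Submodule ℂ (Ev ι)) : ∑ m, hh X m = Module.finrank ℂ X := by
  have h := sum_basis (stdOrthonormalBasis ℂ X) (1 : Op ι)
  rw [one_mul, hs_pj] at h
  rw [← h]
  have : ∀ i, ‖(1 : Op ι) ((stdOrthonormalBasis ℂ X i : X) : Ev ι)‖ ^ 2 = 1 := by
    intro i
    have h1 : ‖((stdOrthonormalBasis ℂ X i : X) : Ev ι)‖ = 1 :=
      (stdOrthonormalBasis ℂ X).norm_eq_one i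
    show ‖((stdOrthonormalBasis ℂ X i : X) : Ev ι)‖ ^ 2 = 1
    rw [h1]; norm_num
  rw [Finset.sum_congr rfl fun i _ => this i]
  simp



lemma hs_mul_cp (T : Op ι) (A : Finset ι) : hs (T * cp A) = ∑ m ∈ A, ‖T (dl m)‖ ^ 2 := by
  unfold hs
  have : ∀ m, ‖(T * cp A) (dl m)‖ ^ 2 = if m ∈ A then ‖T (dl m)‖ ^ 2 else 0 := by
    intro m
    show ‖T (cp A (dl m))‖ ^ 2 = _
    rw [cp_dl]
    split_ifs <;> simp
  simp_rw [this]
  rw [Finset.sum_ite_mem, Finset.univ_inter]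

lemma trA_eq_hs' (X : Submodule ℂ (Ev ι)) (A : Finset ι) : trA X A = hs (pj X * cp A) := by
  rw [hs_mul_cp]; rfl

lemma trA_eq_hs (X : Submodule ℂ (Ev ι)) (A : Finset ι) : trA X A = hs (cp A * pj X) := by
  rw [trA_eq_hs', ← hs_adjoint, adjoint_mul', adjoint_pj, adjoint_cp]

/-- `tr(P_X 1_A) = ∑ ‖1_A bᵢ‖²`. -/
lemma trA_eq_basis {κ : Type*} [Fintype κ] {X : Submodule ℂ (Ev ι)}
    (b : OrthonormalBasis κ ℂ X) (A : Finset ι) :
    trA X A = ∑ i, ‖cp A (b i : Ev ι)‖ ^ 2 := by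
  rw [trA_eq_hs, sum_basis]


/-- the cut as a Hilbert-Schmidt norm -/
lemma cut_eq_hs0 (X : Submodule ℂ (Ev ι)) (A : Finset ι) : cut X A = hs (cp Aᶜ * pj X * cp A) := by
  rw [hs_mul_cp]
  unfold cut
  refine Finset.sum_congr rfl fun m _ => ?_
  show _ = ‖cp Aᶜ (pj X (dl m))‖ ^ 2
  rw [norm_sq_cp]


/-- `cut_A(X) = tr(P 1_A) - ‖1_A P 1_A‖₂²`. -/
lemma cut_eq_sub (X : Submodule ℂ (Ev ι)) (A : Finset ι) :
    cut X A = trA X A - hs (cp A * pj X * cp A) := by
  rw [cut_eq_hs0, trA_eq_hs']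
  have := hs_cp_add A (pj X * cp A)
  rw [← mul_assoc, ← mul_assoc] at this
  linarith

/-- `cut_A(X) = ‖(1-P) 1_A P‖₂²`. -/
lemma cut_eq_hs (X : Submodule ℂ (Ev ι)) (A : Finset ι) :
    cut X A = hs ((1 - pj X) * cp A * pj X) := by
  have h1 := hs_pj_add X (cp A * pj X)
  rw [← mul_assoc, ← mul_assoc, ← trA_eq_hs] at h1
  have h2 : hs (pj X * cp A * pj X) = hs (cp A * pj X * cp A) := by
    have h3 : (hs (pj X * cp A * pj X) : ℂ) = hs (cp A * pj X * cp A) := by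
      rw [hs_eq_tr, hs_eq_tr]
      simp only [adjoint_mul', adjoint_pj, adjoint_cp]
      have e1 : pj X * (cp A * pj X) * (pj X * cp A * pj X)
          = pj X * (cp A * pj X * cp A * pj X) := by
        calc pj X * (cp A * pj X) * (pj X * cp A * pj X)
            = pj X * cp A * (pj X * pj X) * cp A * pj X := by simp only [mul_assoc]
          _ = _ := by rw [pj_mul_self]; simp only [mul_assoc]
      have e2 : cp A * (pj X * cp A) * (cp A * pj X * cp A)
          = cp A * (pj X * cp A * pj X * cp A) := by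
        calc cp A * (pj X * cp A) * (cp A * pj X * cp A)
            = cp A * pj X * (cp A * cp A) * pj X * cp A := by simp only [mul_assoc]
          _ = _ := by rw [cp_mul_self]; simp only [mul_assoc]
      rw [e1, e2, tr_mul_comm, tr_mul_comm (cp A)]
      have e3 : cp A * pj X * cp A * pj X * pj X = cp A * (pj X * cp A * pj X) := by
        rw [mul_assoc _ (pj X) (pj X), pj_mul_self]; simp only [mul_assoc]
      have e4 : pj X * cp A * pj X * cp A * cp A = (pj X * cp A * pj X) * cp A := by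
        rw [mul_assoc _ (cp A) (cp A), cp_mul_self]
      rw [e3, e4, tr_mul_comm]
    exact_mod_cast h3
  rw [h2] at h1
  rw [cut_eq_sub]
  linarith


/-! ### Comparing subspaces -/

lemma pj_mul_pj_of_le {X Y : Submodule ℂ (Ev ι)} (h : Y ≤ X) : pj X * pj Y = pj Y := by
  ext1 v; exact pj_eq_self (h (pj_mem Y v))


/-- Pythagoras for `Y ≤ X`. -/
lemma hs_mul_pj_of_le {X Y : Submodule ℂ (Ev ι)} (h : Y ≤ X) (T : Op ι) :
    hs (T * pj X) = hs (T * pj Y) + hs (T * (pj X - pj Y)) := by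
  have := hs_mul_pj_add Y (T * pj X)
  rw [mul_assoc, pj_mul_pj_of_le h, mul_assoc, mul_sub, mul_one, pj_mul_pj_of_le h] at this
  exact this.symm

lemma hs_mul_pj_mono {X Y : Submodule ℂ (Ev ι)} (h : Y ≤ X) (T : Op ι) :
    hs (T * pj Y) ≤ hs (T * pj X) := by
  rw [hs_mul_pj_of_le h]; linarith [hs_nonneg (T * (pj X - pj Y))]

lemma hs_pj_eq (X : Submodule ℂ (Ev ι)) : hs (pj X) = Module.finrank ℂ X := by
  rw [hs_pj, sum_hh]

lemma hh_mono {X Y : Submodule ℂ (Ev ι)} (h : Y ≤ X) (m : ι) : hh Y m ≤ hh X m := by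
  have e : ∀ Z : Submodule ℂ (Ev ι), hh Z m = hs (cp {m} * pj Z) := fun Z => by
    rw [← trA_eq_hs]; simp [trA]
  rw [e, e]; exact hs_mul_pj_mono h _

lemma trA_mono_left {X Y : Submodule ℂ (Ev ι)} (h : Y ≤ X) (A : Finset ι) :
    trA Y A ≤ trA X A := Finset.sum_le_sum fun m _ => hh_mono h m

/-- An operator bounded by `c` on `Y` has `‖T P_Y‖₂² ≤ c² dim Y`. -/
lemma hs_mul_pj_le {Y : Submodule ℂ (Ev ι)} {T : Op ι} {c : ℝ}
    (h : ∀ v ∈ Y, ‖T v‖ ≤ c * ‖v‖) : hs (T * pj Y) ≤ c ^ 2 * Module.finrank ℂ Y := by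
  rw [← hs_pj_eq]
  unfold hs
  rw [Finset.mul_sum]
  refine Finset.sum_le_sum fun m _ => ?_
  have := h (pj Y (dl m)) (pj_mem Y _)
  calc ‖(T * pj Y) (dl m)‖ ^ 2 ≤ (c * ‖pj Y (dl m)‖) ^ 2 := by
        have h0 : ‖(T * pj Y) (dl m)‖ = ‖T (pj Y (dl m))‖ := rfl
        rw [h0]
        gcongr
    _ = _ := by ring

/-- lower bound for `tr(P_X 1_A)` from a subspace almost supported in `A`. -/
lemma le_trA_of_subspace {X Y : Submodule ℂ (Ev ι)} (h : Y ≤ X) {A : Finset ι} {c : ℝ}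
    (hc : ∀ v ∈ Y, ‖cp Aᶜ v‖ ≤ c * ‖v‖) : (1 - c ^ 2) * Module.finrank ℂ Y ≤ trA X A := by
  have h1 := hs_cp_add A (pj Y)
  rw [hs_pj_eq, ← trA_eq_hs] at h1
  have h2 := hs_mul_pj_le hc
  have h3 := trA_mono_left h A
  linarith

/-- `‖P_X - P_Y‖₂² = dim X + dim Y - 2 ‖P_Y P_X‖₂²`. -/
lemma hs_pj_sub_pj (X Y : Submodule ℂ (Ev ι)) :
    hs (pj X - pj Y) = Module.finrank ℂ X + Module.finrank ℂ Y - 2 * hs (pj Y * pj X) := by
  have h : (hs (pj X - pj Y) : ℂ)
      = Module.finrank ℂ X + Module.finrank ℂ Y - 2 * hs (pj Y * pj X) := by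
    rw [hs_eq_tr, hs_eq_tr, map_sub, adjoint_pj, adjoint_pj, adjoint_mul', adjoint_pj, adjoint_pj]
    have e1 : (pj X - pj Y) * (pj X - pj Y) = pj X * pj X + pj Y * pj Y - pj X * pj Y
        - pj Y * pj X := by rw [sub_mul, mul_sub, mul_sub]; abel
    have e2 : pj X * pj Y * (pj Y * pj X) = pj X * (pj Y * pj X) := by
      rw [mul_assoc, ← mul_assoc (pj Y) (pj Y), pj_mul_self]
    have e3 : pj Y * pj X * pj X = pj Y * pj X := by rw [mul_assoc, pj_mul_self]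
    have hX : ∀ Z : Submodule ℂ (Ev ι), tr (pj Z * pj Z) = Module.finrank ℂ Z := by
      intro Z
      have := hs_eq_tr (pj Z)
      rw [adjoint_pj] at this
      rw [← this, hs_pj_eq]; norm_cast
    rw [e1, e2, tr_sub, tr_sub, tr_add, hX, hX, tr_mul_comm (pj X) (pj Y * pj X), e3,
      tr_mul_comm (pj X) (pj Y)]
    ring
  exact_mod_cast h




end

end Crest.Agent.R113.FD
end

-- ▼ part R113/FluxLA

/-! # T02a: key lemma (K), localisation => small cut (FI), localisation => large trace (helper690)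

Bridge between the definitions of `Defs.lean` and the toolbox `FD/Sub.lean`, and the proofs of the
first three theorems of `Flux.lean`. -/

set_option autoImplicit false
set_option linter.unusedSectionVars false

namespace Crest.Agent.R113

open scoped BigOperators InnerProductSpace

section Bridge

variable {ι : Type*} [Fintype ι] [DecidableEq ι]

theorem ev_eq_dl (i : ι) : (ev i : EuclideanSpace ℂ ι) = FD.dl i := rfl


theorem trOn_eq_trA (X : Submodule ℂ (EuclideanSpace ℂ ι)) (A : Finset ι) :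
    trOn X A = FD.trA X A := rfl

theorem ent_eq (X : Submodule ℂ (EuclideanSpace ℂ ι)) (i j : ι) :
    ent X i j = (FD.pj X (FD.dl j)) i := by
  unfold ent
  rw [ev_eq_dl, ev_eq_dl, FD.inner_dl_left]

theorem cut_eq_cut (X : Submodule ℂ (EuclideanSpace ℂ ι)) (A : Finset ι) :
    cut X A = FD.cut X A := by
  unfold cut FD.cut
  refine Finset.sum_congr rfl fun i _ => Finset.sum_congr rfl fun j _ => ?_
  rw [ent_eq, FD.norm_entry_comm]

theorem restr_coe (A : Finset ι) (v : EuclideanSpace ℂ ι) :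
    restr (A : Set ι) v = FD.cp A v := by
  ext i
  rw [restr_apply, FD.cp_apply]
  simp

theorem sub_restr_coe (A : Finset ι) (v : EuclideanSpace ℂ ι) :
    v - restr (A : Set ι) v = FD.cp Aᶜ v := by
  rw [restr_coe, sub_eq_iff_eq_add', FD.cp_add_compl]

theorem hsd_eq_hs (X Y : Submodule ℂ (EuclideanSpace ℂ ι)) :
    hsd X Y = FD.hs (FD.pj X - FD.pj Y) := by
  unfold hsd
  rw [FD.hs_eq_entries, Finset.sum_comm]
  refine Finset.sum_congr rfl fun i _ => Finset.sum_congr rfl fun j _ => ?_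
  rw [ent_eq, ent_eq]
  rfl


end Bridge

section LA

variable {ι : Type*} [Fintype ι] [DecidableEq ι]

/-- lower bound of the trace from a localised subspace -/
theorem trOn_ge_of_localised_aux
    (X Y : Submodule ℂ (EuclideanSpace ℂ ι)) (A : Finset ι) (ε : ℝ) (hY : Y ≤ X)
    (hloc : ∀ v ∈ Y, ‖v - restr (A : Set ι) v‖ ≤ ε * ‖v‖) :
    (1 - ε ^ 2) * Module.finrank ℂ Y ≤ trOn X A := by
  rw [trOn_eq_trA]
  refine FD.le_trA_of_subspace hY fun v hv => ?_
  rw [← sub_restr_coe]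
  exact hloc v hv

theorem cut_le_of_localised_aux
    (X Y : Submodule ℂ (EuclideanSpace ℂ ι)) (A : Finset ι) (ε : ℝ) (hY : Y ≤ X)
    (hloc : ∀ v ∈ Y, ‖v - restr (A : Set ι) v‖ ≤ ε * ‖v‖) :
    cut X A ≤ trOn X A - (1 - 2 * ε ^ 2) * Module.finrank ℂ Y := by
  rw [cut_eq_cut, trOn_eq_trA, FD.cut_eq_hs, FD.hs_mul_pj_of_le hY]
  have h1 : FD.hs ((1 - FD.pj X) * FD.cp A * FD.pj Y) ≤ ε ^ 2 * Module.finrank ℂ Y := by
    refine FD.hs_mul_pj_le fun v hv => ?_
    have e : ((1 - FD.pj X) * FD.cp A) v = -((1 - FD.pj X) (FD.cp Aᶜ v)) := by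
      have h0 : (1 - FD.pj X) v = 0 := by
        show v - FD.pj X v = 0
        rw [FD.pj_eq_self (hY hv), sub_self]
      have h1 : FD.cp A v = v - FD.cp Aᶜ v := by
        rw [eq_sub_iff_add_eq, FD.cp_add_compl]
      show (1 - FD.pj X) (FD.cp A v) = _
      rw [h1, map_sub, h0, zero_sub]
    rw [e, norm_neg]
    have h2 : ‖(1 - FD.pj X) (FD.cp Aᶜ v)‖ ≤ ‖FD.cp Aᶜ v‖ := by
      have := FD.norm_sq_pj_add X (FD.cp Aᶜ v)
      show ‖FD.cp Aᶜ v - FD.pj X (FD.cp Aᶜ v)‖ ≤ _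
      exact abs_le_of_sq_le_sq' (by nlinarith [sq_nonneg ‖FD.pj X (FD.cp Aᶜ v)‖])
        (norm_nonneg _) |>.2
    refine h2.trans ?_
    rw [← sub_restr_coe]
    exact hloc v hv
  have h2 : FD.hs ((1 - FD.pj X) * FD.cp A * (FD.pj X - FD.pj Y)) ≤
      FD.trA X A - FD.trA Y A := by
    have e1 := FD.hs_pj_add X (FD.cp A * (FD.pj X - FD.pj Y))
    have e2 := FD.hs_nonneg (FD.pj X * (FD.cp A * (FD.pj X - FD.pj Y)))
    have e3 := FD.hs_mul_pj_of_le hY (FD.cp A)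
    rw [← FD.trA_eq_hs, ← FD.trA_eq_hs] at e3
    rw [mul_assoc]
    linarith
  have h3 : (1 - ε ^ 2) * Module.finrank ℂ Y ≤ FD.trA Y A :=
    FD.le_trA_of_subspace le_rfl fun v hv => by
      rw [← sub_restr_coe]
      exact hloc v hv
  linarith

/-- Spectral subspace of the compression of `1_B` to `X`: dimension at least
`tr(P_X 1_B) - s dim X`, and `‖1_B w‖² ≥ s ‖w‖²` on it. -/
theorem exists_spectral (X : Submodule ℂ (EuclideanSpace ℂ ι)) (B : Finset ι) (s : ℝ)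
    (hs : 0 ≤ s) :
    ∃ Z : Submodule ℂ (EuclideanSpace ℂ ι), Z ≤ X ∧
      FD.trA X B - s * Module.finrank ℂ X ≤ Module.finrank ℂ Z ∧
      ∀ w ∈ Z, s * ‖w‖ ^ 2 ≤ ‖FD.cp B w‖ ^ 2 := by
  classical
  -- compression
  let T : X →ₗ[ℂ] X :=
    (X.orthogonalProjectionOnto : EuclideanSpace ℂ ι →ₗ[ℂ] X) ∘ₗ
      (FD.cp B : EuclideanSpace ℂ ι →ₗ[ℂ] EuclideanSpace ℂ ι) ∘ₗ X.subtype
  have hTin : ∀ x y : X, ⟪x, T y⟫_ℂ = ⟪(x : EuclideanSpace ℂ ι), FD.cp B y⟫_ℂ := by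
    intro x y
    rw [Submodule.coe_inner]
    show ⟪(x : EuclideanSpace ℂ ι), FD.pj X (FD.cp B y)⟫_ℂ = _
    rw [← FD.inner_pj_left, FD.pj_eq_self x.2]
  have hT : LinearMap.IsSymmetric (𝕜 := ℂ) (E := X) T := by
    intro x y
    rw [hTin]
    have h := hTin y x
    rw [← inner_conj_symm, h, inner_conj_symm, FD.inner_cp_left]
  obtain ⟨n, hn⟩ : ∃ n, Module.finrank ℂ X = n := ⟨_, rfl⟩
  let b := hT.eigenvectorBasis hn
  let l := hT.eigenvalues hn
  have hTb : ∀ i, T (b i) = (l i : ℂ) • b i := fun i => hT.apply_eigenvectorBasis hn i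
  have hbb : ∀ i j, ⟪(b i : EuclideanSpace ℂ ι), FD.cp B (b j)⟫_ℂ = if i = j then (l j : ℂ) else 0 := by
    intro i j
    rw [← hTin, hTb]
    have h1 : ⟪b i, (l j : ℂ) • b j⟫_ℂ = (l j : ℂ) * ⟪b i, b j⟫_ℂ := by
      rw [Submodule.coe_inner, Submodule.coe_smul, inner_smul_right, ← Submodule.coe_inner]
    rw [h1, orthonormal_iff_ite.1 b.orthonormal]
    split_ifs <;> simp
  have hll : ∀ i, l i = ‖FD.cp B (b i)‖ ^ 2 := by
    intro i
    have h := hbb i i
    rw [if_pos rfl, FD.inner_cp_self] at h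
    exact_mod_cast h.symm
  have hl1 : ∀ i, l i ≤ 1 := by
    intro i
    rw [hll]
    have h1 := FD.norm_cp_le B (b i : EuclideanSpace ℂ ι)
    have h2 : ‖(b i : EuclideanSpace ℂ ι)‖ = 1 := b.norm_eq_one i
    rw [h2] at h1
    nlinarith [norm_nonneg (FD.cp B (b i : EuclideanSpace ℂ ι))]
  let I : Finset (Fin n) := Finset.univ.filter fun i => s ≤ l i
  refine ⟨Submodule.span ℂ (Set.range fun i : I => (b i : EuclideanSpace ℂ ι)), ?_, ?_, ?_⟩
  · rw [Submodule.span_le]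
    rintro _ ⟨i, rfl⟩
    exact (b i).2
  · have hli : LinearIndependent ℂ (fun i : I => (b i : EuclideanSpace ℂ ι)) := by
      have h1 : Orthonormal ℂ (fun i : Fin n => (b i : EuclideanSpace ℂ ι)) :=
        b.orthonormal.comp_linearIsometry X.subtypeₗᵢ
      exact (h1.comp _ Subtype.val_injective).linearIndependent
    rw [finrank_span_eq_card hli, FD.trA_eq_basis b]
    simp only [Fintype.card_coe]
    have h1 : ∑ i, ‖FD.cp B (b i)‖ ^ 2 = ∑ i, l i :=
      Finset.sum_congr rfl fun i _ => (hll i).symm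
    rw [h1, hn, ← Finset.sum_filter_add_sum_filter_not Finset.univ (fun i => s ≤ l i)]
    have h2 : ∑ i ∈ I, l i ≤ I.card := by
      calc ∑ i ∈ I, l i ≤ ∑ i ∈ I, (1 : ℝ) := Finset.sum_le_sum fun i _ => hl1 i
        _ = _ := by simp
    have h3 : ∑ i ∈ Finset.univ.filter (fun i => ¬ s ≤ l i), l i ≤ s * n := by
      calc ∑ i ∈ Finset.univ.filter (fun i => ¬ s ≤ l i), l i
          ≤ ∑ i ∈ Finset.univ.filter (fun i => ¬ s ≤ l i), s :=
            Finset.sum_le_sum fun i hi => (not_le.1 (Finset.mem_filter.1 hi).2).le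
        _ ≤ ∑ i : Fin n, s :=
            Finset.sum_le_sum_of_subset_of_nonneg (Finset.filter_subset _ _) fun _ _ _ => hs
        _ = s * n := by simp [mul_comm]
    have h4 : ∑ i ∈ Finset.univ.filter (fun i => s ≤ l i), l i = ∑ i ∈ I, l i := rfl
    linarith
  · intro w hw
    obtain ⟨c, rfl⟩ := (Submodule.mem_span_range_iff_exists_fun ℂ).1 hw
    have h1 : Orthonormal ℂ (fun i : I => (b i : EuclideanSpace ℂ ι)) := by
      have h1 : Orthonormal ℂ (fun i : Fin n => (b i : EuclideanSpace ℂ ι)) :=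
        b.orthonormal.comp_linearIsometry X.subtypeₗᵢ
      exact h1.comp _ Subtype.val_injective
    have e1 : ‖∑ i : I, c i • (b i : EuclideanSpace ℂ ι)‖ ^ 2 = ∑ i : I, ‖c i‖ ^ 2 := by
      have h := h1.inner_sum c c Finset.univ
      rw [inner_self_eq_norm_sq_to_K] at h
      have h' : ((‖∑ i : I, c i • (b i : EuclideanSpace ℂ ι)‖ ^ 2 : ℝ) : ℂ)
          = ((∑ i : I, ‖c i‖ ^ 2 : ℝ) : ℂ) := by
        push_cast
        rw [show ((‖∑ i : I, c i • (b i : EuclideanSpace ℂ ι)‖ : ℝ) : ℂ)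
            = ((‖∑ i : I, c i • (b i : EuclideanSpace ℂ ι)‖ : ℝ) : ℂ) from rfl]
        refine h.trans (Finset.sum_congr rfl fun i _ => ?_)
        rw [← Complex.conj_mul']
      exact_mod_cast h'
    have e2 : ‖FD.cp B (∑ i : I, c i • (b i : EuclideanSpace ℂ ι))‖ ^ 2
        = ∑ i : I, l i * ‖c i‖ ^ 2 := by
      have h : ((‖FD.cp B (∑ i : I, c i • (b i : EuclideanSpace ℂ ι))‖ ^ 2 : ℝ) : ℂ)
          = ((∑ i : I, l i * ‖c i‖ ^ 2 : ℝ) : ℂ) := by
        rw [← FD.inner_cp_self, map_sum, sum_inner]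
        push_cast
        refine Finset.sum_congr rfl fun i _ => ?_
        rw [inner_sum, Finset.sum_eq_single i]
        · rw [map_smul, inner_smul_left, inner_smul_right, hbb, if_pos rfl, ← Complex.conj_mul']
          ring
        · intro j _ hj
          rw [map_smul, inner_smul_left, inner_smul_right, hbb, if_neg]
          · simp
          · intro h
            exact hj (Subtype.ext h.symm)
        · intro h
          exact absurd (Finset.mem_univ _) h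
      exact_mod_cast h
    rw [e1, e2, Finset.mul_sum]
    refine Finset.sum_le_sum fun i _ => ?_
    have hi : s ≤ l i := (Finset.mem_filter.1 i.2).2
    exact mul_le_mul_of_nonneg_right hi (by positivity)

/-- Codimension of a preimage. -/
theorem finrank_comap_ge (X X' Z : Submodule ℂ (EuclideanSpace ℂ ι)) (hZ : Z ≤ X)
    (S : EuclideanSpace ℂ ι →ₗ[ℂ] EuclideanSpace ℂ ι) (hS : ∀ v, S v ∈ X) :
    Module.finrank ℂ X' + Module.finrank ℂ Z ≤
      Module.finrank ℂ X + Module.finrank ℂ (X' ⊓ Z.comap S : Submodule ℂ (EuclideanSpace ℂ ι)) := by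
  classical
  -- restrict `S` to `X' → X`, and compose with `X → X ⧸ Z`
  let Z' : Submodule ℂ X := Z.comap X.subtype
  let f : X' →ₗ[ℂ] (X ⧸ Z') :=
    Z'.mkQ ∘ₗ (LinearMap.codRestrict X S hS) ∘ₗ X'.subtype
  have h1 := LinearMap.finrank_range_add_finrank_ker f
  have h2 : Module.finrank ℂ (LinearMap.range f) ≤ Module.finrank ℂ (X ⧸ Z') :=
    Submodule.finrank_le _
  have h3 := Submodule.finrank_quotient_add_finrank Z'
  have h4 : Module.finrank ℂ Z' = Module.finrank ℂ Z := by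
    exact (Submodule.comapSubtypeEquivOfLe hZ).finrank_eq
  have h5 : Module.finrank ℂ (LinearMap.ker f) ≤
      Module.finrank ℂ (X' ⊓ Z.comap S : Submodule ℂ (EuclideanSpace ℂ ι)) := by
    have h6 : (LinearMap.ker f).map X'.subtype ≤ (X' ⊓ Z.comap S) := by
      rintro _ ⟨v, hv, rfl⟩
      refine ⟨v.2, ?_⟩
      have h7 : f v = 0 := hv
      have h8 : Z'.mkQ (LinearMap.codRestrict X S hS (v : EuclideanSpace ℂ ι)) = 0 := h7
      rw [Submodule.mkQ_apply, Submodule.Quotient.mk_eq_zero] at h8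
      exact h8
    have h9 := Submodule.finrank_mono h6
    rwa [LinearEquiv.finrank_eq (Submodule.equivMapOfInjective X'.subtype
      X'.injective_subtype (LinearMap.ker f)).symm] at h9
  omega

theorem key_lemma_aux
    (X X' : Submodule ℂ (EuclideanSpace ℂ ι)) (A B : Finset ι)
    (N : EuclideanSpace ℂ ι →ₗ[ℂ] EuclideanSpace ℂ ι) (δ α β s d : ℝ)
    (hβ : 0 < β) (hs : 0 < s)
    (hcod : (Module.finrank ℂ X : ℝ) ≤ Module.finrank ℂ X' + d)
    (h1 : ∀ v ∈ X', ‖N v - X.starProjection (N v)‖ ≤ δ * ‖v‖)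
    (h2 : ∀ v ∈ X', ‖restr (B : Set ι) (N v)‖ ≤ α * ‖restr (A : Set ι) v‖)
    (h3 : ∀ v ∈ X', β * ‖v - restr (A : Set ι) v‖ ≤ ‖N v - restr (B : Set ι) (N v)‖) :
    ∃ Y : Submodule ℂ (EuclideanSpace ℂ ι), Y ≤ X' ∧
      trOn X B - s * Module.finrank ℂ X - d ≤ Module.finrank ℂ Y ∧
      ∀ v ∈ Y, ‖v - restr (A : Set ι) v‖ ≤
        (α / (β * Real.sqrt s)) * ‖restr (A : Set ι) v‖
          + ((1 / Real.sqrt s + 1) * δ / β) * ‖v‖ := by
  obtain ⟨Z, hZX, hZd, hZ⟩ := exists_spectral X B s hs.le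
  let S : EuclideanSpace ℂ ι →ₗ[ℂ] EuclideanSpace ℂ ι :=
    (X.starProjection : EuclideanSpace ℂ ι →ₗ[ℂ] EuclideanSpace ℂ ι) ∘ₗ N
  have hS : ∀ v, S v ∈ X := fun v => X.starProjection_apply_mem (N v)
  have hdim := finrank_comap_ge X X' Z hZX S hS
  refine ⟨X' ⊓ Z.comap S, inf_le_left, ?_, ?_⟩
  · rw [trOn_eq_trA]
    have hdim' : (Module.finrank ℂ X' : ℝ) + Module.finrank ℂ Z ≤
      Module.finrank ℂ X
        + Module.finrank ℂ (X' ⊓ Z.comap S : Submodule ℂ (EuclideanSpace ℂ ι)) := by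
      exact_mod_cast hdim
    linarith
  · rintro v ⟨hv, hvZ⟩
    have hw : S v ∈ Z := hvZ
    have hSv : S v = X.starProjection (N v) := rfl
    have hsq : 0 < Real.sqrt s := Real.sqrt_pos.2 hs
    have e1 : Real.sqrt s * ‖S v‖ ≤ ‖FD.cp B (S v)‖ := by
      have h := hZ _ hw
      have h' : (Real.sqrt s * ‖S v‖) ^ 2 ≤ ‖FD.cp B (S v)‖ ^ 2 := by
        rw [mul_pow, Real.sq_sqrt hs.le]; exact h
      exact abs_le_of_sq_le_sq' h' (norm_nonneg _) |>.2
    have e2 : ‖N v - S v‖ ≤ δ * ‖v‖ := h1 v hv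
    have e3 : ‖FD.cp B (S v)‖ ≤ α * ‖restr (A : Set ι) v‖ + δ * ‖v‖ := by
      have h4 : FD.cp B (S v) = FD.cp B (N v) - FD.cp B (N v - S v) := by
        rw [← map_sub]; congr 1; abel
      have h5 := FD.norm_cp_le B (N v - S v)
      have h6 := h2 v hv
      rw [restr_coe] at h6
      calc ‖FD.cp B (S v)‖ ≤ ‖FD.cp B (N v)‖ + ‖FD.cp B (N v - S v)‖ := by
            rw [h4]; exact norm_sub_le _ _
        _ ≤ _ := by linarith
    have e4 : ‖N v - restr (B : Set ι) (N v)‖ ≤ ‖S v‖ + δ * ‖v‖ := by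
      rw [sub_restr_coe]
      calc ‖FD.cp Bᶜ (N v)‖ ≤ ‖N v‖ := FD.norm_cp_le _ _
        _ = ‖S v + (N v - S v)‖ := by congr 1; abel
        _ ≤ ‖S v‖ + ‖N v - S v‖ := norm_add_le _ _
        _ ≤ _ := by linarith
    have e5 := h3 v hv
    have e6 : ‖S v‖ ≤ (α * ‖restr (A : Set ι) v‖ + δ * ‖v‖) / Real.sqrt s := by
      rw [le_div_iff₀ hsq]
      linarith [mul_comm ‖S v‖ (Real.sqrt s)]
    have e7 : β * ‖v - restr (A : Set ι) v‖ ≤
        (α * ‖restr (A : Set ι) v‖ + δ * ‖v‖) / Real.sqrt s + δ * ‖v‖ := by linarith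
    have e8 : (α / (β * Real.sqrt s)) * ‖restr (A : Set ι) v‖
          + ((1 / Real.sqrt s + 1) * δ / β) * ‖v‖
        = ((α * ‖restr (A : Set ι) v‖ + δ * ‖v‖) / Real.sqrt s + δ * ‖v‖) / β := by
      field_simp
      ring
    rw [e8, le_div_iff₀ hβ]
    linarith [mul_comm β ‖v - restr (A : Set ι) v‖]

end LA

end Crest.Agent.R113
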