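import Mathlib
import Crest.Agent.R113.Basic

-- ▼ part R113/FD/MinA
section

set_option autoImplicit false
open scoped ComplexOrder Matrix MatrixOrder
open Matrix

namespace Crest.Agent.R113.FD

section LogDet
variable {n : Type*} [Fintype n] [DecidableEq n]

/-- `log det` (real part) of a complex matrix. -/
noncomputable def ld (A : Matrix n n ℂ) : ℝ := Real.log (A.det.re)

lemma posDef_det_re_pos {A : Matrix n n ℂ} (hA : A.PosDef) : 0 < A.det.re := by
  have h := hA.det_pos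
  exact (Complex.lt_def.mp h).1

lemma posDef_det_ne {A : Matrix n n ℂ} (hA : A.PosDef) : A.det ≠ 0 := hA.det_pos.ne'

lemma ld_eq_sum {A : Matrix n n ℂ} (hA : A.PosDef) :
    ld A = ∑ i, Real.log (hA.1.eigenvalues i) := by
  unfold ld
  rw [hA.1.det_eq_prod_eigenvalues]
  have : (∏ i, ((hA.1.eigenvalues i : ℝ) : ℂ)).re = ∏ i, hA.1.eigenvalues i := by
    rw [← Complex.ofReal_prod, Complex.ofReal_re]
  erw [this]
  rw [Real.log_prod]
  intro i _
  exact (hA.eigenvalues_pos i).ne'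

lemma ld_le_trace_sub {A : Matrix n n ℂ} (hA : A.PosDef) :
    ld A ≤ (A.trace).re - Fintype.card n := by
  rw [ld_eq_sum hA, hA.1.trace_eq_sum_eigenvalues]
  have : (∑ i, ((hA.1.eigenvalues i : ℝ) : ℂ)).re = ∑ i, hA.1.eigenvalues i := by
    rw [← Complex.ofReal_sum, Complex.ofReal_re]
  erw [this]
  have h2 : (Fintype.card n : ℝ) = ∑ _i : n, (1 : ℝ) := by simp
  rw [h2, ← Finset.sum_sub_distrib]
  apply Finset.sum_le_sum
  intro i _
  exact Real.log_le_sub_one_of_pos (hA.eigenvalues_pos i)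

lemma ld_mul {A B : Matrix n n ℂ} (hA : 0 < A.det.re) (hA' : A.det.im = 0) (hB : 0 < B.det.re) : ld (A * B) = ld A + ld B := by
  unfold ld
  rw [Matrix.det_mul, Complex.mul_re, hA', zero_mul, sub_zero, Real.log_mul hA.ne' hB.ne']

lemma posDef_det_im {A : Matrix n n ℂ} (hA : A.PosDef) : A.det.im = 0 := by
  have h := hA.det_pos
  exact (Complex.lt_def.mp h).2.symm

/-- Tangent inequality (concavity of log det). -/
lemma ld_le_tangent {A B : Matrix n n ℂ} (hA : A.PosDef) (hB : B.PosDef) :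
    ld B ≤ ld A + ((A⁻¹ * (B - A)).trace).re := by
  obtain ⟨C, hCu, hAC⟩ := CStarAlgebra.isStrictlyPositive_iff_eq_star_mul_self.mp
    hA.isStrictlyPositive
  have hCdet : IsUnit C.det := (Matrix.isUnit_iff_isUnit_det C).mp hCu
  have hinj : Function.Injective (C⁻¹).mulVec := by
    rw [Matrix.mulVec_injective_iff_isUnit]
    exact (Matrix.isUnit_nonsing_inv_iff).mpr hCu
  have hG : ((C⁻¹)ᴴ * B * C⁻¹).PosDef := hB.conjTranspose_mul_mul_same hinj
  have h1 := ld_le_trace_sub hG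
  have hCC : C⁻¹ * (C⁻¹)ᴴ = A⁻¹ := by
    rw [hAC, star_eq_conjTranspose, Matrix.mul_inv_rev, Matrix.conjTranspose_nonsing_inv]
  have htr : ((C⁻¹)ᴴ * B * C⁻¹).trace = (A⁻¹ * B).trace := by
    rw [Matrix.trace_mul_comm, ← Matrix.mul_assoc, hCC]
  have hdet : ((C⁻¹)ᴴ * B * C⁻¹).det * A.det = B.det := by
    have hs : (star C.det) ≠ 0 := by simpa using hCdet.ne_zero
    have hc : C.det ≠ 0 := hCdet.ne_zero
    rw [hAC, star_eq_conjTranspose]
    simp only [Matrix.det_mul, Matrix.det_conjTranspose, Matrix.det_nonsing_inv,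
      Ring.inverse_eq_inv']
    rw [star_inv₀]
    field_simp
  have hld : ld ((C⁻¹)ᴴ * B * C⁻¹) + ld A = ld B := by
    have h := ld_mul (posDef_det_re_pos hG) (posDef_det_im hG) (posDef_det_re_pos hA)
    rw [← h]
    unfold ld
    rw [Matrix.det_mul, hdet]
  have hAA : A⁻¹ * A = 1 := Matrix.nonsing_inv_mul _ ((Matrix.isUnit_iff_isUnit_det A).mp hA.isUnit)
  have : ((A⁻¹ * (B - A)).trace).re = ((A⁻¹ * B).trace).re - Fintype.card n := by
    rw [Matrix.mul_sub, hAA, Matrix.trace_sub, Matrix.trace_one]; simp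
  rw [this]
  rw [htr] at h1
  linarith

/-- monotonicity -/
lemma ld_mono {A B : Matrix n n ℂ} (hA : A.PosDef) (hB : B.PosDef) (h : A ≤ B) :
    ld A ≤ ld B := by
  have h1 := ld_le_tangent hB hA
  have h2 : 0 ≤ ((B⁻¹ * (B - A)).trace).re := by
    obtain ⟨D, hD⟩ := CStarAlgebra.nonneg_iff_eq_star_mul_self.mp hB.inv.posSemidef.nonneg
    rw [hD, star_eq_conjTranspose]
    have h3 : (Dᴴ * D * (B - A)).trace = (D * (B - A) * Dᴴ).trace := by
      rw [Matrix.trace_mul_comm (D * (B - A)) Dᴴ, Matrix.mul_assoc]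
    rw [h3]
    have h4 : (D * (B - A) * Dᴴ).PosSemidef := PosSemidef.mul_mul_conjTranspose_same h D
    exact (Complex.le_def.mp h4.trace_nonneg).1
  have h5 : ((B⁻¹ * (A - B)).trace).re = - ((B⁻¹ * (B - A)).trace).re := by
    rw [← Complex.neg_re, ← Matrix.trace_neg, ← Matrix.mul_neg, neg_sub]
  linarith

lemma ld_one : ld (1 : Matrix n n ℂ) = 0 := by
  unfold ld; simp

lemma ld_smul (c : ℝ) (hc : 0 < c) {A : Matrix n n ℂ} (hA : A.PosDef) :
    ld ((c : ℂ) • A) = Fintype.card n * Real.log c + ld A := by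
  unfold ld
  rw [Matrix.det_smul, ← Complex.ofReal_pow, Complex.re_ofReal_mul, Real.log_mul
    (pow_pos hc _).ne' (posDef_det_re_pos hA).ne', Real.log_pow]

end LogDet

end Crest.Agent.R113.FD
end

-- ▼ part R113/FD/MinB
section

set_option autoImplicit false
set_option linter.unusedSectionVars false
open scoped ComplexOrder Matrix MatrixOrder
open Matrix

namespace Crest.Agent.R113.FD

section Jensen
variable {n k : Type*} [Fintype n] [DecidableEq n] [Fintype k] [DecidableEq k]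

lemma isometry_inj {V : Matrix n k ℂ} (hV : Vᴴ * V = 1) : Function.Injective V.mulVec := by
  intro x y h
  have := congrArg (Vᴴ.mulVec) h
  simpa [Matrix.mulVec_mulVec, hV] using this

lemma diag_conj_apply (W : Matrix n k ℂ) (d : n → ℝ) (j : k) :
    (Wᴴ * diagonal (fun m => (d m : ℂ)) * W) j j = ((∑ m, Complex.normSq (W m j) * d m : ℝ) : ℂ) := by
  rw [Matrix.mul_apply]
  simp only [Matrix.mul_diagonal, Matrix.conjTranspose_apply]
  push_cast
  apply Finset.sum_congr rfl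
  intro m _
  rw [Complex.normSq_eq_conj_mul_self]
  simp only [Complex.star_def]
  ring

/-- Jensen (Peierls) inequality for `log det`. -/
lemma ld_jensen {V : Matrix n k ℂ} (hV : Vᴴ * V = 1) (x : n → ℝ) :
    ∑ m, x m * ((V * Vᴴ) m m).re ≤
      ld (Vᴴ * diagonal (fun m => ((Real.exp (x m) : ℝ) : ℂ)) * V) := by
  have hD : (diagonal (fun m => ((Real.exp (x m) : ℝ) : ℂ))).PosDef := by
    apply Matrix.PosDef.diagonal
    intro i
    exact_mod_cast Real.exp_pos _
  have hG : (Vᴴ * diagonal (fun m => ((Real.exp (x m) : ℝ) : ℂ)) * V).PosDef :=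
    hD.conjTranspose_mul_mul_same (isometry_inj hV)
  set G := Vᴴ * diagonal (fun m => ((Real.exp (x m) : ℝ) : ℂ)) * V with hGdef
  set U : Matrix k k ℂ := (hG.1.eigenvectorUnitary : Matrix k k ℂ) with hU
  have hUU : Uᴴ * U = 1 := by
    rw [← star_eq_conjTranspose]
    exact Unitary.coe_star_mul_self hG.1.eigenvectorUnitary
  have hUU' : U * Uᴴ = 1 := by
    rw [← star_eq_conjTranspose]
    exact Unitary.coe_mul_star_self hG.1.eigenvectorUnitary
  have hdiag : Uᴴ * G * U = diagonal (fun i => ((hG.1.eigenvalues i : ℝ) : ℂ)) := by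
    have h := hG.1.conjStarAlgAut_star_eigenvectorUnitary
    rw [Unitary.conjStarAlgAut_apply] at h
    simpa [star_eq_conjTranspose, hU] using! h
  set W : Matrix n k ℂ := V * U with hW
  have hWW : Wᴴ * W = 1 := by
    rw [hW, Matrix.conjTranspose_mul, Matrix.mul_assoc, ← Matrix.mul_assoc Vᴴ, hV, Matrix.one_mul,
      hUU]
  have hWV : W * Wᴴ = V * Vᴴ := by
    rw [hW, Matrix.conjTranspose_mul, Matrix.mul_assoc, ← Matrix.mul_assoc U, hUU', Matrix.one_mul]
  have hlam : ∀ j, hG.1.eigenvalues j = ∑ m, Complex.normSq (W m j) * Real.exp (x m) := by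
    intro j
    have h1 : (Wᴴ * diagonal (fun m => ((Real.exp (x m) : ℝ) : ℂ)) * W) j j =
        ((hG.1.eigenvalues j : ℝ) : ℂ) := by
      have : Wᴴ * diagonal (fun m => ((Real.exp (x m) : ℝ) : ℂ)) * W = Uᴴ * G * U := by
        rw [hW, Matrix.conjTranspose_mul, hGdef]
        simp only [Matrix.mul_assoc]
      rw [this, hdiag]; simp
    rw [diag_conj_apply] at h1
    exact_mod_cast h1.symm
  have hsum1 : ∀ j, ∑ m, Complex.normSq (W m j) = 1 := by
    intro j
    have h1 := diag_conj_apply W (fun _ => (1:ℝ)) j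
    have h2 : (Wᴴ * diagonal (fun _ : n => (((1:ℝ)) : ℂ)) * W) = 1 := by
      have : diagonal (fun _ : n => (((1:ℝ)) : ℂ)) = (1 : Matrix n n ℂ) := by
        simp
      rw [this, Matrix.mul_one, hWW]
    rw [h2] at h1
    simp only [Matrix.one_apply_eq, mul_one] at h1
    exact_mod_cast h1.symm
  rw [ld_eq_sum hG]
  have hj : ∀ j, ∑ m, Complex.normSq (W m j) * x m ≤ Real.log (hG.1.eigenvalues j) := by
    intro j
    rw [hlam j]
    have h := (strictConcaveOn_log_Ioi.concaveOn).le_map_sum (t := Finset.univ)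
      (w := fun m => Complex.normSq (W m j)) (p := fun m => Real.exp (x m))
      (fun i _ => Complex.normSq_nonneg _) (hsum1 j) (fun i _ => Real.exp_pos _)
    simpa [smul_eq_mul, Real.log_exp] using h
  calc ∑ m, x m * ((V * Vᴴ) m m).re = ∑ m, x m * ∑ j, Complex.normSq (W m j) := by
        apply Finset.sum_congr rfl
        intro m _
        congr 1
        rw [← hWV, Matrix.mul_apply, Complex.re_sum]
        apply Finset.sum_congr rfl
        intro j _
        rw [Matrix.conjTranspose_apply, Complex.star_def, Complex.mul_conj, Complex.ofReal_re]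
    _ = ∑ j, ∑ m, Complex.normSq (W m j) * x m := by
        simp only [Finset.mul_sum]
        rw [Finset.sum_comm]
        apply Finset.sum_congr rfl; intro j _
        apply Finset.sum_congr rfl; intro m _
        ring
    _ ≤ ∑ j, Real.log (hG.1.eigenvalues j) := Finset.sum_le_sum (fun j _ => hj j)

end Jensen

end Crest.Agent.R113.FD
end

-- ▼ part R113/FD/MinC
section

set_option autoImplicit false
set_option linter.unusedSectionVars false
open scoped ComplexOrder Matrix MatrixOrder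
open Matrix

namespace Crest.Agent.R113.FD

section FC
variable {n : Type*} [Fintype n] [DecidableEq n]

/-- unitary of eigenvectors -/
noncomputable def eU {A : Matrix n n ℂ} (hA : A.IsHermitian) : Matrix n n ℂ :=
  (hA.eigenvectorUnitary : Matrix n n ℂ)

lemma eU_star_mul {A : Matrix n n ℂ} (hA : A.IsHermitian) : (eU hA)ᴴ * eU hA = 1 := by
  rw [← star_eq_conjTranspose]
  exact Unitary.coe_star_mul_self hA.eigenvectorUnitary

lemma eU_mul_star {A : Matrix n n ℂ} (hA : A.IsHermitian) : eU hA * (eU hA)ᴴ = 1 := by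
  rw [← star_eq_conjTranspose]
  exact Unitary.coe_mul_star_self hA.eigenvectorUnitary

lemma eU_diag {A : Matrix n n ℂ} (hA : A.IsHermitian) :
    (eU hA)ᴴ * A * eU hA = diagonal (fun i => ((hA.eigenvalues i : ℝ) : ℂ)) := by
  have h := hA.conjStarAlgAut_star_eigenvectorUnitary
  rw [Unitary.conjStarAlgAut_apply] at h
  simpa [star_eq_conjTranspose, eU] using! h

/-- Functional calculus of a Hermitian matrix. -/
noncomputable def fc {A : Matrix n n ℂ} (hA : A.IsHermitian) (f : ℝ → ℝ) : Matrix n n ℂ :=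
  eU hA * diagonal (fun i => ((f (hA.eigenvalues i) : ℝ) : ℂ)) * (eU hA)ᴴ

lemma fc_id {A : Matrix n n ℂ} (hA : A.IsHermitian) : fc hA (fun x => x) = A := by
  unfold fc
  rw [← eU_diag hA]
  calc eU hA * ((eU hA)ᴴ * A * eU hA) * (eU hA)ᴴ
      = (eU hA * (eU hA)ᴴ) * A * (eU hA * (eU hA)ᴴ) := by simp only [Matrix.mul_assoc]
    _ = A := by rw [eU_mul_star]; simp

lemma fc_mul {A : Matrix n n ℂ} (hA : A.IsHermitian) (f g : ℝ → ℝ) :
    fc hA f * fc hA g = fc hA (fun x => f x * g x) := by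
  unfold fc
  calc eU hA * diagonal (fun i => ((f (hA.eigenvalues i) : ℝ) : ℂ)) * (eU hA)ᴴ *
      (eU hA * diagonal (fun i => ((g (hA.eigenvalues i) : ℝ) : ℂ)) * (eU hA)ᴴ)
      = eU hA * diagonal (fun i => ((f (hA.eigenvalues i) : ℝ) : ℂ)) * ((eU hA)ᴴ * eU hA) *
        diagonal (fun i => ((g (hA.eigenvalues i) : ℝ) : ℂ)) * (eU hA)ᴴ := by
          simp only [Matrix.mul_assoc]
    _ = _ := by
      rw [eU_star_mul, Matrix.mul_one, Matrix.mul_assoc (eU hA), Matrix.diagonal_mul_diagonal]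
      congr 3
      ext i
      push_cast
      rfl

lemma fc_add {A : Matrix n n ℂ} (hA : A.IsHermitian) (f g : ℝ → ℝ) :
    fc hA f + fc hA g = fc hA (fun x => f x + g x) := by
  unfold fc
  rw [← Matrix.add_mul, ← Matrix.mul_add, Matrix.diagonal_add]
  congr 3
  ext i
  push_cast
  rfl

lemma fc_sub {A : Matrix n n ℂ} (hA : A.IsHermitian) (f g : ℝ → ℝ) :
    fc hA f - fc hA g = fc hA (fun x => f x - g x) := by
  unfold fc
  rw [← Matrix.sub_mul, ← Matrix.mul_sub, Matrix.diagonal_sub]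
  congr 3
  ext i
  push_cast
  rfl

lemma fc_const {A : Matrix n n ℂ} (hA : A.IsHermitian) (c : ℝ) :
    fc hA (fun _ => c) = (c : ℂ) • 1 := by
  unfold fc
  have : diagonal (fun _ : n => ((c : ℝ) : ℂ)) = (c : ℂ) • (1 : Matrix n n ℂ) := by
    ext i j; simp [Matrix.diagonal, Matrix.one_apply]
  rw [this]
  simp [eU_mul_star]

lemma fc_smul {A : Matrix n n ℂ} (hA : A.IsHermitian) (c : ℝ) (f : ℝ → ℝ) :
    (c : ℂ) • fc hA f = fc hA (fun x => c * f x) := by
  rw [← fc_mul, fc_const]; simp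

lemma fc_congr {A : Matrix n n ℂ} (hA : A.IsHermitian) (f g : ℝ → ℝ)
    (h : ∀ i, f (hA.eigenvalues i) = g (hA.eigenvalues i)) : fc hA f = fc hA g := by
  unfold fc
  simp only [h]

lemma fc_conj {A : Matrix n n ℂ} (hA : A.IsHermitian) (f : ℝ → ℝ) : (fc hA f)ᴴ = fc hA f := by
  unfold fc
  rw [Matrix.conjTranspose_mul, Matrix.conjTranspose_mul, Matrix.conjTranspose_conjTranspose,
    Matrix.diagonal_conjTranspose, Matrix.mul_assoc]
  congr 3
  ext i
  simp

lemma fc_nonneg {A : Matrix n n ℂ} (hA : A.IsHermitian) (f : ℝ → ℝ)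
    (h : ∀ i, 0 ≤ f (hA.eigenvalues i)) : (fc hA f).PosSemidef := by
  unfold fc
  have : (diagonal (fun i => ((f (hA.eigenvalues i) : ℝ) : ℂ))).PosSemidef := by
    apply Matrix.PosSemidef.diagonal
    intro i
    show (0:ℂ) ≤ ((f (hA.eigenvalues i) : ℝ) : ℂ)
    exact_mod_cast h i
  exact this.mul_mul_conjTranspose_same _

lemma fc_mono {A : Matrix n n ℂ} (hA : A.IsHermitian) (f g : ℝ → ℝ)
    (h : ∀ i, f (hA.eigenvalues i) ≤ g (hA.eigenvalues i)) : fc hA f ≤ fc hA g := by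
  rw [Matrix.le_iff, fc_sub]
  exact fc_nonneg hA _ (fun i => sub_nonneg.mpr (h i))

lemma fc_commute {A : Matrix n n ℂ} (hA : A.IsHermitian) (f : ℝ → ℝ) (B : Matrix n n ℂ)
    (hB : B * A = A * B) : B * fc hA f = fc hA f * B := by
  set U := eU hA with hU
  have h1 : (Uᴴ * B * U) * diagonal (fun i => ((hA.eigenvalues i : ℝ) : ℂ)) =
      diagonal (fun i => ((hA.eigenvalues i : ℝ) : ℂ)) * (Uᴴ * B * U) := by
    rw [← eU_diag hA, ← hU]
    calc Uᴴ * B * U * (Uᴴ * A * U) = Uᴴ * B * (U * Uᴴ) * A * U := by simp only [Matrix.mul_assoc]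
      _ = Uᴴ * (B * A) * U := by rw [hU, eU_mul_star]; simp [Matrix.mul_assoc]
      _ = Uᴴ * (A * B) * U := by rw [hB]
      _ = Uᴴ * A * (U * Uᴴ) * B * U := by rw [hU, eU_mul_star]; simp [Matrix.mul_assoc]
      _ = _ := by simp only [Matrix.mul_assoc]
  have h2 : (Uᴴ * B * U) * diagonal (fun i => ((f (hA.eigenvalues i) : ℝ) : ℂ)) =
      diagonal (fun i => ((f (hA.eigenvalues i) : ℝ) : ℂ)) * (Uᴴ * B * U) := by
    ext i j
    have h3 := congrFun (congrFun h1 i) j
    rw [Matrix.mul_diagonal, Matrix.diagonal_mul] at h3 ⊢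
    by_cases hz : (Uᴴ * B * U) i j = 0
    · rw [hz]; simp
    · have h4 : ((hA.eigenvalues j : ℝ) : ℂ) = ((hA.eigenvalues i : ℝ) : ℂ) := by
        rw [mul_comm] at h3
        exact mul_right_cancel₀ hz h3
      have h5 : hA.eigenvalues j = hA.eigenvalues i := by exact_mod_cast h4
      rw [h5, mul_comm]
  unfold fc
  rw [← hU]
  calc B * (U * diagonal (fun i => ((f (hA.eigenvalues i) : ℝ) : ℂ)) * Uᴴ)
      = (U * Uᴴ) * B * U * diagonal (fun i => ((f (hA.eigenvalues i) : ℝ) : ℂ)) * Uᴴ := by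
        rw [hU, eU_mul_star]; simp [Matrix.mul_assoc]
    _ = U * ((Uᴴ * B * U) * diagonal (fun i => ((f (hA.eigenvalues i) : ℝ) : ℂ))) * Uᴴ := by
        simp only [Matrix.mul_assoc]
    _ = U * (diagonal (fun i => ((f (hA.eigenvalues i) : ℝ) : ℂ)) * (Uᴴ * B * U)) * Uᴴ := by
        rw [h2]
    _ = U * diagonal (fun i => ((f (hA.eigenvalues i) : ℝ) : ℂ)) * Uᴴ * B * (U * Uᴴ) := by
        simp only [Matrix.mul_assoc]
    _ = _ := by rw [hU, eU_mul_star]; simp

lemma fc_eigen {m : Type*} [Fintype m] {A : Matrix n n ℂ} (hA : A.IsHermitian) (f : ℝ → ℝ)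
    (X : Matrix n m ℂ) (c : ℝ) (hX : A * X = (c : ℂ) • X) :
    fc hA f * X = ((f c : ℝ) : ℂ) • X := by
  set U := eU hA with hU
  have h1 : diagonal (fun i => ((hA.eigenvalues i : ℝ) : ℂ)) * (Uᴴ * X) = (c : ℂ) • (Uᴴ * X) := by
    rw [← eU_diag hA, ← hU]
    calc Uᴴ * A * U * (Uᴴ * X) = Uᴴ * A * (U * Uᴴ) * X := by simp only [Matrix.mul_assoc]
      _ = Uᴴ * (A * X) := by rw [hU, eU_mul_star]; simp [Matrix.mul_assoc]
      _ = _ := by rw [hX, Matrix.mul_smul]
  have h2 : diagonal (fun i => ((f (hA.eigenvalues i) : ℝ) : ℂ)) * (Uᴴ * X) =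
      ((f c : ℝ) : ℂ) • (Uᴴ * X) := by
    ext i j
    have h3 := congrFun (congrFun h1 i) j
    rw [Matrix.diagonal_mul, Matrix.smul_apply, smul_eq_mul] at h3 ⊢
    by_cases hz : (Uᴴ * X) i j = 0
    · rw [hz]; simp
    · have h4 : ((hA.eigenvalues i : ℝ) : ℂ) = (c : ℂ) := mul_right_cancel₀ hz h3
      have h5 : hA.eigenvalues i = c := by exact_mod_cast h4
      rw [h5]
  unfold fc
  rw [← hU, Matrix.mul_assoc, Matrix.mul_assoc, h2, Matrix.mul_smul, ← Matrix.mul_assoc, hU,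
    eU_mul_star, Matrix.one_mul]

lemma ev_ge {A : Matrix n n ℂ} (hA : A.IsHermitian) (c : ℝ) (h : (c : ℂ) • (1 : Matrix n n ℂ) ≤ A)
    (i : n) : c ≤ hA.eigenvalues i := by
  have h1 : ((eU hA)ᴴ * (A - (c : ℂ) • 1) * eU hA).PosSemidef :=
    PosSemidef.conjTranspose_mul_mul_same h _
  have h2 : (eU hA)ᴴ * (A - (c : ℂ) • 1) * eU hA =
      diagonal (fun i => ((hA.eigenvalues i - c : ℝ) : ℂ)) := by
    rw [Matrix.mul_sub, Matrix.sub_mul, eU_diag]
    simp only [Matrix.mul_smul, Matrix.mul_one, Matrix.smul_mul, eU_star_mul]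
    ext a b
    by_cases hab : a = b
    · subst hab; simp
    · simp [hab]
  rw [h2, Matrix.posSemidef_diagonal_iff] at h1
  have h3 := h1 i
  have h4 : (0:ℝ) ≤ hA.eigenvalues i - c := by exact_mod_cast h3
  linarith

lemma ev_le {A : Matrix n n ℂ} (hA : A.IsHermitian) (c : ℝ) (h : A ≤ (c : ℂ) • (1 : Matrix n n ℂ))
    (i : n) : hA.eigenvalues i ≤ c := by
  have h1 : ((eU hA)ᴴ * ((c : ℂ) • 1 - A) * eU hA).PosSemidef :=
    PosSemidef.conjTranspose_mul_mul_same h _
  have h2 : (eU hA)ᴴ * ((c : ℂ) • 1 - A) * eU hA =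
      diagonal (fun i => ((c - hA.eigenvalues i : ℝ) : ℂ)) := by
    rw [Matrix.mul_sub, Matrix.sub_mul, eU_diag]
    simp only [Matrix.mul_smul, Matrix.mul_one, Matrix.smul_mul, eU_star_mul]
    ext a b
    by_cases hab : a = b
    · subst hab; simp
    · simp [hab]
  rw [h2, Matrix.posSemidef_diagonal_iff] at h1
  have h3 := h1 i
  have h4 : (0:ℝ) ≤ c - hA.eigenvalues i := by exact_mod_cast h3
  linarith

/-- PSD matrices with orthogonal trace pairing have zero product. -/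
lemma psd_mul_eq_zero {A B : Matrix n n ℂ} (hA : A.PosSemidef) (hB : B.PosSemidef)
    (h : ((A * B).trace).re ≤ 0) : A * B = 0 := by
  obtain ⟨X, hX⟩ := CStarAlgebra.nonneg_iff_eq_star_mul_self.mp hA.nonneg
  obtain ⟨Y, hY⟩ := CStarAlgebra.nonneg_iff_eq_star_mul_self.mp hB.nonneg
  rw [star_eq_conjTranspose] at hX hY
  have h1 : (A * B).trace = ((X * Yᴴ) * (X * Yᴴ)ᴴ).trace := by
    rw [hX, hY, Matrix.conjTranspose_mul, Matrix.conjTranspose_conjTranspose]
    rw [show Xᴴ * X * (Yᴴ * Y) = Xᴴ * (X * Yᴴ * Y) by simp only [Matrix.mul_assoc],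
      Matrix.trace_mul_comm]
    simp only [Matrix.mul_assoc]
  have h2 : ((X * Yᴴ) * (X * Yᴴ)ᴴ).PosSemidef := Matrix.posSemidef_self_mul_conjTranspose _
  have h3 := h2.trace_nonneg
  have h4 : ((X * Yᴴ) * (X * Yᴴ)ᴴ).trace = 0 := by
    rw [h1] at h
    have h5 := Complex.le_def.mp h3
    apply Complex.ext
    · simp only [Complex.zero_re] at h5 ⊢; exact le_antisymm h h5.1
    · simpa using h5.2.symm
  have h5 : X * Yᴴ = 0 := Matrix.trace_mul_conjTranspose_self_eq_zero_iff.mp h4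
  rw [hX, hY, show Xᴴ * X * (Yᴴ * Y) = Xᴴ * (X * Yᴴ) * Y by simp only [Matrix.mul_assoc], h5]
  simp

lemma psd_trace_mul_nonneg {A B : Matrix n n ℂ} (hA : A.PosSemidef) (hB : B.PosSemidef) :
    0 ≤ ((A * B).trace).re := by
  obtain ⟨X, hX⟩ := CStarAlgebra.nonneg_iff_eq_star_mul_self.mp hA.nonneg
  rw [star_eq_conjTranspose] at hX
  have h1 : (A * B).trace = (X * B * Xᴴ).trace := by
    rw [hX, Matrix.mul_assoc, Matrix.trace_mul_comm]
  rw [h1]
  exact (Complex.le_def.mp (hB.mul_mul_conjTranspose_same X).trace_nonneg).1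

end FC

section Win
variable {ι β : Type*} [Fintype ι] [DecidableEq ι] [DecidableEq β]

/-- window compression of a matrix (conditional expectation onto window-block-diagonal matrices) -/
def winComp (win : ι → β) (P : Matrix ι ι ℂ) : Matrix ι ι ℂ :=
  Matrix.of fun m m' => if win m = win m' then P m m' else 0

/-- window-block-diagonal matrices -/
def IsWin (win : ι → β) (H : Matrix ι ι ℂ) : Prop := ∀ m m', win m ≠ win m' → H m m' = 0

/-- diagonal matrix of a real function -/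
noncomputable abbrev dgM (d : ι → ℝ) : Matrix ι ι ℂ := Matrix.diagonal (fun m => (d m : ℂ))

lemma IsWin.comm {win : ι → β} {H : Matrix ι ι ℂ} (hH : IsWin win H) (d : ι → ℂ)
    (hd : ∀ m m', win m = win m' → d m = d m') : diagonal d * H = H * diagonal d := by
  ext m m'
  rw [Matrix.diagonal_mul, Matrix.mul_diagonal]
  by_cases h : win m = win m'
  · rw [hd m m' h, mul_comm]
  · rw [hH m m' h]; simp

lemma isWin_of_comm {win : ι → β} {H : Matrix ι ι ℂ}
    (h : ∀ b : β, diagonal (fun m => if win m = b then (1:ℂ) else 0) * H =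
      H * diagonal (fun m => if win m = b then (1:ℂ) else 0)) : IsWin win H := by
  intro m m' hm
  have h1 := congrFun (congrFun (h (win m)) m) m'
  rw [Matrix.diagonal_mul, Matrix.mul_diagonal] at h1
  simpa [Ne.symm hm] using h1

lemma isWin_iff {win : ι → β} {H : Matrix ι ι ℂ} : IsWin win H ↔
    ∀ b : β, diagonal (fun m => if win m = b then (1:ℂ) else 0) * H =
      H * diagonal (fun m => if win m = b then (1:ℂ) else 0) := by
  refine ⟨fun h b => h.comm _ ?_, isWin_of_comm⟩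
  intro m m' hmm
  simp [hmm]

lemma IsWin.mul {win : ι → β} {A B : Matrix ι ι ℂ} (hA : IsWin win A) (hB : IsWin win B) :
    IsWin win (A * B) := by
  rw [isWin_iff] at *
  intro b
  rw [← Matrix.mul_assoc, hA b, Matrix.mul_assoc, hB b, Matrix.mul_assoc]

lemma IsWin.add {win : ι → β} {A B : Matrix ι ι ℂ} (hA : IsWin win A) (hB : IsWin win B) :
    IsWin win (A + B) := by
  intro m m' h
  simp [hA m m' h, hB m m' h]

lemma IsWin.sub {win : ι → β} {A B : Matrix ι ι ℂ} (hA : IsWin win A) (hB : IsWin win B) :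
    IsWin win (A - B) := by
  intro m m' h
  simp [hA m m' h, hB m m' h]

lemma IsWin.smul {win : ι → β} {A : Matrix ι ι ℂ} (hA : IsWin win A) (c : ℂ) :
    IsWin win (c • A) := by
  intro m m' h
  simp [hA m m' h]

lemma IsWin.one {win : ι → β} : IsWin win (1 : Matrix ι ι ℂ) := by
  intro m m' h
  have : m ≠ m' := fun h' => h (by rw [h'])
  simp [this]

lemma IsWin.fc {win : ι → β} {A : Matrix ι ι ℂ} (hA : IsWin win A) (hH : A.IsHermitian)
    (f : ℝ → ℝ) : IsWin win (fc hH f) := by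
  rw [isWin_iff] at *
  intro b
  exact fc_commute hH f _ (hA b)

lemma isWin_winComp (win : ι → β) (P : Matrix ι ι ℂ) : IsWin win (winComp win P) := by
  intro m m' h
  simp [winComp, h]

lemma trace_winComp_mul {win : ι → β} (P : Matrix ι ι ℂ) {K : Matrix ι ι ℂ} (hK : IsWin win K) :
    (winComp win P * K).trace = (P * K).trace := by
  simp only [Matrix.trace, Matrix.diag, Matrix.mul_apply]
  apply Finset.sum_congr rfl; intro i _
  apply Finset.sum_congr rfl; intro j _
  by_cases h : win i = win j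
  · simp [winComp, h]
  · rw [hK j i (fun h' => h h'.symm)]; simp

lemma winComp_hermitian {win : ι → β} {P : Matrix ι ι ℂ} (hP : P.IsHermitian) :
    (winComp win P).IsHermitian := by
  ext i j
  simp only [winComp, Matrix.conjTranspose_apply, Matrix.of_apply]
  by_cases h : win j = win i
  · have := hP.apply i j
    simp [h, this]
  · have h2 : ¬ win i = win j := fun h' => h h'.symm
    simp [h, h2]

/-! equation lemmas realised once -/








end Win



end Crest.Agent.R113.FD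
end

-- ▼ part R113/FD/MinD
section

set_option autoImplicit false
set_option linter.unusedSectionVars false
open scoped ComplexOrder Matrix MatrixOrder
open Matrix

namespace Crest.Agent.R113.FD

universe u
variable {ι : Type u} {β : Type*} [Fintype ι] [DecidableEq ι] [DecidableEq β]

/-- A star projection is `V Vᴴ` with `Vᴴ V = 1`. -/
lemma exists_isometry {Q : Matrix ι ι ℂ} (hQ : IsStarProjection Q) :
    ∃ (k : Type u) (_ : Fintype k) (_ : DecidableEq k) (V : Matrix ι k ℂ),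
      Vᴴ * V = 1 ∧ V * Vᴴ = Q ∧ Fintype.card k ≤ Fintype.card ι := by
  classical
  have hH : Q.IsHermitian := hQ.isSelfAdjoint
  have hid : Q * Q = Q := hQ.isIdempotentElem
  have hev : ∀ i, hH.eigenvalues i = 0 ∨ hH.eigenvalues i = 1 := by
    intro i
    have h1 : (diagonal (fun i => ((hH.eigenvalues i : ℝ) : ℂ))) *
        (diagonal (fun i => ((hH.eigenvalues i : ℝ) : ℂ))) =
        diagonal (fun i => ((hH.eigenvalues i : ℝ) : ℂ)) := by
      rw [← eU_diag hH]
      calc (eU hH)ᴴ * Q * eU hH * ((eU hH)ᴴ * Q * eU hH)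
          = (eU hH)ᴴ * Q * (eU hH * (eU hH)ᴴ) * Q * eU hH := by simp only [Matrix.mul_assoc]
        _ = (eU hH)ᴴ * (Q * Q) * eU hH := by rw [eU_mul_star]; simp [Matrix.mul_assoc]
        _ = _ := by rw [hid]
    rw [Matrix.diagonal_mul_diagonal] at h1
    have h2 := congrFun (Matrix.diagonal_injective h1) i
    have h3 : hH.eigenvalues i * hH.eigenvalues i = hH.eigenvalues i := by exact_mod_cast h2
    have h4 : hH.eigenvalues i * (hH.eigenvalues i - 1) = 0 := by linarith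
    rcases mul_eq_zero.mp h4 with h | h
    · left; exact h
    · right; linarith
  refine ⟨{i // hH.eigenvalues i = 1}, inferInstance, inferInstance,
    (eU hH).submatrix id Subtype.val, ?_, ?_, Fintype.card_subtype_le _⟩
  · ext i j
    have h1 := congrFun (congrFun (eU_star_mul hH) i.val) j.val
    simp only [Matrix.mul_apply, Matrix.conjTranspose_apply, Matrix.submatrix_apply, id] at h1 ⊢
    rw [h1]
    simp [Matrix.one_apply, Subtype.ext_iff]
  · refine Eq.trans ?_ (fc_id hH)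
    ext m m'
    unfold fc
    rw [Matrix.mul_assoc, Matrix.mul_apply, Matrix.mul_apply]
    simp only [Matrix.diagonal_mul, Matrix.conjTranspose_apply, Matrix.submatrix_apply, id]
    rw [← Finset.sum_subtype (Finset.univ.filter fun i => hH.eigenvalues i = 1)
      (p := fun i => hH.eigenvalues i = 1) (by simp)
      (fun j => eU hH m j * star (eU hH m' j)), Finset.sum_filter]
    apply Finset.sum_congr rfl
    intro j _
    rcases hev j with h | h
    · simp [h]
    · simp [h]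

/-- admissible set -/
def Adm (win : ι → β) (w : ℝ) : Set (Matrix ι ι ℂ) :=
  {H | ((Real.exp (-(2 * w)) : ℝ) : ℂ) • (1 : Matrix ι ι ℂ) ≤ H ∧ H ≤ 1 ∧ IsWin win H}

lemma adm_posDef {win : ι → β} {w : ℝ} {H : Matrix ι ι ℂ} (hH : H ∈ Adm win w) : H.PosDef := by
  have h1 : (((Real.exp (-(2 * w)) : ℝ) : ℂ) • (1 : Matrix ι ι ℂ)).PosDef := by
    apply Matrix.PosDef.smul Matrix.PosDef.one
    exact_mod_cast Real.exp_pos _
  have h2 := h1.add_posSemidef hH.1
  simpa using h2

lemma one_mem_adm (win : ι → β) {w : ℝ} (hw : 0 ≤ w) : (1 : Matrix ι ι ℂ) ∈ Adm win w := by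
  refine ⟨?_, le_refl _, IsWin.one⟩
  rw [Matrix.le_iff]
  have : (1 : Matrix ι ι ℂ) - ((Real.exp (-(2 * w)) : ℝ) : ℂ) • (1 : Matrix ι ι ℂ) =
      ((1 - Real.exp (-(2 * w)) : ℝ) : ℂ) • (1 : Matrix ι ι ℂ) := by
    push_cast; rw [sub_smul, one_smul]
  rw [this]
  apply Matrix.PosSemidef.smul Matrix.PosSemidef.one
  have : Real.exp (-(2 * w)) ≤ 1 := Real.exp_le_one_iff.mpr (by linarith)
  exact_mod_cast sub_nonneg.mpr this

lemma isClosed_posSemidef : IsClosed {A : Matrix ι ι ℂ | A.PosSemidef} := by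
  have : {A : Matrix ι ι ℂ | A.PosSemidef} =
      {A : Matrix ι ι ℂ | Aᴴ = A} ∩ ⋂ x : ι → ℂ, {A | 0 ≤ star x ⬝ᵥ (A *ᵥ x)} := by
    ext A
    simp only [Set.mem_ofPred_eq, Set.mem_inter_iff, Set.mem_iInter,
      Matrix.posSemidef_iff_dotProduct_mulVec]
    rfl
  rw [this]
  apply IsClosed.inter
  · exact isClosed_eq (by fun_prop) continuous_id
  · apply isClosed_iInter
    intro x
    apply isClosed_le continuous_const
    fun_prop

lemma entry_le {H : Matrix ι ι ℂ} (h0 : H.PosSemidef) (h1 : H ≤ 1) (i j : ι) : ‖H i j‖ ≤ 1 := by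
  obtain ⟨D, hD⟩ := CStarAlgebra.nonneg_iff_eq_star_mul_self.mp h0.nonneg
  rw [star_eq_conjTranspose] at hD
  have hdiag : ∀ i, ∑ k, ‖D k i‖ ^ 2 ≤ 1 := by
    intro i
    have h2 : (1 - H).PosSemidef := h1
    have h3 := h2.diag_nonneg (i := i)
    rw [Matrix.sub_apply, Matrix.one_apply_eq] at h3
    have h4 : H i i = ((∑ k, ‖D k i‖ ^ 2 : ℝ) : ℂ) := by
      rw [hD, Matrix.mul_apply]
      push_cast
      apply Finset.sum_congr rfl
      intro k _
      rw [Matrix.conjTranspose_apply, Complex.star_def, Complex.conj_mul']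
    rw [h4] at h3
    have h5 : (0:ℝ) ≤ 1 - ∑ k, ‖D k i‖ ^ 2 := by exact_mod_cast h3
    linarith
  rw [hD, Matrix.mul_apply]
  calc ‖∑ k, Dᴴ i k * D k j‖ ≤ ∑ k, ‖Dᴴ i k * D k j‖ := norm_sum_le _ _
    _ ≤ ∑ k, ((1/2) * ‖D k i‖ ^ 2 + (1/2) * ‖D k j‖ ^ 2) := by
        apply Finset.sum_le_sum
        intro k _
        rw [norm_mul, Matrix.conjTranspose_apply, norm_star]
        nlinarith [sq_nonneg (‖D k i‖ - ‖D k j‖)]
    _ = (1/2) * ∑ k, ‖D k i‖ ^ 2 + (1/2) * ∑ k, ‖D k j‖ ^ 2 := by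
        rw [Finset.sum_add_distrib, Finset.mul_sum, Finset.mul_sum]
    _ ≤ 1 := by
        have h5 := hdiag i
        have h6 := hdiag j
        linarith

lemma isCompact_adm (win : ι → β) (w : ℝ) : IsCompact (Adm win w) := by
  have hc : IsCompact (Set.univ.pi fun _ : ι => Set.univ.pi fun _ : ι =>
      Metric.closedBall (0:ℂ) 1) :=
    isCompact_univ_pi fun _ => isCompact_univ_pi fun _ => isCompact_closedBall _ _
  refine IsCompact.of_isClosed_subset hc ?_ ?_
  · have : Adm win w = {H : Matrix ι ι ℂ | (H - ((Real.exp (-(2 * w)) : ℝ) : ℂ) •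
        (1 : Matrix ι ι ℂ)).PosSemidef} ∩ ({H | (1 - H).PosSemidef} ∩ {H | IsWin win H}) := rfl
    rw [this]
    apply IsClosed.inter
    · exact isClosed_posSemidef.preimage (f := fun H : Matrix ι ι ℂ =>
        H - ((Real.exp (-(2 * w)) : ℝ) : ℂ) • (1 : Matrix ι ι ℂ)) (by fun_prop)
    apply IsClosed.inter
    · exact isClosed_posSemidef.preimage (f := fun H : Matrix ι ι ℂ => 1 - H) (by fun_prop)
    · have : {H : Matrix ι ι ℂ | IsWin win H} =
          ⋂ m, ⋂ m', ⋂ (_ : win m ≠ win m'), {H | H m m' = 0} := by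
        ext H; simp [IsWin]
      rw [this]
      refine isClosed_iInter fun m => isClosed_iInter fun m' => isClosed_iInter fun _ => ?_
      exact isClosed_eq (by fun_prop) continuous_const
  · intro H hH i _ j _
    simp only [Metric.mem_closedBall, dist_zero_right]
    exact entry_le (adm_posDef hH).posSemidef hH.2.1 i j

end Crest.Agent.R113.FD
end

-- ▼ part R113/FD/MinE
section

set_option autoImplicit false
set_option linter.unusedSectionVars false
open scoped ComplexOrder Matrix MatrixOrder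
open Matrix

namespace Crest.Agent.R113.FD

universe u
variable {ι k : Type u} {β : Type*} [Fintype ι] [DecidableEq ι] [DecidableEq β]
  [Fintype k] [DecidableEq k]

/-- `e^{-s g}` as a diagonal matrix. -/
noncomputable def eD (g : ι → ℝ) (s : ℝ) : Matrix ι ι ℂ := dgM (fun m => Real.exp (-s * g m))

lemma eD_conj (g : ι → ℝ) (s : ℝ) : (eD g s)ᴴ = eD g s := by
  unfold eD dgM
  rw [Matrix.diagonal_conjTranspose]
  congr 1
  ext m
  exact Complex.conj_ofReal _

lemma eD_mul (g : ι → ℝ) (s t : ℝ) : eD g s * eD g t = eD g (s + t) := by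
  unfold eD dgM
  rw [Matrix.diagonal_mul_diagonal]
  congr 1
  ext m
  rw [← Complex.ofReal_mul, ← Real.exp_add]
  congr 2
  ring

lemma eD_zero (g : ι → ℝ) : eD g 0 = 1 := by
  unfold eD dgM
  simp

lemma eD_comm_win {win : ι → β} {H : Matrix ι ι ℂ} (hH : IsWin win H) {g : ι → ℝ}
    (hgw : ∀ m m', win m = win m' → g m = g m') (s : ℝ) : eD g s * H = H * eD g s :=
  hH.comm _ (fun m m' h => by simp only [hgw m m' h])

/-- compressed Gram matrix -/
noncomputable def GG (V : Matrix ι k ℂ) (g : ι → ℝ) (H : Matrix ι ι ℂ) (s : ℝ) : Matrix k k ℂ :=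
  Vᴴ * (eD g s * H * eD g s) * V

lemma GG_posDef {V : Matrix ι k ℂ} (hV : Vᴴ * V = 1) (g : ι → ℝ) {H : Matrix ι ι ℂ}
    (hH : H.PosDef) (s : ℝ) : (GG V g H s).PosDef := by
  have h1 : GG V g H s = (eD g s * V)ᴴ * H * (eD g s * V) := by
    unfold GG
    rw [Matrix.conjTranspose_mul, eD_conj]
    simp only [Matrix.mul_assoc]
  rw [h1]
  apply hH.conjTranspose_mul_mul_same
  intro x y hxy
  apply isometry_inj hV
  have h2 := congrArg (eD g (-s)).mulVec hxy
  simp only [Matrix.mulVec_mulVec] at h2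
  rw [← Matrix.mul_assoc, eD_mul, neg_add_cancel, eD_zero, Matrix.one_mul] at h2
  exact h2

/-- The functional. -/
noncomputable def LL (V : Matrix ι k ℂ) (g : ι → ℝ) (τ : ℝ) (H : Matrix ι ι ℂ) (s : ℝ) : ℝ :=
  1 / 2 * ld (GG V g H s) - 1 / 4 * ld H + s * τ

lemma continuous_GG (V : Matrix ι k ℂ) (g : ι → ℝ) :
    Continuous (fun p : Matrix ι ι ℂ × ℝ => GG V g p.1 p.2) := by
  unfold GG eD dgM
  have h1 : Continuous (fun p : Matrix ι ι ℂ × ℝ =>
      (Matrix.diagonal (fun m => ((Real.exp (-p.2 * g m) : ℝ) : ℂ)) : Matrix ι ι ℂ)) := by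
    apply Continuous.matrix_diagonal
    fun_prop
  exact (continuous_const.matrix_mul ((h1.matrix_mul continuous_fst).matrix_mul h1)).matrix_mul
    continuous_const

lemma exists_minimiser (V : Matrix ι k ℂ) (hV : Vᴴ * V = 1) (win : ι → β) (g : ι → ℝ) (τ w b : ℝ)
    (hw : 0 ≤ w) (hb : 0 ≤ b) :
    ∃ H ∈ Adm win w, ∃ s ∈ Set.Icc (0:ℝ) b, ∀ H' ∈ Adm win w, ∀ s' ∈ Set.Icc (0:ℝ) b,
      LL V g τ H s ≤ LL V g τ H' s' := by
  have hc : IsCompact (Adm win w ×ˢ Set.Icc (0:ℝ) b) := (isCompact_adm win w).prod isCompact_Icc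
  have hne : (Adm win w ×ˢ Set.Icc (0:ℝ) b).Nonempty :=
    ⟨(1, 0), one_mem_adm win hw, ⟨le_refl _, hb⟩⟩
  have hcont : ContinuousOn (fun p : Matrix ι ι ℂ × ℝ => LL V g τ p.1 p.2)
      (Adm win w ×ˢ Set.Icc (0:ℝ) b) := by
    unfold LL ld
    apply ContinuousOn.add
    · apply ContinuousOn.sub
      · apply ContinuousOn.mul continuousOn_const
        apply ContinuousOn.log
        · apply Continuous.continuousOn
          exact Complex.continuous_re.comp (continuous_GG V g).matrix_det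
        · intro p hp
          exact (posDef_det_re_pos (GG_posDef hV g (adm_posDef hp.1) p.2)).ne'
      · apply ContinuousOn.mul continuousOn_const
        apply ContinuousOn.log
        · apply Continuous.continuousOn
          exact Complex.continuous_re.comp (continuous_fst.matrix_det)
        · intro p hp
          exact (posDef_det_re_pos (adm_posDef hp.1)).ne'
    · fun_prop
  obtain ⟨p, hp, hmin⟩ := hc.exists_isMinOn hne hcont
  rw [isMinOn_iff] at hmin
  exact ⟨p.1, hp.1, p.2, hp.2, fun H' hH' s' hs' => hmin (H', s') (Set.mk_mem_prod hH' hs')⟩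

/-- Part A: bound on `s`. -/
lemma s_bound (V : Matrix ι k ℂ) (hV : Vᴴ * V = 1) (win : ι → β) (g : ι → ℝ) (w θ₀ : ℝ)
    (hw : 0 < w) (hθ : 0 < θ₀) [Nonempty ι] (hk : Fintype.card k ≤ Fintype.card ι)
    {H : Matrix ι ι ℂ} (hH : H ∈ Adm win w) (s : ℝ)
    (hmin : LL V g (∑ m, g m * ((V * Vᴴ) m m).re + θ₀ * Fintype.card ι) H s ≤
      LL V g (∑ m, g m * ((V * Vᴴ) m m).re + θ₀ * Fintype.card ι) 1 0) :
    s ≤ w / θ₀ := by
  have h0 : LL V g (∑ m, g m * ((V * Vᴴ) m m).re + θ₀ * Fintype.card ι) 1 0 = 0 := by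
    unfold LL GG
    rw [eD_zero]
    simp [hV, ld_one]
  rw [h0] at hmin
  have hHpd := adm_posDef hH
  -- lower bound of the first term
  have h1 : ld H ≤ 0 := by
    rw [← ld_one (n := ι)]
    exact ld_mono hHpd Matrix.PosDef.one hH.2.1
  have h2 : GG V g (((Real.exp (-(2 * w)) : ℝ) : ℂ) • (1 : Matrix ι ι ℂ)) s ≤ GG V g H s := by
    rw [Matrix.le_iff]
    have : GG V g H s - GG V g (((Real.exp (-(2 * w)) : ℝ) : ℂ) • (1 : Matrix ι ι ℂ)) s =
        (eD g s * V)ᴴ * (H - ((Real.exp (-(2 * w)) : ℝ) : ℂ) • (1 : Matrix ι ι ℂ)) *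
          (eD g s * V) := by
      unfold GG
      rw [Matrix.conjTranspose_mul, eD_conj]
      simp only [Matrix.mul_sub, Matrix.sub_mul, Matrix.mul_assoc]
    rw [this]
    exact PosSemidef.conjTranspose_mul_mul_same hH.1 _
  have h3 : GG V g (((Real.exp (-(2 * w)) : ℝ) : ℂ) • (1 : Matrix ι ι ℂ)) s =
      ((Real.exp (-(2 * w)) : ℝ) : ℂ) • GG V g 1 s := by
    unfold GG
    simp only [Matrix.mul_smul, Matrix.smul_mul]
  have hpos1 : (((Real.exp (-(2 * w)) : ℝ) : ℂ) • (1 : Matrix ι ι ℂ)).PosDef := by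
    apply Matrix.PosDef.smul Matrix.PosDef.one
    exact_mod_cast Real.exp_pos _
  have h4 := ld_mono (GG_posDef hV g hpos1 s) (GG_posDef hV g hHpd s) h2
  rw [h3, ld_smul _ (Real.exp_pos _) (GG_posDef hV g Matrix.PosDef.one s), Real.log_exp] at h4
  have h5 : GG V g 1 s = Vᴴ * diagonal (fun m => ((Real.exp (-(2 * s) * g m) : ℝ) : ℂ)) * V := by
    unfold GG
    rw [Matrix.mul_one, eD_mul]
    unfold eD dgM
    congr 3
    ext m
    congr 3
    ring_nf
  have h6 := ld_jensen hV (fun m => -(2 * s) * g m)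
  rw [← h5] at h6
  have h7 : ∑ m, -(2 * s) * g m * ((V * Vᴴ) m m).re =
      -(2 * s) * ∑ m, g m * ((V * Vᴴ) m m).re := by
    rw [Finset.mul_sum]
    apply Finset.sum_congr rfl; intro m _; ring
  rw [h7] at h6
  unfold LL at hmin
  have hkq : (Fintype.card k : ℝ) ≤ Fintype.card ι := by exact_mod_cast hk
  have hq : (0:ℝ) < Fintype.card ι := by exact_mod_cast Fintype.card_pos
  have h8 : s * (θ₀ * Fintype.card ι) ≤ w * Fintype.card k := by nlinarith
  have h9 : s * θ₀ * Fintype.card ι ≤ w * Fintype.card ι := by nlinarith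
  have h10 : s * θ₀ ≤ w := le_of_mul_le_mul_right h9 hq
  rwa [le_div_iff₀ hθ]

end Crest.Agent.R113.FD
end

-- ▼ part R113/FD/MinF
section

set_option autoImplicit false
set_option linter.unusedSectionVars false
open scoped ComplexOrder Matrix MatrixOrder
open Matrix

namespace Crest.Agent.R113.FD

universe u
variable {ι k : Type u} {β : Type*} [Fintype ι] [DecidableEq ι] [DecidableEq β]
  [Fintype k] [DecidableEq k]

lemma right_deriv_nonneg {F : ℝ → ℝ} {F' δ : ℝ} (hF : HasDerivAt F F' 0) (hδ : 0 < δ)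
    (h : ∀ t, 0 < t → t ≤ δ → F 0 ≤ F t) : 0 ≤ F' := by
  have h1 := hF.tendsto_slope_zero_right
  refine ge_of_tendsto h1 ?_
  have h2 : ∀ᶠ t in nhdsWithin (0:ℝ) (Set.Ioi 0), t ∈ Set.Ioc (0:ℝ) δ :=
    Ioc_mem_nhdsGT hδ
  filter_upwards [h2] with t ht
  simp only [smul_eq_mul, zero_add]
  exact mul_nonneg (inv_nonneg.mpr ht.1.le) (sub_nonneg.mpr (h t ht.1 ht.2))

/-- The projection onto the range of `S e^{-sg} V`. -/
noncomputable def PP (V : Matrix ι k ℂ) (g : ι → ℝ) (H S : Matrix ι ι ℂ) (s : ℝ) : Matrix ι ι ℂ :=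
  S * eD g s * V * (GG V g H s)⁻¹ * Vᴴ * eD g s * S

lemma GG_det_unit {V : Matrix ι k ℂ} (hV : Vᴴ * V = 1) (g : ι → ℝ) {H : Matrix ι ι ℂ}
    (hH : H.PosDef) (s : ℝ) : IsUnit (GG V g H s).det :=
  (Matrix.isUnit_iff_isUnit_det _).mp (GG_posDef hV g hH s).isUnit

lemma PP_conj {V : Matrix ι k ℂ} (hV : Vᴴ * V = 1) (g : ι → ℝ) {H S : Matrix ι ι ℂ}
    (hH : H.PosDef) (hS : Sᴴ = S) (s : ℝ) : (PP V g H S s)ᴴ = PP V g H S s := by
  unfold PP
  have h1 : ((GG V g H s)⁻¹)ᴴ = (GG V g H s)⁻¹ := (GG_posDef hV g hH s).inv.1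
  simp only [Matrix.conjTranspose_mul, h1, hS, eD_conj, Matrix.conjTranspose_conjTranspose,
    Matrix.mul_assoc]

lemma GG_eq {V : Matrix ι k ℂ} (g : ι → ℝ) {H S : Matrix ι ι ℂ} (hSS : S * S = H) (s : ℝ) :
    Vᴴ * eD g s * S * (S * eD g s * V) = GG V g H s := by
  unfold GG
  rw [← hSS]
  simp only [Matrix.mul_assoc]

lemma PP_mul {V : Matrix ι k ℂ} (hV : Vᴴ * V = 1) (g : ι → ℝ) {H S : Matrix ι ι ℂ}
    (hH : H.PosDef) (hSS : S * S = H) (s : ℝ) :
    PP V g H S s * (S * eD g s * V) = S * eD g s * V := by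
  have h2 : (GG V g H s)⁻¹ * GG V g H s = 1 := Matrix.nonsing_inv_mul _ (GG_det_unit hV g hH s)
  calc PP V g H S s * (S * eD g s * V)
      = S * eD g s * V * ((GG V g H s)⁻¹ * (Vᴴ * eD g s * S * (S * eD g s * V))) := by
        unfold PP; simp only [Matrix.mul_assoc]
    _ = _ := by rw [GG_eq g hSS, h2, Matrix.mul_one]

lemma PP_idem {V : Matrix ι k ℂ} (hV : Vᴴ * V = 1) (g : ι → ℝ) {H S : Matrix ι ι ℂ}
    (hH : H.PosDef) (hSS : S * S = H) (s : ℝ) :
    PP V g H S s * PP V g H S s = PP V g H S s := by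
  calc PP V g H S s * PP V g H S s
      = (PP V g H S s * (S * eD g s * V)) * ((GG V g H s)⁻¹ * Vᴴ * eD g s * S) := by
        conv_lhs => rw [show PP V g H S s * PP V g H S s =
          PP V g H S s * (S * eD g s * V * (GG V g H s)⁻¹ * Vᴴ * eD g s * S) from rfl]
        simp only [Matrix.mul_assoc]
    _ = _ := by rw [PP_mul hV g hH hSS]; unfold PP; simp only [Matrix.mul_assoc]

lemma trace_G_inv (V : Matrix ι k ℂ) (g : ι → ℝ) (H S X : Matrix ι ι ℂ) (s : ℝ) :
    ((GG V g H s)⁻¹ * (Vᴴ * (eD g s * (S * X * S) * eD g s) * V)).trace =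
      (PP V g H S s * X).trace := by
  have : (GG V g H s)⁻¹ * (Vᴴ * (eD g s * (S * X * S) * eD g s) * V) =
      ((GG V g H s)⁻¹ * Vᴴ * eD g s * S * X) * (S * eD g s * V) := by
    simp only [Matrix.mul_assoc]
  rw [this, Matrix.trace_mul_comm]
  unfold PP
  simp only [Matrix.mul_assoc]

/-- Part B: flux inequality. -/
lemma flux_bound (V : Matrix ι k ℂ) (hV : Vᴴ * V = 1) (win : ι → β) (g : ι → ℝ)
    (hgw : ∀ m m', win m = win m' → g m = g m') (w τ b : ℝ)
    {H S : Matrix ι ι ℂ} (hH : H ∈ Adm win w) (hSS : S * S = H) (hSw : IsWin win S)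
    (s : ℝ) (hs0 : 0 ≤ s) (hsb : s < b)
    (hmin : ∀ s' ∈ Set.Icc (0:ℝ) b, LL V g τ H s ≤ LL V g τ H s') :
    ∑ m, ((PP V g H S s) m m).re * g m ≤ τ := by
  have hHpd := adm_posDef hH
  have key : ∀ t, 0 < t → t ≤ b - s →
      0 ≤ 1 / 2 * ∑ m, ((PP V g H S s) m m).re * (Real.exp (-(2 * t) * g m) - 1) + t * τ := by
    intro t ht0 htb
    have h1 := hmin (s + t) ⟨by linarith, by linarith⟩
    unfold LL at h1
    have h2 := ld_le_tangent (GG_posDef hV g hHpd s) (GG_posDef hV g hHpd (s + t))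
    have h3 : GG V g H (s + t) - GG V g H s =
        Vᴴ * (eD g s * (S * (eD g (2 * t) - 1) * S) * eD g s) * V := by
      have e1 : eD g (s + t) = eD g s * eD g t := (eD_mul g s t).symm
      have e2 : eD g (s + t) = eD g t * eD g s := by rw [eD_mul, add_comm]
      have e3 : eD g t * S = S * eD g t := eD_comm_win hSw hgw t
      have e4 : eD g (2 * t) = eD g t * eD g t := by rw [eD_mul]; congr 1; ring
      have e5 : eD g (s + t) * H * eD g (s + t) = eD g s * (S * eD g (2 * t) * S) * eD g s := by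
        rw [← hSS]
        nth_rewrite 1 [e1]
        rw [e2, e4]
        calc eD g s * eD g t * (S * S) * (eD g t * eD g s)
            = eD g s * (eD g t * S) * (S * eD g t) * eD g s := by simp only [Matrix.mul_assoc]
          _ = eD g s * (S * eD g t) * (eD g t * S) * eD g s := by rw [e3]
          _ = _ := by simp only [Matrix.mul_assoc]
      unfold GG
      rw [e5, ← Matrix.sub_mul, ← Matrix.mul_sub, ← Matrix.sub_mul, ← Matrix.mul_sub]
      congr 4
      rw [← hSS, Matrix.mul_sub, Matrix.sub_mul, Matrix.mul_one]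
    rw [h3, trace_G_inv] at h2
    have h4 : ((PP V g H S s * (eD g (2 * t) - 1)).trace).re =
        ∑ m, ((PP V g H S s) m m).re * (Real.exp (-(2 * t) * g m) - 1) := by
      have : eD g (2 * t) - 1 =
          diagonal (fun m => ((Real.exp (-(2 * t) * g m) - 1 : ℝ) : ℂ)) := by
        unfold eD dgM
        rw [← Matrix.diagonal_one, Matrix.diagonal_sub]
        congr 1
        ext m
        push_cast
        rfl
      rw [this]
      simp only [Matrix.trace, Matrix.diag, Matrix.mul_diagonal, Complex.re_sum,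
        Complex.re_mul_ofReal]
    rw [h4] at h2
    nlinarith
  have hder : HasDerivAt (fun t : ℝ => 1 / 2 * ∑ m, ((PP V g H S s) m m).re *
      (Real.exp (-(2 * t) * g m) - 1) + t * τ)
      (1 / 2 * ∑ m, ((PP V g H S s) m m).re * (-2 * g m) + τ) 0 := by
    apply HasDerivAt.add
    · apply HasDerivAt.const_mul
      apply HasDerivAt.fun_sum
      intro m _
      apply HasDerivAt.const_mul
      have h1 : HasDerivAt (fun t : ℝ => -(2 * t) * g m) (-2 * g m) 0 := by
        have h2 : HasDerivAt (fun t : ℝ => (-2 * g m) * t) (-2 * g m) 0 := by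
          simpa using (hasDerivAt_id (0:ℝ)).const_mul (-2 * g m)
        have h3 : (fun t : ℝ => -(2 * t) * g m) = (fun t => (-2 * g m) * t) := by
          ext t; ring
        rw [h3]
        exact h2
      have h3 := (h1.exp).sub_const 1
      simpa using h3
    · simpa using (hasDerivAt_id (0:ℝ)).mul_const τ
  have h5 := right_deriv_nonneg hder (δ := b - s) (by linarith) (by
    intro t ht0 htb
    simpa using key t ht0 htb)
  have h6 : ∑ m, ((PP V g H S s) m m).re * (-2 * g m) =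
      -2 * ∑ m, ((PP V g H S s) m m).re * g m := by
    rw [Finset.mul_sum]
    apply Finset.sum_congr rfl; intro m _; ring
  rw [h6] at h5
  linarith

lemma adm_convex {win : ι → β} {w : ℝ} {H H' : Matrix ι ι ℂ} (hH : H ∈ Adm win w)
    (hH' : H' ∈ Adm win w) {t : ℝ} (ht0 : 0 ≤ t) (ht1 : t ≤ 1) :
    H + (t : ℂ) • (H' - H) ∈ Adm win w := by
  have c0 : (0:ℂ) ≤ (t : ℂ) := by exact_mod_cast ht0
  have c1 : (0:ℂ) ≤ ((1 - t : ℝ) : ℂ) := by exact_mod_cast sub_nonneg.mpr ht1
  refine ⟨?_, ?_, ?_⟩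
  · rw [Matrix.le_iff]
    have : H + (t : ℂ) • (H' - H) - ((Real.exp (-(2 * w)) : ℝ) : ℂ) • (1 : Matrix ι ι ℂ) =
        ((1 - t : ℝ) : ℂ) • (H - ((Real.exp (-(2 * w)) : ℝ) : ℂ) • (1 : Matrix ι ι ℂ)) +
        (t : ℂ) • (H' - ((Real.exp (-(2 * w)) : ℝ) : ℂ) • (1 : Matrix ι ι ℂ)) := by
      push_cast
      simp only [smul_sub, sub_smul, one_smul]
      abel
    rw [this]
    exact (Matrix.PosSemidef.smul hH.1 c1).add (Matrix.PosSemidef.smul hH'.1 c0)
  · rw [Matrix.le_iff]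
    have : 1 - (H + (t : ℂ) • (H' - H)) =
        ((1 - t : ℝ) : ℂ) • (1 - H) + (t : ℂ) • (1 - H') := by
      push_cast
      simp only [smul_sub, sub_smul, one_smul]
      abel
    rw [this]
    exact (Matrix.PosSemidef.smul hH.2.1 c1).add (Matrix.PosSemidef.smul hH'.2.1 c0)
  · exact hH.2.2.add ((hH'.2.2.sub hH.2.2).smul _)

/-- Part C: first order condition. -/
lemma first_order (V : Matrix ι k ℂ) (hV : Vᴴ * V = 1) (win : ι → β) (g : ι → ℝ) (w τ : ℝ)
    {H H' S N : Matrix ι ι ℂ} (hH : H ∈ Adm win w) (hH' : H' ∈ Adm win w) (hSS : S * S = H)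
    (hSN : S * N = 1) (hNS : N * S = 1) (s : ℝ)
    (hmin : ∀ H' ∈ Adm win w, LL V g τ H s ≤ LL V g τ H' s) :
    0 ≤ 1 / 2 * ((PP V g H S s * (N * (H' - H) * N)).trace).re -
      1 / 4 * ((N * (H' - H) * N).trace).re := by
  have hHpd := adm_posDef hH
  obtain ⟨K, hK⟩ : ∃ K, K = H' - H := ⟨_, rfl⟩
  rw [← hK]
  have hSNK : S * (N * K * N) * S = K := by
    calc S * (N * K * N) * S = (S * N) * K * (N * S) := by simp only [Matrix.mul_assoc]
      _ = K := by rw [hSN, hNS]; simp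
  have hinv : H⁻¹ = N * N := by
    apply Matrix.inv_eq_left_inv
    rw [← hSS]
    calc N * N * (S * S) = N * (N * S) * S := by simp only [Matrix.mul_assoc]
      _ = 1 := by rw [hNS]; simp [hNS]
  have htr2 : ((N * K * N).trace) = (H⁻¹ * K).trace := by
    rw [Matrix.trace_mul_comm, ← Matrix.mul_assoc, hinv]
  have key : ∀ t : ℝ, 0 < t → t ≤ 1 → 0 ≤ 1 / 2 * ((PP V g H S s * (N * K * N)).trace).re -
      1 / 4 * (((H + (t : ℂ) • K)⁻¹ * K).trace).re := by
    intro t ht0 ht1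
    have hHt : H + (t : ℂ) • K ∈ Adm win w := by
      rw [hK]
      exact adm_convex (t := t) hH hH' ht0.le ht1
    have hHtpd := adm_posDef hHt
    have h1 := hmin _ hHt
    unfold LL at h1
    have h2 := ld_le_tangent (GG_posDef hV g hHpd s) (GG_posDef hV g hHtpd s)
    have h3 := ld_le_tangent hHtpd hHpd
    have h4 : GG V g (H + (t : ℂ) • K) s - GG V g H s =
        (t : ℂ) • (Vᴴ * (eD g s * (S * (N * K * N) * S) * eD g s) * V) := by
      rw [hSNK]
      unfold GG
      simp only [Matrix.mul_add, Matrix.add_mul, Matrix.mul_smul, Matrix.smul_mul]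
      abel
    have h5 : H - (H + (t : ℂ) • K) = -((t : ℂ) • K) := by abel
    rw [h4, Matrix.mul_smul, Matrix.trace_smul, trace_G_inv, smul_eq_mul,
      Complex.re_ofReal_mul] at h2
    rw [h5, Matrix.mul_neg, Matrix.mul_smul, Matrix.trace_neg, Matrix.trace_smul, smul_eq_mul,
      Complex.neg_re, Complex.re_ofReal_mul] at h3
    have h6 : 0 ≤ t * (1 / 2 * ((PP V g H S s * (N * K * N)).trace).re -
      1 / 4 * (((H + (t : ℂ) • K)⁻¹ * K).trace).re) := by nlinarith
    exact nonneg_of_mul_nonneg_right h6 ht0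
  have hcont : ContinuousAt (fun t : ℝ => 1 / 2 * ((PP V g H S s * (N * K * N)).trace).re -
      1 / 4 * (((H + (t : ℂ) • K)⁻¹ * K).trace).re) 0 := by
    apply ContinuousAt.sub continuousAt_const
    apply ContinuousAt.mul continuousAt_const
    have hc1 : Continuous (fun t : ℝ => H + (t : ℂ) • K) := by fun_prop
    have hc2 : ContinuousAt (fun t : ℝ => (H + (t : ℂ) • K)⁻¹) 0 := by
      simp only [Matrix.inv_def, Ring.inverse_eq_inv']
      apply ContinuousAt.fun_smul
      · apply ContinuousAt.inv₀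
        · exact hc1.matrix_det.continuousAt
        · simpa using posDef_det_ne hHpd
      · exact hc1.matrix_adjugate.continuousAt
    have hc3 : ContinuousAt (fun t : ℝ => ((H + (t : ℂ) • K)⁻¹ * K)) 0 := by
      have : Continuous (fun X : Matrix ι ι ℂ => X * K) := by fun_prop
      exact this.continuousAt.comp hc2
    have hc4 : Continuous (fun X : Matrix ι ι ℂ => (X.trace).re) := by fun_prop
    exact hc4.continuousAt.comp hc3
  have hlim := hcont.tendsto
  simp only [Complex.ofReal_zero, zero_smul, add_zero] at hlim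
  rw [htr2]
  refine ge_of_tendsto (hlim.mono_left (nhdsWithin_le_nhds (s := Set.Ioi 0))) ?_
  filter_upwards [Ioc_mem_nhdsGT (zero_lt_one (α := ℝ))] with t ht
  exact key t ht.1 ht.2

end Crest.Agent.R113.FD
end

-- ▼ part R113/FD/Min
section

set_option autoImplicit false
set_option linter.unusedSectionVars false
open scoped ComplexOrder Matrix MatrixOrder
open Matrix

namespace Crest.Agent.R113.FD

universe u
variable {ι : Type u} {β : Type*} [Fintype ι] [DecidableEq ι] [DecidableEq β]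

lemma psd_conj_herm {A F : Matrix ι ι ℂ} (hA : A.PosSemidef) (hF : Fᴴ = F) :
    (F * A * F).PosSemidef := by
  have := hA.conjTranspose_mul_mul_same F
  rwa [hF] at this

/-- Sign-projection data of the minimiser. -/
lemma sign_data (win : ι → β) {w : ℝ} (hw : 0 < w) {H S N P : Matrix ι ι ℂ} (hH : H ∈ Adm win w)
    (hSf : S = fc (adm_posDef hH).1 Real.sqrt)
    (hNf : N = fc (adm_posDef hH).1 (fun x => (Real.sqrt x)⁻¹))
    (hP : P.IsHermitian)
    (hfo : ∀ H' ∈ Adm win w, 0 ≤ 1 / 2 * ((P * (N * (H' - H) * N)).trace).re -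
      1 / 4 * ((N * (H' - H) * N).trace).re) :
    ∃ F F0 Fm : Matrix ι ι ℂ, IsWin win F ∧ IsWin win F0 ∧ IsWin win Fm ∧
      IsStarProjection F ∧ IsStarProjection F0 ∧ IsStarProjection Fm ∧
      F + F0 + Fm = 1 ∧ F * F0 = 0 ∧ F * Fm = 0 ∧ F0 * F = 0 ∧ F0 * Fm = 0 ∧ Fm * F = 0 ∧
      Fm * F0 = 0 ∧
      S * F = ((Real.exp (-w) : ℝ) : ℂ) • F ∧ F * S = ((Real.exp (-w) : ℝ) : ℂ) • F ∧
      S * Fm = Fm ∧ Fm * S = Fm ∧
      Commute F (winComp win P) ∧ Commute F0 (winComp win P) ∧ Commute Fm (winComp win P) ∧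
      (1 / 2 : ℂ) • F ≤ F * winComp win P ∧ F0 * winComp win P = (1 / 2 : ℂ) • F0 ∧
      Fm * winComp win P ≤ (1 / 2 : ℂ) • Fm := by
  have hHpd := adm_posDef hH
  have hHh : H.IsHermitian := hHpd.1
  set c : ℝ := Real.exp (-(2 * w)) with hc
  have hc0 : 0 < c := Real.exp_pos _
  have hc1 : c ≤ 1 := Real.exp_le_one_iff.mpr (by linarith)
  have hsc : Real.sqrt c = Real.exp (-w) := by
    rw [hc, Real.sqrt_eq_iff_mul_self_eq (Real.exp_pos _).le (Real.exp_pos _).le, ← Real.exp_add]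
    congr 1; ring
  have hevpos : ∀ i, 0 < hHh.eigenvalues i := fun i => hHpd.eigenvalues_pos i
  have hSN : S * N = 1 := by
    rw [hSf, hNf, fc_mul]
    rw [fc_congr hHh _ (fun _ => (1:ℝ)) (fun i => ?_), fc_const]
    · simp
    · exact mul_inv_cancel₀ (Real.sqrt_pos.mpr (hevpos i)).ne'
  have hNS : N * S = 1 := by
    rw [hSf, hNf, fc_mul]
    rw [fc_congr hHh _ (fun _ => (1:ℝ)) (fun i => ?_), fc_const]
    · simp
    · exact inv_mul_cancel₀ (Real.sqrt_pos.mpr (hevpos i)).ne'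
  have hSS : S * S = H := by
    rw [hSf, fc_mul]
    rw [fc_congr hHh _ (fun x => x) (fun i => ?_), fc_id]
    exact Real.mul_self_sqrt (hevpos i).le
  have hNconj : Nᴴ = N := by rw [hNf, fc_conj]
  have hSconj : Sᴴ = S := by rw [hSf, fc_conj]
  have hNw : IsWin win N := by rw [hNf]; exact hH.2.2.fc hHh _
  have hSw : IsWin win S := by rw [hSf]; exact hH.2.2.fc hHh _
  set R := winComp win P with hR
  have hRw : IsWin win R := isWin_winComp win P
  have hRh : R.IsHermitian := winComp_hermitian hP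
  -- M
  set M : Matrix ι ι ℂ := N * (R - (1 / 2 : ℂ) • 1) * N with hM
  have hMh : M.IsHermitian := by
    show Mᴴ = M
    rw [hM, Matrix.conjTranspose_mul, Matrix.conjTranspose_mul, hNconj, Matrix.conjTranspose_sub,
      hRh.eq, Matrix.conjTranspose_smul, Matrix.conjTranspose_one, ← Matrix.mul_assoc]
    congr 3
    simp
  have hMw : IsWin win M := (hNw.mul (hRw.sub (IsWin.one.smul _))).mul hNw
  have hSMS : S * M * S = R - (1 / 2 : ℂ) • 1 := by
    rw [hM]
    calc S * (N * (R - (1 / 2 : ℂ) • 1) * N) * S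
        = (S * N) * (R - (1 / 2 : ℂ) • 1) * (N * S) := by simp only [Matrix.mul_assoc]
      _ = _ := by rw [hSN, hNS]; simp
  -- functional calculus of M
  set F := fc hMh (fun x => if 0 < x then 1 else 0) with hF
  set F0 := fc hMh (fun x => if x = 0 then 1 else 0) with hF0
  set Fm := fc hMh (fun x => if x < 0 then 1 else 0) with hFm
  set Mp := fc hMh (fun x => max x 0) with hMp
  set Mn := fc hMh (fun x => max (-x) 0) with hMn
  have hMid : M = fc hMh (fun x => x) := (fc_id hMh).symm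
  have zero_fc : fc hMh (fun _ => (0:ℝ)) = 0 := by rw [fc_const]; simp
  have one_fc : fc hMh (fun _ => (1:ℝ)) = 1 := by rw [fc_const]; simp
  have hFF : F * F = F := by
    rw [hF, fc_mul]; apply fc_congr; intro i; (try dsimp only); split_ifs <;> simp
  have hF0F0 : F0 * F0 = F0 := by
    rw [hF0, fc_mul]; apply fc_congr; intro i; (try dsimp only); split_ifs <;> simp
  have hFmFm : Fm * Fm = Fm := by
    rw [hFm, fc_mul]; apply fc_congr; intro i; (try dsimp only); split_ifs <;> simp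
  have hFF0 : F * F0 = 0 := by
    rw [hF, hF0, fc_mul, ← zero_fc]; apply fc_congr; intro i; (try dsimp only)
    split_ifs with h1 h2 h3 <;> simp_all
  have hF0F : F0 * F = 0 := by
    rw [hF, hF0, fc_mul, ← zero_fc]; apply fc_congr; intro i; (try dsimp only)
    split_ifs with h1 h2 h3 <;> simp_all
  have hFFm : F * Fm = 0 := by
    rw [hF, hFm, fc_mul, ← zero_fc]; apply fc_congr; intro i; (try dsimp only)
    split_ifs with h1 h2 h3 <;> first | (exfalso; linarith) | simp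
  have hFmF : Fm * F = 0 := by
    rw [hF, hFm, fc_mul, ← zero_fc]; apply fc_congr; intro i; (try dsimp only)
    split_ifs with h1 h2 h3 <;> first | (exfalso; linarith) | simp
  have hF0Fm : F0 * Fm = 0 := by
    rw [hF0, hFm, fc_mul, ← zero_fc]; apply fc_congr; intro i; (try dsimp only)
    split_ifs with h1 h2 h3 <;> first | (exfalso; linarith) | simp
  have hFmF0 : Fm * F0 = 0 := by
    rw [hF0, hFm, fc_mul, ← zero_fc]; apply fc_congr; intro i; (try dsimp only)
    split_ifs with h1 h2 h3 <;> first | (exfalso; linarith) | simp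
  have hsum : F + F0 + Fm = 1 := by
    rw [hF, hF0, hFm, fc_add, fc_add, ← one_fc]; apply fc_congr; intro i; (try dsimp only)
    rcases lt_trichotomy (hMh.eigenvalues i) 0 with h | h | h
    · have h1 : ¬ (0 < hMh.eigenvalues i) := not_lt.mpr h.le
      simp [h, h.ne, h1]
    · simp [h]
    · have h1 : ¬ (hMh.eigenvalues i < 0) := not_lt.mpr h.le
      simp [h, h.ne', h1]
  have hMF : M * F = Mp := by
    have h := fc_mul hMh (fun x => x) (fun x => if 0 < x then 1 else 0)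
    rw [fc_id] at h
    rw [hF, hMp, h]; apply fc_congr; intro i; (try dsimp only)
    split_ifs with h1
    · rw [max_eq_left h1.le, mul_one]
    · rw [max_eq_right (not_lt.mp h1), mul_zero]
  have hFM : F * M = Mp := by
    have h := fc_mul hMh (fun x => if 0 < x then 1 else 0) (fun x => x)
    rw [fc_id] at h
    rw [hF, hMp, h]; apply fc_congr; intro i; (try dsimp only)
    split_ifs with h1
    · rw [max_eq_left h1.le, one_mul]
    · rw [max_eq_right (not_lt.mp h1), zero_mul]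
  have hMFm : M * Fm = -Mn := by
    have : -Mn = fc hMh (fun x => -(max (-x) 0)) := by
      have h1 := fc_smul hMh (-1) (fun x => max (-x) 0)
      rw [← hMn] at h1
      simpa using h1
    have h := fc_mul hMh (fun x => x) (fun x => if x < 0 then 1 else 0)
    rw [fc_id] at h
    rw [this, hFm, h]; apply fc_congr; intro i; (try dsimp only)
    split_ifs with h1
    · rw [max_eq_left (by linarith)]; ring
    · rw [max_eq_right (by linarith [not_lt.mp h1]), mul_zero, neg_zero]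
  have hFmM : Fm * M = -Mn := by
    have : -Mn = fc hMh (fun x => -(max (-x) 0)) := by
      have h1 := fc_smul hMh (-1) (fun x => max (-x) 0)
      rw [← hMn] at h1
      simpa using h1
    have h := fc_mul hMh (fun x => if x < 0 then 1 else 0) (fun x => x)
    rw [fc_id] at h
    rw [this, hFm, h]; apply fc_congr; intro i; (try dsimp only)
    split_ifs with h1
    · rw [max_eq_left (by linarith)]; ring
    · rw [max_eq_right (by linarith [not_lt.mp h1]), zero_mul, neg_zero]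
  have hMF0 : M * F0 = 0 := by
    have h := fc_mul hMh (fun x => x) (fun x => if x = 0 then 1 else 0)
    rw [fc_id] at h
    rw [hF0, h, ← zero_fc]; apply fc_congr; intro i; (try dsimp only)
    split_ifs with h1
    · rw [h1, zero_mul]
    · rw [mul_zero]
  have hF0M : F0 * M = 0 := by
    have h := fc_mul hMh (fun x => if x = 0 then 1 else 0) (fun x => x)
    rw [fc_id] at h
    rw [hF0, h, ← zero_fc]; apply fc_congr; intro i; (try dsimp only)
    split_ifs with h1
    · rw [h1, mul_zero]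
    · rw [zero_mul]
  have hMdec : M = Mp - Mn := by
    refine (fc_id hMh).symm.trans ?_
    rw [hMp, hMn, fc_sub]; apply fc_congr; intro i; (try dsimp only)
    rcases le_total (hMh.eigenvalues i) 0 with h | h
    · rw [max_eq_right h, max_eq_left (by linarith)]; ring
    · rw [max_eq_left h, max_eq_right (by linarith)]; ring
  have hFc : Fᴴ = F := fc_conj _ _
  have hF0c : F0ᴴ = F0 := fc_conj _ _
  have hFmc : Fmᴴ = Fm := fc_conj _ _
  have hMppsd : Mp.PosSemidef := fc_nonneg _ _ (fun i => le_max_right _ _)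
  have hMnpsd : Mn.PosSemidef := fc_nonneg _ _ (fun i => le_max_right _ _)
  have hFpsd : F.PosSemidef := fc_nonneg _ _ (fun i => by split_ifs <;> norm_num)
  have hF0psd : F0.PosSemidef := fc_nonneg _ _ (fun i => by split_ifs <;> norm_num)
  have hFmpsd : Fm.PosSemidef := fc_nonneg _ _ (fun i => by split_ifs <;> norm_num)
  have hFw : IsWin win F := hMw.fc hMh _
  have hF0w : IsWin win F0 := hMw.fc hMh _
  have hFmw : IsWin win Fm := hMw.fc hMh _
  -- the test point
  set H' : Matrix ι ι ℂ := (c : ℂ) • F + Fm + F0 * H * F0 with hH'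
  have hHc : (H - (c : ℂ) • 1).PosSemidef := hH.1
  have hH1 : (1 - H).PosSemidef := hH.2.1
  have hH'adm : H' ∈ Adm win w := by
    refine ⟨?_, ?_, ?_⟩
    · rw [Matrix.le_iff]
      have : H' - (c : ℂ) • 1 = ((1 - c : ℝ) : ℂ) • Fm + F0 * (H - (c : ℂ) • 1) * F0 := by
        rw [hH', ← hsum]
        simp only [Matrix.mul_sub, Matrix.sub_mul, Matrix.mul_smul, Matrix.smul_mul, smul_add,
          Matrix.mul_add, Matrix.add_mul, hF0F, hF0Fm, hF0F0, Matrix.zero_mul]
        push_cast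
        simp only [sub_smul, one_smul, smul_zero, zero_add, add_zero]
        abel
      show (H' - (c : ℂ) • 1).PosSemidef
      rw [this]
      apply PosSemidef.add
      · apply Matrix.PosSemidef.smul hFmpsd
        exact_mod_cast sub_nonneg.mpr hc1
      · exact psd_conj_herm hHc hF0c
    · rw [Matrix.le_iff]
      have : 1 - H' = ((1 - c : ℝ) : ℂ) • F + F0 * (1 - H) * F0 := by
        rw [hH']
        nth_rewrite 1 [← hsum]
        simp only [Matrix.mul_sub, Matrix.sub_mul, Matrix.mul_one, hF0F0]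
        push_cast
        simp only [sub_smul, one_smul]
        abel
      rw [this]
      apply PosSemidef.add
      · apply Matrix.PosSemidef.smul hFpsd
        exact_mod_cast sub_nonneg.mpr hc1
      · exact psd_conj_herm hH1 hF0c
    · exact ((hFw.smul _).add hFmw).add ((hF0w.mul hH.2.2).mul hF0w)
  have hK := hfo H' hH'adm
  -- rewrite first order condition as re tr (M K) ≥ 0
  have hKw : IsWin win (N * (H' - H) * N) := (hNw.mul (hH'adm.2.2.sub hH.2.2)).mul hNw
  have hMK : 1 / 2 * ((P * (N * (H' - H) * N)).trace).re -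
      1 / 4 * ((N * (H' - H) * N).trace).re = 1 / 2 * ((M * (H' - H)).trace).re := by
    rw [← trace_winComp_mul P hKw, ← hR]
    have h1 : (M * (H' - H)).trace = (R * (N * (H' - H) * N)).trace -
        (1 / 2 : ℂ) * (N * (H' - H) * N).trace := by
      rw [hM]
      have : N * (R - (1 / 2 : ℂ) • 1) * N * (H' - H) =
        N * ((R - (1 / 2 : ℂ) • 1) * N * (H' - H)) := by simp only [Matrix.mul_assoc]
      rw [this, Matrix.trace_mul_comm]
      have : (R - (1 / 2 : ℂ) • 1) * N * (H' - H) * N = R * (N * (H' - H) * N) -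
        (1 / 2 : ℂ) • (N * (H' - H) * N) := by
        simp only [Matrix.sub_mul, Matrix.smul_mul, Matrix.one_mul, Matrix.mul_assoc]
      rw [this, Matrix.trace_sub, Matrix.trace_smul, smul_eq_mul]
    rw [h1, Complex.sub_re]
    have h2 : ((1 / 2 : ℂ) * (N * (H' - H) * N).trace).re =
        1 / 2 * ((N * (H' - H) * N).trace).re := by
      have : (1 / 2 : ℂ) = ((1 / 2 : ℝ) : ℂ) := by push_cast; rfl
      rw [this, Complex.re_ofReal_mul]
    rw [h2]; ring
  rw [hMK] at hK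
  have hMKval : M * (H' - H) = -(Mp * (H - (c : ℂ) • 1)) - Mn * (1 - H) := by
    have e1 : M * H' = (c : ℂ) • Mp - Mn := by
      rw [hH', Matrix.mul_add, Matrix.mul_add, Matrix.mul_smul, hMF, hMFm, ← Matrix.mul_assoc,
        ← Matrix.mul_assoc, hMF0]
      simp [sub_eq_add_neg]
    rw [Matrix.mul_sub, e1]
    nth_rewrite 1 [hMdec]
    simp only [Matrix.mul_sub, Matrix.sub_mul, Matrix.mul_smul, Matrix.mul_one]
    abel
  have hMKtr : ((M * (H' - H)).trace).re =
      -((Mp * (H - (c : ℂ) • 1)).trace).re - ((Mn * (1 - H)).trace).re := by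
    rw [hMKval, Matrix.trace_sub, Matrix.trace_neg]; simp
  have ha := psd_trace_mul_nonneg hMppsd hHc
  have hb := psd_trace_mul_nonneg hMnpsd hH1
  have hMpH : Mp * (H - (c : ℂ) • 1) = 0 := psd_mul_eq_zero hMppsd hHc (by linarith)
  have hMnH : Mn * (1 - H) = 0 := psd_mul_eq_zero hMnpsd hH1 (by linarith)
  -- F (H - c) = 0
  have hFH : F * (H - (c : ℂ) • 1) = 0 := by
    have : F = fc hMh (fun x => if 0 < x then x⁻¹ else 0) * Mp := by
      rw [hF, hMp, fc_mul]; apply fc_congr; intro i; (try dsimp only)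
      split_ifs with h1
      · rw [max_eq_left h1.le, inv_mul_cancel₀ h1.ne']
      · simp
    rw [this, Matrix.mul_assoc, hMpH, Matrix.mul_zero]
  have hFmH : Fm * (1 - H) = 0 := by
    have : Fm = fc hMh (fun x => if x < 0 then (-x)⁻¹ else 0) * Mn := by
      rw [hFm, hMn, fc_mul]; apply fc_congr; intro i; (try dsimp only)
      split_ifs with h1
      · rw [max_eq_left (by linarith), inv_mul_cancel₀ (by linarith)]
      · simp
    rw [this, Matrix.mul_assoc, hMnH, Matrix.mul_zero]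
  have hHF : H * F = (c : ℂ) • F := by
    have h1 := congrArg Matrix.conjTranspose hFH
    rw [Matrix.conjTranspose_mul, Matrix.conjTranspose_sub, hHh.eq, hFc,
      Matrix.conjTranspose_smul, Matrix.conjTranspose_one, Matrix.conjTranspose_zero,
      Complex.star_def, Complex.conj_ofReal, Matrix.sub_mul, Matrix.smul_mul, Matrix.one_mul] at h1
    exact sub_eq_zero.mp h1
  have hHFm : H * Fm = ((1:ℝ) : ℂ) • Fm := by
    have h1 := congrArg Matrix.conjTranspose hFmH
    rw [Matrix.conjTranspose_mul, Matrix.conjTranspose_sub, hHh.eq, hFmc,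
      Matrix.conjTranspose_one, Matrix.conjTranspose_zero,
      Matrix.sub_mul, Matrix.one_mul] at h1
    rw [Complex.ofReal_one, one_smul]
    exact (sub_eq_zero.mp h1).symm
  have hSF : S * F = ((Real.exp (-w) : ℝ) : ℂ) • F := by
    rw [hSf, fc_eigen hHh Real.sqrt F c hHF, hsc]
  have hSFm : S * Fm = Fm := by
    rw [hSf, fc_eigen hHh Real.sqrt Fm 1 hHFm, Real.sqrt_one]; simp
  have hFS : F * S = ((Real.exp (-w) : ℝ) : ℂ) • F := by
    have h1 := congrArg Matrix.conjTranspose hSF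
    rw [Matrix.conjTranspose_mul, hSconj, hFc, Matrix.conjTranspose_smul, hFc, Complex.star_def,
      Complex.conj_ofReal] at h1
    exact h1
  have hFmS : Fm * S = Fm := by
    have h1 := congrArg Matrix.conjTranspose hSFm
    rw [Matrix.conjTranspose_mul, hSconj, hFmc] at h1
    exact h1
  have hSF0 : S * F0 = F0 * S := by
    have : F0 = 1 - F - Fm := by rw [← hsum]; abel
    rw [this]
    simp only [Matrix.mul_sub, Matrix.sub_mul, Matrix.mul_one, Matrix.one_mul, hSF, hFS, hSFm,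
      hFmS]
  -- R - 1/2
  set e : ℂ := ((Real.exp (-w) : ℝ) : ℂ) with he
  have hRF : (R - (1 / 2 : ℂ) • 1) * F = (e * e) • Mp := by
    rw [← hSMS, Matrix.mul_assoc, hSF, Matrix.mul_smul, Matrix.mul_assoc, hMF, ← hFM,
      ← Matrix.mul_assoc, hSF, Matrix.smul_mul, hFM, smul_smul]
  have hFR : F * (R - (1 / 2 : ℂ) • 1) = (e * e) • Mp := by
    rw [← hSMS, ← Matrix.mul_assoc, ← Matrix.mul_assoc, hFS, Matrix.smul_mul, Matrix.smul_mul,
      hFM, ← hMF, Matrix.mul_assoc, hFS, Matrix.mul_smul, hMF, smul_smul]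
  have hRFm : (R - (1 / 2 : ℂ) • 1) * Fm = -Mn := by
    rw [← hSMS, Matrix.mul_assoc, hSFm, Matrix.mul_assoc, hMFm, ← hFmM, ← Matrix.mul_assoc, hSFm]
  have hFmR : Fm * (R - (1 / 2 : ℂ) • 1) = -Mn := by
    rw [← hSMS, ← Matrix.mul_assoc, ← Matrix.mul_assoc, hFmS, hFmM, ← hMFm, Matrix.mul_assoc,
      hFmS]
  have hRF0 : (R - (1 / 2 : ℂ) • 1) * F0 = 0 := by
    rw [← hSMS, Matrix.mul_assoc, hSF0, ← Matrix.mul_assoc, Matrix.mul_assoc S, hMF0]
    simp
  have hF0R : F0 * (R - (1 / 2 : ℂ) • 1) = 0 := by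
    rw [← hSMS, ← Matrix.mul_assoc, ← Matrix.mul_assoc, ← hSF0, Matrix.mul_assoc S, hF0M]
    simp
  have comm_of : ∀ X Y : Matrix ι ι ℂ, X * (R - (1 / 2 : ℂ) • 1) = Y →
      (R - (1 / 2 : ℂ) • 1) * X = Y → Commute X R := by
    intro X Y h1 h2
    have h3 : X * R - (1 / 2 : ℂ) • X = R * X - (1 / 2 : ℂ) • X := by
      have e1 : X * R - (1 / 2 : ℂ) • X = X * (R - (1 / 2 : ℂ) • 1) := by
        rw [Matrix.mul_sub, Matrix.mul_smul, Matrix.mul_one]
      have e2 : R * X - (1 / 2 : ℂ) • X = (R - (1 / 2 : ℂ) • 1) * X := by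
        rw [Matrix.sub_mul, Matrix.smul_mul, Matrix.one_mul]
      rw [e1, e2, h1, h2]
    exact sub_left_injective h3
  have hee : (0:ℂ) ≤ e * e := by
    rw [he, ← Complex.ofReal_mul]
    exact_mod_cast (mul_pos (Real.exp_pos _) (Real.exp_pos _)).le
  refine ⟨F, F0, Fm, hFw, hF0w, hFmw, ⟨hFF, hFc⟩, ⟨hF0F0, hF0c⟩, ⟨hFmFm, hFmc⟩, hsum, hFF0, hFFm,
    hF0F, hF0Fm, hFmF, hFmF0, hSF, hFS, hSFm, hFmS, comm_of _ _ hFR hRF, comm_of _ _ hF0R hRF0,
    comm_of _ _ hFmR hRFm, ?_, ?_, ?_⟩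
  · rw [Matrix.le_iff]
    have : F * R - (1 / 2 : ℂ) • F = F * (R - (1 / 2 : ℂ) • 1) := by
      rw [Matrix.mul_sub, Matrix.mul_smul, Matrix.mul_one]
    rw [this, hFR]
    exact Matrix.PosSemidef.smul hMppsd hee
  · have : F0 * R - (1 / 2 : ℂ) • F0 = F0 * (R - (1 / 2 : ℂ) • 1) := by
      rw [Matrix.mul_sub, Matrix.mul_smul, Matrix.mul_one]
    rw [hF0R] at this
    exact sub_eq_zero.mp this
  · rw [Matrix.le_iff]
    have : (1 / 2 : ℂ) • Fm - Fm * R = -(Fm * (R - (1 / 2 : ℂ) • 1)) := by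
      rw [Matrix.mul_sub, Matrix.mul_smul, Matrix.mul_one]; abel
    rw [this, hFmR, neg_neg]
    exact hMnpsd

/-- (MIN), matrix form.  `Q` = orthogonal projection onto `E`, `P` = orthogonal projection onto
`X = S e^{-sg} E`, `S = H^{1/2}`. -/
theorem min_matrix (win : ι → β) (Q : Matrix ι ι ℂ) (hQ : IsStarProjection Q)
    (g : ι → ℝ) (hgw : ∀ m m', win m = win m' → g m = g m')
    (w θ₀ : ℝ) (hw : 0 < w) (hθ : 0 < θ₀) :
    ∃ (s : ℝ) (S S' P F F0 Fm : Matrix ι ι ℂ),
      0 ≤ s ∧ s ≤ w / θ₀ ∧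
      S.PosDef ∧ S * S' = 1 ∧ S' * S = 1 ∧ ((Real.exp (-w) : ℝ) : ℂ) • (1 : Matrix ι ι ℂ) ≤ S ∧
      S ≤ 1 ∧
      IsWin win S ∧ IsWin win F ∧ IsWin win F0 ∧ IsWin win Fm ∧
      IsStarProjection F ∧ IsStarProjection F0 ∧ IsStarProjection Fm ∧
      F + F0 + Fm = 1 ∧ F * F0 = 0 ∧ F * Fm = 0 ∧ F0 * F = 0 ∧ F0 * Fm = 0 ∧ Fm * F = 0 ∧
      Fm * F0 = 0 ∧
      S * F = ((Real.exp (-w) : ℝ) : ℂ) • F ∧ F * S = ((Real.exp (-w) : ℝ) : ℂ) • F ∧
      S * Fm = Fm ∧ Fm * S = Fm ∧
      -- P is the orthogonal projection onto the range of S e^{-sg} Q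
      IsStarProjection P ∧
      P * (S * dgM (fun m => Real.exp (-s * g m)) * Q) =
        S * dgM (fun m => Real.exp (-s * g m)) * Q ∧
      (∃ Y : Matrix ι ι ℂ, P = S * dgM (fun m => Real.exp (-s * g m)) * Q * Y) ∧
      -- sign projections of R - 1/2
      Commute F (winComp win P) ∧ Commute F0 (winComp win P) ∧ Commute Fm (winComp win P) ∧
      (1 / 2 : ℂ) • F ≤ F * winComp win P ∧ F0 * winComp win P = (1 / 2 : ℂ) • F0 ∧
      Fm * winComp win P ≤ (1 / 2 : ℂ) • Fm ∧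
      -- the g-flux inequality
      ∑ m, (P m m).re * g m ≤ ∑ m, (Q m m).re * g m + θ₀ * Fintype.card ι := by
  obtain ⟨k, hk1, hk2, V, hV, hVQ, hkc⟩ := exists_isometry hQ
  set τ : ℝ := ∑ m, g m * ((V * Vᴴ) m m).re + θ₀ * Fintype.card ι with hτ
  have hb0 : 0 < 2 * (w / θ₀) := by positivity
  obtain ⟨H, hH, s, hs, hmin⟩ := exists_minimiser V hV win g τ w (2 * (w / θ₀)) hw.le hb0.le
  -- choice of s in the empty case
  have hsle : s ≤ w / θ₀ ∨ IsEmpty ι := by
    rcases isEmpty_or_nonempty ι with h | h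
    · right; exact h
    · left
      exact s_bound V hV win g w θ₀ hw hθ hkc hH s (hmin 1 (one_mem_adm win hw.le) 0
        ⟨le_refl _, hb0.le⟩)
  rcases hsle with hsle | hempty
  swap
  · refine ⟨0, 1, 1, 1, 0, 0, 0, le_refl _, by positivity, Matrix.PosDef.one, ?_⟩
    have hsub : ∀ A B : Matrix ι ι ℂ, A = B := fun A B => by ext i; exact hempty.elim i
    have hle : ∀ A B : Matrix ι ι ℂ, A ≤ B := fun A B => (hsub A B) ▸ le_refl _
    have hsp : ∀ A : Matrix ι ι ℂ, IsStarProjection A := fun A => ⟨hsub _ _, hsub _ _⟩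
    have hwn : ∀ A : Matrix ι ι ℂ, IsWin win A := fun A m => hempty.elim m
    refine ⟨hsub _ _, hsub _ _, hle _ _, hle _ _, hwn _, hwn _, hwn _, hwn _, hsp _, hsp _, hsp _,
      hsub _ _, hsub _ _, hsub _ _, hsub _ _, hsub _ _, hsub _ _, hsub _ _, hsub _ _, hsub _ _,
      hsub _ _, hsub _ _, hsp _, hsub _ _, ⟨1, hsub _ _⟩, hsub _ _, hsub _ _, hsub _ _, hle _ _,
      hsub _ _, hle _ _, ?_⟩
    simp
  have hHpd := adm_posDef hH
  have hHh : H.IsHermitian := hHpd.1
  have hevpos : ∀ i, 0 < hHh.eigenvalues i := fun i => hHpd.eigenvalues_pos i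
  obtain ⟨S, hSf⟩ : ∃ S, S = fc hHh Real.sqrt := ⟨_, rfl⟩
  obtain ⟨N, hNf⟩ : ∃ N, N = fc hHh (fun x => (Real.sqrt x)⁻¹) := ⟨_, rfl⟩
  have hSN : S * N = 1 := by
    rw [hSf, hNf, fc_mul]
    rw [fc_congr hHh _ (fun _ => (1:ℝ)) (fun i => ?_), fc_const]
    · simp
    · exact mul_inv_cancel₀ (Real.sqrt_pos.mpr (hevpos i)).ne'
  have hNS : N * S = 1 := by
    rw [hSf, hNf, fc_mul]
    rw [fc_congr hHh _ (fun _ => (1:ℝ)) (fun i => ?_), fc_const]
    · simp
    · exact inv_mul_cancel₀ (Real.sqrt_pos.mpr (hevpos i)).ne'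
  have hSS : S * S = H := by
    rw [hSf, fc_mul]
    rw [fc_congr hHh _ (fun x => x) (fun i => ?_), fc_id]
    exact Real.mul_self_sqrt (hevpos i).le
  have hSconj : Sᴴ = S := by rw [hSf, fc_conj]
  have hSw : IsWin win S := by rw [hSf]; exact hH.2.2.fc hHh _
  have hSpsd : S.PosSemidef := by rw [hSf]; exact fc_nonneg _ _ (fun i => Real.sqrt_nonneg _)
  have hSpd : S.PosDef := by
    rw [hSpsd.posDef_iff_isUnit]
    exact IsUnit.of_mul_eq_one N hSN
  have hSge : ((Real.exp (-w) : ℝ) : ℂ) • (1 : Matrix ι ι ℂ) ≤ S := by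
    rw [← fc_const hHh, hSf]
    apply fc_mono
    intro i
    have h1 := ev_ge hHh _ hH.1 i
    have hsc : Real.sqrt (Real.exp (-(2 * w))) = Real.exp (-w) := by
      rw [Real.sqrt_eq_iff_mul_self_eq (Real.exp_pos _).le (Real.exp_pos _).le, ← Real.exp_add]
      congr 1; ring
    rw [← hsc]
    exact Real.sqrt_le_sqrt h1
  have hSle : S ≤ 1 := by
    have h0 : (1 : Matrix ι ι ℂ) = fc hHh (fun _ => (1:ℝ)) := by rw [fc_const]; simp
    rw [h0, hSf]
    apply fc_mono
    intro i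
    have h1 := ev_le hHh 1 (by simpa using hH.2.1) i
    exact Real.sqrt_le_one.mpr h1
  obtain ⟨P, hPdef⟩ : ∃ P, P = PP V g H S s := ⟨_, rfl⟩
  have hPc : Pᴴ = P := by rw [hPdef]; exact PP_conj hV g hHpd hSconj s
  have hPi : P * P = P := by rw [hPdef]; exact PP_idem hV g hHpd hSS s
  obtain ⟨F, F0, Fm, hall⟩ := sign_data win hw hH hSf hNf (P := P) hPc (by
    intro H' hH'
    rw [hPdef]
    exact first_order V hV win g w τ hH hH' hSS hSN hNS s (fun H'' hH'' => hmin H'' hH'' s hs))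
  obtain ⟨a1, a2, a3, a4, a5, a6, a7, a8, a9, a10, a11, a12, a13, a14, a15, a16, a17, a18, a19,
    a20, a21, a22, a23⟩ := hall
  have hflux := flux_bound V hV win g hgw w τ (2 * (w / θ₀)) hH hSS hSw s hs.1
    (by have : 0 < w / θ₀ := by positivity
        linarith) (fun s' hs' => hmin H hH s' hs')
  refine ⟨s, S, N, P, F, F0, Fm, hs.1, hsle, hSpd, hSN, hNS, hSge, hSle, hSw, a1, a2, a3, a4, a5,
    a6, a7, a8, a9, a10, a11, a12, a13, a14, a15, a16, a17, ⟨hPi, hPc⟩, ?_, ?_, a18, a19, a20, a21,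
    a22, a23, ?_⟩
  · show P * (S * eD g s * Q) = S * eD g s * Q
    rw [← hVQ, hPdef]
    calc PP V g H S s * (S * eD g s * (V * Vᴴ))
        = (PP V g H S s * (S * eD g s * V)) * Vᴴ := by simp only [Matrix.mul_assoc]
      _ = _ := by rw [PP_mul hV g hHpd hSS]; simp only [Matrix.mul_assoc]
  · refine ⟨V * (GG V g H s)⁻¹ * Vᴴ * eD g s * S, ?_⟩
    show P = S * eD g s * Q * (V * (GG V g H s)⁻¹ * Vᴴ * eD g s * S)
    rw [hPdef, ← hVQ]
    unfold PP
    calc S * eD g s * V * (GG V g H s)⁻¹ * Vᴴ * eD g s * S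
        = S * eD g s * V * (Vᴴ * V) * (GG V g H s)⁻¹ * Vᴴ * eD g s * S := by
          rw [hV, Matrix.mul_one]
      _ = _ := by simp only [Matrix.mul_assoc]
  · rw [hPdef]
    refine hflux.trans ?_
    rw [hτ, hVQ]
    have : ∑ m, g m * (Q m m).re = ∑ m, (Q m m).re * g m := by
      apply Finset.sum_congr rfl; intro m _; ring
    rw [this]

end Crest.Agent.R113.FD
end

-- ▼ part R113/FD/MinSub
section

/-! # (MIN) in Submodule form: bridge from `min_matrix` to the names of `Defs.lean`. -/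

set_option autoImplicit false
set_option linter.unusedSectionVars false
open scoped ComplexOrder Matrix MatrixOrder
open Matrix

namespace Crest.Agent.R113.FD

universe u
variable {ι : Type u} {β : Type*} [Fintype ι] [DecidableEq ι] [DecidableEq β]

/-- matrices as operators on `EuclideanSpace ℂ ι` -/
noncomputable abbrev Φ : Matrix ι ι ℂ ≃⋆ₐ[ℂ] (EuclideanSpace ℂ ι →L[ℂ] EuclideanSpace ℂ ι) :=
  Matrix.toEuclideanCLM (n := ι) (𝕜 := ℂ)

lemma Φ_apply (A : Matrix ι ι ℂ) (v : EuclideanSpace ℂ ι) (i : ι) :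
    Φ A v i = ∑ j, A i j * v j := by
  show (A *ᵥ v.ofLp) i = _
  simp [Matrix.mulVec, dotProduct]

lemma Φ_mul (A B : Matrix ι ι ℂ) (v : EuclideanSpace ℂ ι) : Φ (A * B) v = Φ A (Φ B v) := by
  rw [map_mul]; rfl

lemma Φ_inner (A : Matrix ι ι ℂ) (v w : EuclideanSpace ℂ ι) :
    inner ℂ (Φ A v) w = inner ℂ v (Φ Aᴴ w) := by
  rw [← star_eq_conjTranspose, map_star, ContinuousLinearMap.star_eq_adjoint,
    ContinuousLinearMap.adjoint_inner_right]

lemma Φ_single (A : Matrix ι ι ℂ) (i j : ι) : Φ A (ev j) i = A i j := by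
  rw [Φ_apply]
  simp [ev]

lemma Φ_inj : Function.Injective
    (fun A : Matrix ι ι ℂ => (Φ A : EuclideanSpace ℂ ι →L[ℂ] EuclideanSpace ℂ ι)) :=
  EquivLike.injective (Φ (ι := ι))

/-- The matrix of the projection onto `X`. -/
noncomputable def pm (X : Submodule ℂ (EuclideanSpace ℂ ι)) : Matrix ι ι ℂ :=
  Φ.symm X.starProjection



lemma Φ_pm (X : Submodule ℂ (EuclideanSpace ℂ ι)) : Φ (pm X) = X.starProjection := by
  unfold pm; simp

lemma pm_apply (X : Submodule ℂ (EuclideanSpace ℂ ι)) (i j : ι) : pm X i j = ent X i j := by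
  rw [ent_eq_apply, ← Φ_pm, Φ_single]

lemma pm_proj (X : Submodule ℂ (EuclideanSpace ℂ ι)) : IsStarProjection (pm X) := by
  have h : IsStarProjection X.starProjection := isStarProjection_starProjection
  refine ⟨?_, ?_⟩
  · apply Φ_inj
    show Φ (pm X * pm X) = Φ (pm X)
    rw [map_mul, Φ_pm]
    exact h.isIdempotentElem
  · apply Φ_inj
    show Φ (star (pm X)) = Φ (pm X)
    rw [map_star, Φ_pm]
    exact h.isSelfAdjoint

lemma pm_apply_self_re (X : Submodule ℂ (EuclideanSpace ℂ ι)) (i : ι) :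
    (pm X i i).re = Crest.Agent.R113.dg X i := by
  rw [pm_apply, ent_self, Complex.ofReal_re]

/-- A star projection with range in `X` and fixing `X` is the projection onto `X`. -/
lemma eq_pm_of {P : Matrix ι ι ℂ} (hP : IsStarProjection P)
    (X : Submodule ℂ (EuclideanSpace ℂ ι)) (h1 : ∀ v, Φ P v ∈ X) (h2 : ∀ v ∈ X, Φ P v = v) :
    P = pm X := by
  apply Φ_inj
  show Φ P = Φ (pm X)
  rw [Φ_pm]
  ext1 v
  symm
  apply Submodule.eq_starProjection_of_mem_of_inner_eq_zero (h1 v)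
  intro w hw
  have hPc : Pᴴ = P := hP.isSelfAdjoint
  have hPi : P * P = P := hP.isIdempotentElem
  rw [← h2 w hw, ← inner_conj_symm, Φ_inner, hPc, map_sub, ← Φ_mul, hPi, sub_self, inner_zero_right,
    map_zero]

lemma Φ_dgM (d : ι → ℝ) (v : EuclideanSpace ℂ ι) : Φ (dgM d) v = mulD d v := by
  ext i
  rw [Φ_apply, mulD_apply]
  simp [Matrix.diagonal_apply]


lemma psd_inner {A : Matrix ι ι ℂ} (hA : A.PosSemidef) (v : EuclideanSpace ℂ ι) :
    0 ≤ (inner ℂ v (Φ A v)).re := by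
  have h := hA.re_dotProduct_nonneg v.ofLp
  rw [EuclideanSpace.inner_eq_star_dotProduct, dotProduct_comm]
  exact h

lemma inner_mono {A B : Matrix ι ι ℂ} (h : A ≤ B) (v : EuclideanSpace ℂ ι) :
    (inner ℂ v (Φ A v)).re ≤ (inner ℂ v (Φ B v)).re := by
  have h1 := psd_inner (show (B - A).PosSemidef from h) v
  rw [map_sub, _root_.sub_apply, inner_sub_right, Complex.sub_re] at h1
  linarith

lemma norm_sq_Φ (A : Matrix ι ι ℂ) (v : EuclideanSpace ℂ ι) :
    ‖Φ A v‖ ^ 2 = (inner ℂ v (Φ (Aᴴ * A) v)).re := by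
  rw [Φ_mul, ← Matrix.conjTranspose_conjTranspose A, ← Φ_inner, Matrix.conjTranspose_conjTranspose,
    ← inner_self_eq_norm_sq (𝕜 := ℂ)]
  rfl

lemma inner_smul_one (c : ℝ) (v : EuclideanSpace ℂ ι) :
    (inner ℂ v (Φ ((c : ℂ) • (1 : Matrix ι ι ℂ)) v)).re = c * ‖v‖ ^ 2 := by
  rw [map_smul, map_one]
  simp only [_root_.smul_apply, one_apply_eq_self]
  rw [inner_smul_right, Complex.re_ofReal_mul, ← inner_self_eq_norm_sq (𝕜 := ℂ)]
  rfl

lemma norm_Φ_le {S : Matrix ι ι ℂ} (hS : S.PosDef) (h1 : S ≤ 1) (v : EuclideanSpace ℂ ι) :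
    ‖Φ S v‖ ≤ ‖v‖ := by
  have hh : S.IsHermitian := hS.1
  have h2 : S * S ≤ ((1:ℝ) : ℂ) • (1 : Matrix ι ι ℂ) := by
    have hSS : S * S = fc hh (fun x => x * x) := by
      have h := fc_mul hh (fun x => x) (fun x => x)
      rwa [fc_id] at h
    rw [hSS, ← fc_const hh]
    apply fc_mono
    intro i
    have e1 := ev_le hh 1 (by simpa using h1) i
    have e2 := hS.eigenvalues_pos i
    nlinarith
  have h3 := inner_mono h2 v
  rw [inner_smul_one] at h3
  have h4 := norm_sq_Φ S v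
  rw [hh.eq] at h4
  have h5 : ‖Φ S v‖ ^ 2 ≤ ‖v‖ ^ 2 := by rw [h4]; simpa using h3
  exact (sq_le_sq₀ (norm_nonneg _) (norm_nonneg _)).mp h5

lemma le_norm_Φ {S : Matrix ι ι ℂ} (hS : S.PosDef) {c : ℝ} (hc : 0 ≤ c)
    (h1 : (c : ℂ) • (1 : Matrix ι ι ℂ) ≤ S) (v : EuclideanSpace ℂ ι) :
    c * ‖v‖ ≤ ‖Φ S v‖ := by
  have hh : S.IsHermitian := hS.1
  have h2 : ((c ^ 2 : ℝ) : ℂ) • (1 : Matrix ι ι ℂ) ≤ S * S := by
    have hSS : S * S = fc hh (fun x => x * x) := by
      have h := fc_mul hh (fun x => x) (fun x => x)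
      rwa [fc_id] at h
    rw [hSS, ← fc_const hh]
    apply fc_mono
    intro i
    have e1 := ev_ge hh c h1 i
    nlinarith
  have h3 := inner_mono h2 v
  rw [inner_smul_one] at h3
  have h4 := norm_sq_Φ S v
  rw [hh.eq] at h4
  have h5 : (c * ‖v‖) ^ 2 ≤ ‖Φ S v‖ ^ 2 := by rw [h4, mul_pow]; exact h3
  exact (sq_le_sq₀ (by positivity) (norm_nonneg _)).mp h5

lemma norm_mulD_le {d : ι → ℝ} (h0 : ∀ i, 0 ≤ d i) (h1 : ∀ i, d i ≤ 1)
    (v : EuclideanSpace ℂ ι) : ‖mulD d v‖ ≤ ‖v‖ := by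
  rw [← sq_le_sq₀ (norm_nonneg _) (norm_nonneg _), EuclideanSpace.norm_sq_eq,
    EuclideanSpace.norm_sq_eq]
  apply Finset.sum_le_sum
  intro i _
  rw [mulD_apply, norm_mul, Complex.norm_real, Real.norm_eq_abs, abs_of_nonneg (h0 i), mul_pow]
  have : d i ^ 2 ≤ 1 := by
    have := h0 i; have := h1 i; nlinarith
  nlinarith [sq_nonneg ‖v i‖]

lemma le_norm_mulD {d : ι → ℝ} {c : ℝ} (hc : 0 ≤ c) (h1 : ∀ i, c ≤ d i)
    (v : EuclideanSpace ℂ ι) : c * ‖v‖ ≤ ‖mulD d v‖ := by
  rw [← sq_le_sq₀ (by positivity) (norm_nonneg _), mul_pow, EuclideanSpace.norm_sq_eq,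
    EuclideanSpace.norm_sq_eq, Finset.mul_sum]
  apply Finset.sum_le_sum
  intro i _
  rw [mulD_apply, norm_mul, Complex.norm_real, Real.norm_eq_abs,
    abs_of_nonneg (hc.trans (h1 i)), mul_pow]
  have : c ^ 2 ≤ d i ^ 2 := by
    have := h1 i; nlinarith
  nlinarith [sq_nonneg ‖v i‖]

lemma restr_eq_Φ (A : Set ι) [DecidablePred (· ∈ A)] (v : EuclideanSpace ℂ ι) :
    restr A v = Φ (Matrix.diagonal (fun m => if m ∈ A then (1:ℂ) else 0)) v := by
  ext i
  rw [restr_apply, Φ_apply]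
  simp [Matrix.diagonal_apply]

lemma blockDiag_of_isWin {win : ι → β} {A : Matrix ι ι ℂ} (hA : IsWin win A) :
    BlockDiag win ((Φ A : EuclideanSpace ℂ ι →L[ℂ] EuclideanSpace ℂ ι) :
      EuclideanSpace ℂ ι →ₗ[ℂ] EuclideanSpace ℂ ι) := by
  intro c v
  rw [restr_eq_Φ, restr_eq_Φ]
  show Φ A (Φ _ v) = Φ _ (Φ A v)
  rw [← Φ_mul, ← Φ_mul]
  congr 2
  exact ((isWin_iff.mp hA) c).symm

lemma isWin_dgM {win : ι → β} (d : ι → ℝ) : IsWin win (dgM d : Matrix ι ι ℂ) := by
  intro m m' h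
  have : m ≠ m' := fun h' => h (by rw [h'])
  simp [this]

/-- (MIN) in Submodule form. -/
theorem min_sub (win : ι → β) (E : Submodule ℂ (EuclideanSpace ℂ ι)) (g : ι → ℝ)
    (hgw : ∀ i j, win i = win j → g i = g j) (w θ : ℝ) (hw : 0 < w) (hθ : 0 < θ) :
    ∃ (s : ℝ) (S S' F F0 Fm : Matrix ι ι ℂ)
      (a : EuclideanSpace ℂ ι →ₗ[ℂ] EuclideanSpace ℂ ι),
      0 ≤ s ∧ s ≤ w / θ ∧
      S.PosDef ∧ S * S' = 1 ∧ S' * S = 1 ∧ ((Real.exp (-w) : ℝ) : ℂ) • (1 : Matrix ι ι ℂ) ≤ S ∧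
      S ≤ 1 ∧
      (∀ v, ‖Φ S v‖ ≤ ‖v‖) ∧ (∀ v, Real.exp (-w) * ‖v‖ ≤ ‖Φ S v‖) ∧
      IsWin win S ∧ IsWin win F ∧ IsWin win F0 ∧ IsWin win Fm ∧
      IsStarProjection F ∧ IsStarProjection F0 ∧ IsStarProjection Fm ∧
      F + F0 + Fm = 1 ∧ F * F0 = 0 ∧ F * Fm = 0 ∧ F0 * F = 0 ∧ F0 * Fm = 0 ∧ Fm * F = 0 ∧
      Fm * F0 = 0 ∧
      S * F = ((Real.exp (-w) : ℝ) : ℂ) • F ∧ F * S = ((Real.exp (-w) : ℝ) : ℂ) • F ∧
      S * Fm = Fm ∧ Fm * S = Fm ∧ F0 * S = S * F0 ∧
      -- the scaling operator `a = S e^{-sg}`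
      a = ((Φ (S * dgM (fun m => Real.exp (-s * g m))) :
        EuclideanSpace ℂ ι →L[ℂ] EuclideanSpace ℂ ι) : EuclideanSpace ℂ ι →ₗ[ℂ] EuclideanSpace ℂ ι) ∧
      (∀ v, a v = Φ S (mulD (fun m => Real.exp (-s * g m)) v)) ∧
      BlockDiag win a ∧
      ((∀ i, 0 ≤ g i) → ∀ v, ‖a v‖ ≤ ‖v‖) ∧
      (∀ G : ℝ, (∀ i, g i ≤ G) → ∀ v, Real.exp (-(w + s * G)) * ‖v‖ ≤ ‖a v‖) ∧
      -- sign projections of R - 1/2, R = winComp win P, P = pm (E.map a)
      Commute F (winComp win (pm (E.map a))) ∧ Commute F0 (winComp win (pm (E.map a))) ∧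
      Commute Fm (winComp win (pm (E.map a))) ∧
      (1 / 2 : ℂ) • F ≤ F * winComp win (pm (E.map a)) ∧
      F0 * winComp win (pm (E.map a)) = (1 / 2 : ℂ) • F0 ∧
      Fm * winComp win (pm (E.map a)) ≤ (1 / 2 : ℂ) • Fm ∧
      -- the g-flux inequality
      ∑ i, dg (E.map a) i * g i ≤ ∑ i, dg E i * g i + θ * Fintype.card ι := by
  obtain ⟨s, S, S', P, F, F0, Fm, b1, b2, b3, b4, b5, b6, b7, b8, b9, b10, b11, b12, b13, b14,
    b15, b16, b17, b18, b19, b20, b21, b22, b23, b24, b25, b26, b27, ⟨Y, b28⟩, b29, b30, b31, b32,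
    b33, b34, b35⟩ := min_matrix win (pm E) (pm_proj E) g hgw w θ hw hθ
  obtain ⟨a, ha⟩ : ∃ a : EuclideanSpace ℂ ι →ₗ[ℂ] EuclideanSpace ℂ ι,
    a = ((Φ (S * dgM (fun m => Real.exp (-s * g m))) :
        EuclideanSpace ℂ ι →L[ℂ] EuclideanSpace ℂ ι) :
        EuclideanSpace ℂ ι →ₗ[ℂ] EuclideanSpace ℂ ι) := ⟨_, rfl⟩
  have hav : ∀ v, a v = Φ (S * dgM (fun m => Real.exp (-s * g m))) v := by
    intro v; rw [ha]; rfl
  have hav2 : ∀ v, a v = Φ S (mulD (fun m => Real.exp (-s * g m)) v) := by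
    intro v; rw [hav, Φ_mul, Φ_dgM]
  have hPm : P = pm (E.map a) := by
    apply eq_pm_of b26
    · intro v
      rw [b28, Φ_mul, Φ_mul, ← hav]
      refine Submodule.mem_map_of_mem ?_
      rw [Φ_pm]
      exact Submodule.starProjection_apply_mem _ _
    · rintro v ⟨e, he, rfl⟩
      have h1 : Φ (pm E) e = e := by
        rw [Φ_pm]
        exact Submodule.starProjection_eq_self_iff.mpr he
      rw [hav]
      nth_rewrite 1 [← h1]
      nth_rewrite 2 [← h1]
      rw [← Φ_mul, ← Φ_mul, Matrix.mul_assoc, b27, Φ_mul]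
  rw [hPm] at b29 b30 b31 b32 b33 b34 b35
  have hS1 := norm_Φ_le b3 b7
  have hS2 := le_norm_Φ b3 (Real.exp_pos (-w)).le b6
  have hF0S : F0 * S = S * F0 := by
    have : F0 = 1 - F - Fm := by rw [← b15]; abel
    rw [this]
    simp only [Matrix.mul_sub, Matrix.sub_mul, Matrix.mul_one, Matrix.one_mul, b22, b23, b24, b25]
  refine ⟨s, S, S', F, F0, Fm, a, b1, b2, b3, b4, b5, b6, b7, hS1, hS2, b8, b9, b10, b11, b12, b13,
    b14, b15, b16, b17, b18, b19, b20, b21, b22, b23, b24, b25, hF0S, ha, hav2, ?_, ?_, ?_, b29,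
    b30, b31, b32, b33, b34, ?_⟩
  · rw [ha]
    exact blockDiag_of_isWin (b8.mul (isWin_dgM _))
  · intro hg0 v
    rw [hav2]
    refine (hS1 _).trans (norm_mulD_le (fun i => (Real.exp_pos _).le) (fun i => ?_) v)
    apply Real.exp_le_one_iff.mpr
    have := mul_nonneg b1 (hg0 i)
    linarith
  · intro G hG v
    rw [hav2]
    have h1 := hS2 (mulD (fun m => Real.exp (-s * g m)) v)
    have h2 := le_norm_mulD (c := Real.exp (-(s * G))) (d := fun m => Real.exp (-s * g m))
      (Real.exp_pos _).le (fun i => by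
        apply Real.exp_le_exp.mpr
        have := mul_le_mul_of_nonneg_left (hG i) b1
        linarith) v
    calc Real.exp (-(w + s * G)) * ‖v‖ = Real.exp (-w) * (Real.exp (-(s * G)) * ‖v‖) := by
          rw [← mul_assoc, ← Real.exp_add]; congr 2; ring
      _ ≤ Real.exp (-w) * ‖mulD (fun m => Real.exp (-s * g m)) v‖ :=
          mul_le_mul_of_nonneg_left h2 (Real.exp_pos _).le
      _ ≤ _ := h1
  · simpa only [pm_apply_self_re] using b35

end Crest.Agent.R113.FD
end

-- ▼ part R113/FD/StructCore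
section

/-!
R113 / T5, part 1: the matrix core of the structure lemma (C).
`P` a projection matrix, `R` its window compression, `F, F0, Fm` the sign projections of `R - 1/2`.
-/

set_option autoImplicit false
set_option linter.unusedSectionVars false

open scoped MatrixOrder ComplexOrder
open Matrix

namespace Crest.Agent.R113.FD.Struct

variable {ι β : Type*} [Fintype ι] [DecidableEq ι] [DecidableEq β]

/-- real part of the trace -/
noncomputable def trR (A : Matrix ι ι ℂ) : ℝ := A.trace.re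

/-- the off-window mass of `P` -/
noncomputable def offW (win : ι → β) (P : Matrix ι ι ℂ) : ℝ :=
  ∑ m, ∑ m', if win m = win m' then 0 else ‖P m m'‖ ^ 2

theorem trR_add (A B : Matrix ι ι ℂ) : trR (A + B) = trR A + trR B := by
  simp [trR, Matrix.trace_add]

theorem trR_sub (A B : Matrix ι ι ℂ) : trR (A - B) = trR A - trR B := by
  simp [trR, Matrix.trace_sub]

theorem trR_smul (c : ℝ) (A : Matrix ι ι ℂ) : trR ((c : ℂ) • A) = c * trR A := by
  simp [trR, Matrix.trace_smul]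

theorem trR_half (A : Matrix ι ι ℂ) : trR ((1 / 2 : ℂ) • A) = 1 / 2 * trR A := by
  have : (1 / 2 : ℂ) = ((1 / 2 : ℝ) : ℂ) := by push_cast; ring
  rw [this, trR_smul]

/-- trace of a product of two positive semidefinite matrices is nonnegative -/
theorem trR_mul_nonneg {A B : Matrix ι ι ℂ} (hA : A.PosSemidef) (hB : B.PosSemidef) :
    0 ≤ trR (A * B) := by
  have hA' : 0 ≤ A := hA.nonneg
  set C := CFC.sqrt A with hCdef
  have hC : C * C = A := CFC.sqrt_mul_sqrt_self A hA'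
  have hCh : Cᴴ = C := (CFC.sqrt_nonneg A).isSelfAdjoint
  have h1 : (A * B).trace = (C * B * Cᴴ).trace := by
    rw [hCh, ← hC, Matrix.mul_assoc, Matrix.trace_mul_comm C, Matrix.mul_assoc]
  have h2 : (C * B * Cᴴ).PosSemidef := hB.mul_mul_conjTranspose_same C
  have h3 : 0 ≤ (C * B * Cᴴ).trace := h2.trace_nonneg
  unfold trR
  rw [h1]
  exact (Complex.le_def.1 h3).1

/-- the window compression -/
def comp (win : ι → β) (P : Matrix ι ι ℂ) : Matrix ι ι ℂ :=
  Matrix.of fun m m' => if win m = win m' then P m m' else 0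

theorem comp_apply (win : ι → β) (P : Matrix ι ι ℂ) (m m' : ι) :
    comp win P m m' = if win m = win m' then P m m' else 0 := rfl

theorem comp_eq_sum (win : ι → β) (P : Matrix ι ι ℂ) :
    comp win P = ∑ b ∈ Finset.univ.image win,
      (Matrix.diagonal fun m => if win m = b then (1 : ℂ) else 0)ᴴ * P *
        (Matrix.diagonal fun m => if win m = b then (1 : ℂ) else 0) := by
  ext m m'
  rw [Matrix.sum_apply]
  simp only [comp_apply, Matrix.diagonal_conjTranspose, Matrix.mul_diagonal, Matrix.diagonal_mul]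
  have : ∀ b, star (fun m => if win m = b then (1 : ℂ) else 0) m * P m m' *
      (if win m' = b then (1 : ℂ) else 0) =
      if b = win m then (if win m = win m' then P m m' else 0) else 0 := by
    intro b
    by_cases h1 : win m = b
    · subst h1
      by_cases h2 : win m' = win m
      · simp [h2, Pi.star_apply]
      · have h3 : ¬ (win m = win m') := fun h => h2 h.symm
        simp [h2, h3, Pi.star_apply]
    · have h2 : ¬ (b = win m) := fun h => h1 h.symm
      simp [h1, h2, Pi.star_apply]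
  simp only [this]
  rw [Finset.sum_ite_eq' (Finset.univ.image win) (win m)]
  simp

theorem comp_posSemidef (win : ι → β) {P : Matrix ι ι ℂ} (hP : P.PosSemidef) :
    (comp win P).PosSemidef := by
  rw [comp_eq_sum]
  exact Matrix.posSemidef_sum _ (fun b _ => hP.conjTranspose_mul_mul_same _)

theorem comp_one (win : ι → β) : comp win (1 : Matrix ι ι ℂ) = 1 := by
  ext m m'
  rw [comp_apply, Matrix.one_apply]
  by_cases h : m = m'
  · subst h; simp
  · simp [h]

theorem comp_sub (win : ι → β) (A B : Matrix ι ι ℂ) : comp win (A - B) = comp win A - comp win B := by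
  ext m m'
  simp only [comp_apply, Matrix.sub_apply]
  split_ifs <;> simp

theorem trR_comp (win : ι → β) (P : Matrix ι ι ℂ) : trR (comp win P) = trR P := by
  simp [trR, Matrix.trace, comp_apply]

/-- `tr (P G) = tr (R G)` for window-block-diagonal `G` -/
theorem trR_mul_win (win : ι → β) (P G : Matrix ι ι ℂ)
    (hG : ∀ m m', win m ≠ win m' → G m m' = 0) : trR (P * G) = trR (comp win P * G) := by
  unfold trR
  congr 1
  simp only [Matrix.trace, Matrix.diag_apply, Matrix.mul_apply]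
  refine Finset.sum_congr rfl fun m _ => Finset.sum_congr rfl fun m' _ => ?_
  rw [comp_apply]
  split_ifs with h
  · rfl
  · rw [hG m' m (fun h' => h h'.symm)]; ring

theorem trR_sq_of_isHermitian {A : Matrix ι ι ℂ} (hA : A.IsHermitian) :
    trR (A * A) = ∑ m, ∑ m', ‖A m m'‖ ^ 2 := by
  unfold trR
  simp only [Matrix.trace, Matrix.diag_apply, Matrix.mul_apply, Complex.re_sum]
  refine Finset.sum_congr rfl fun m _ => Finset.sum_congr rfl fun m' _ => ?_
  have : A m' m = star (A m m') := by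
    rw [← Matrix.conjTranspose_apply, hA.eq]
  rw [this]
  rw [Complex.star_def, Complex.mul_conj, Complex.ofReal_re, Complex.normSq_eq_norm_sq]

/-- `tr (R - R²) = Off(P)` -/
theorem trR_comp_sub_sq (win : ι → β) {P : Matrix ι ι ℂ} (hP : IsStarProjection P) :
    trR (comp win P - comp win P * comp win P) = offW win P := by
  have hPh : P.IsHermitian := hP.isSelfAdjoint
  have hRh : (comp win P).IsHermitian := by
    ext m m'
    rw [Matrix.conjTranspose_apply, comp_apply, comp_apply]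
    by_cases h : win m = win m'
    · rw [if_pos h, if_pos h.symm, ← Matrix.conjTranspose_apply, hPh.eq]
    · rw [if_neg h, if_neg (fun h' => h h'.symm)]; simp
  have h1 : trR (comp win P) = ∑ m, ∑ m', ‖P m m'‖ ^ 2 := by
    rw [trR_comp, ← trR_sq_of_isHermitian hPh]
    congr 1
    exact hP.isIdempotentElem.symm
  rw [trR_sub, h1, trR_sq_of_isHermitian hRh, ← Finset.sum_sub_distrib]
  unfold offW
  refine Finset.sum_congr rfl fun m _ => ?_
  rw [← Finset.sum_sub_distrib]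
  refine Finset.sum_congr rfl fun m' _ => ?_
  rw [comp_apply]
  split_ifs <;> simp

theorem psd_of_proj {P : Matrix ι ι ℂ} (hP : IsStarProjection P) : P.PosSemidef := by
  have h : P = Pᴴ * P := by
    have h1 : Pᴴ = P := hP.isSelfAdjoint
    rw [h1]; exact hP.isIdempotentElem.symm
  rw [h]
  exact Matrix.posSemidef_conjTranspose_mul_self P

theorem psd_one_sub_of_proj {P : Matrix ι ι ℂ} (hP : IsStarProjection P) : (1 - P).PosSemidef :=
  psd_of_proj hP.one_sub

/-- the matrix core of (C). -/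
theorem core (win : ι → β) (P F F0 Fm : Matrix ι ι ℂ) (hP : IsStarProjection P)
    (hF : IsStarProjection F) (hF0 : IsStarProjection F0) (hFm : IsStarProjection Fm)
    (hsum : F + F0 + Fm = 1)
    (hwF : ∀ m m', win m ≠ win m' → F m m' = 0)
    (h1 : (1 / 2 : ℂ) • F ≤ F * comp win P) (h0 : F0 * comp win P = (1 / 2 : ℂ) • F0)
    (h2 : Fm * comp win P ≤ (1 / 2 : ℂ) • Fm) :
    trR F0 ≤ 4 * offW win P ∧ trR (P * (1 - F)) ≤ 2 * offW win P ∧
      trR F - trR P ≤ 2 * offW win P ∧ trR P - trR F ≤ 2 * offW win P := by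
  set R := comp win P with hR
  have hRp : R.PosSemidef := comp_posSemidef win (psd_of_proj hP)
  have hR1 : (1 - R).PosSemidef := by
    have : 1 - R = comp win (1 - P) := by rw [comp_sub, comp_one]
    rw [this]; exact comp_posSemidef win (psd_one_sub_of_proj hP)
  have a1 : (F * R - (1 / 2 : ℂ) • F).PosSemidef := h1
  have a2 : ((1 / 2 : ℂ) • Fm - Fm * R).PosSemidef := h2
  have t1 : 0 ≤ trR ((F * R - (1 / 2 : ℂ) • F) * (1 - R)) := trR_mul_nonneg a1 hR1
  have t2 : 0 ≤ trR (((1 / 2 : ℂ) • Fm - Fm * R) * R) := trR_mul_nonneg a2 hRp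
  have e1 : (F * R - (1 / 2 : ℂ) • F) * (1 - R) = F * (R - R * R) - (1 / 2 : ℂ) • (F * (1 - R)) := by
    simp only [sub_mul, mul_sub, mul_one, smul_mul_assoc, smul_sub, Matrix.mul_assoc]
    abel
  have e2 : ((1 / 2 : ℂ) • Fm - Fm * R) * R = Fm * (R - R * R) - (1 / 2 : ℂ) • (Fm * R) := by
    have : (Fm * R : Matrix ι ι ℂ) = (1 / 2 : ℂ) • (Fm * R) + (1 / 2 : ℂ) • (Fm * R) := by
      rw [← add_smul]; norm_num
    simp only [sub_mul, mul_sub, smul_mul_assoc, Matrix.mul_assoc]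
    nth_rewrite 2 [this]
    abel
  have e0 : F0 * (R - R * R) = (1 / 2 : ℂ) • ((1 / 2 : ℂ) • F0) := by
    rw [mul_sub, ← Matrix.mul_assoc, h0, smul_mul_assoc, h0, ← sub_eq_zero]
    rw [smul_smul]
    have : (1 / 2 : ℂ) • F0 = (1 / 2 * (1 / 2) : ℂ) • F0 + (1 / 2 * (1 / 2) : ℂ) • F0 := by
      rw [← add_smul]; norm_num
    nth_rewrite 1 [this]
    abel
  rw [e1, trR_sub, trR_half] at t1
  rw [e2, trR_sub, trR_half] at t2
  have t0 : trR (F0 * (R - R * R)) = 1 / 4 * trR F0 := by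
    rw [e0, trR_half, trR_half]; ring
  have p0 : 0 ≤ trR F0 := by
    have := trR_mul_nonneg (psd_of_proj hF0) (psd_of_proj hF0)
    rwa [hF0.isIdempotentElem.eq] at this
  have p1 : 0 ≤ trR (F * (1 - R)) := trR_mul_nonneg (psd_of_proj hF) hR1
  have p2 : 0 ≤ trR (Fm * R) := trR_mul_nonneg (psd_of_proj hFm) hRp
  have hoff : offW win P = trR (F * (R - R * R)) + trR (F0 * (R - R * R)) +
      trR (Fm * (R - R * R)) := by
    rw [← trR_comp_sub_sq win hP, ← trR_add, ← trR_add, ← add_mul, ← add_mul, hsum, one_mul]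
  have q0 : trR (F0 * R) = 1 / 2 * trR F0 := by rw [h0, trR_half]
  have hw1 : ∀ m m', win m ≠ win m' → (1 - F) m m' = 0 := by
    intro m m' h
    have : m ≠ m' := fun h' => h (by rw [h'])
    rw [Matrix.sub_apply, hwF m m' h, Matrix.one_apply_ne this, sub_zero]
  have q1 : trR (P * (1 - F)) = trR (F0 * R) + trR (Fm * R) := by
    rw [trR_mul_win win P (1 - F) hw1, ← trR_add]
    unfold trR
    rw [Matrix.trace_mul_comm, ← add_mul]
    congr 3
    rw [← hsum]; abel
  have q2 : trR F - trR P = trR (F * (1 - R)) - trR (P * (1 - F)) := by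
    have hc : trR (P * F) = trR (F * R) := by
      rw [trR_mul_win win P F hwF]
      unfold trR
      rw [Matrix.trace_mul_comm]
    rw [mul_sub, mul_sub, mul_one, mul_one, trR_sub, trR_sub, hc]
    ring
  refine ⟨?_, ?_, ?_, ?_⟩ <;> nlinarith

end Crest.Agent.R113.FD.Struct
end

-- ▼ part R113/FD/Struct
section

/-!
R113 / T5 : the structure lemma (C), subspace form.
-/

set_option autoImplicit false
set_option linter.unusedSectionVars false

open scoped MatrixOrder ComplexOrder InnerProductSpace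
open Matrix Module

namespace Crest.Agent.R113.FD.Struct

section abstract_part

variable {E : Type*} [NormedAddCommGroup E] [InnerProductSpace ℂ E] [FiniteDimensional ℂ E]

/-- compression of an operator to a subspace -/
noncomputable def cmp (X : Submodule ℂ E) (A : E →ₗ[ℂ] E) : X →ₗ[ℂ] X :=
  (X.orthogonalProjectionOnto : E →ₗ[ℂ] X) ∘ₗ A ∘ₗ X.subtype

theorem inner_cmp (X : Submodule ℂ E) (A : E →ₗ[ℂ] E) (x y : X) :
    ⟪x, cmp X A y⟫_ℂ = ⟪(x : E), A y⟫_ℂ := by
  unfold cmp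
  simp only [LinearMap.comp_apply, Submodule.subtype_apply, ContinuousLinearMap.coe_coe]
  rw [Submodule.coe_inner]
  have : ⟪(x : E), A y - (X.orthogonalProjectionOnto (A y) : E)⟫_ℂ = 0 := by
    have h := Submodule.sub_starProjection_mem_orthogonal (K := X) (A y)
    exact (Submodule.mem_orthogonal X _).1 h x x.2
  rw [inner_sub_right, sub_eq_zero] at this
  exact this.symm

theorem cmp_symm (X : Submodule ℂ E) {A : E →ₗ[ℂ] E} (hA : A.IsSymmetric) :
    (cmp X A).IsSymmetric := by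
  intro x y
  rw [inner_cmp, ← inner_conj_symm, inner_cmp, inner_conj_symm]
  exact hA x y

theorem trace_cmp (X : Submodule ℂ E) (A : E →ₗ[ℂ] E) :
    LinearMap.trace ℂ X (cmp X A) = LinearMap.trace ℂ E ((X.starProjection : E →ₗ[ℂ] E) ∘ₗ A) := by
  unfold cmp
  rw [LinearMap.trace_comp_comm']
  rw [LinearMap.comp_assoc, LinearMap.trace_comp_comm' A]
  rfl

/-- spectral subspace of the compression, complementary form -/
theorem exists_sub_le (X : Submodule ℂ E) (A : E →ₗ[ℂ] E)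
    (hA : ∀ x y, ⟪A x, y⟫_ℂ = ⟪x, A y⟫_ℂ) (hpos : ∀ v, 0 ≤ (⟪v, A v⟫_ℂ).re) :
    ∃ X' : Submodule ℂ E, X' ≤ X ∧
      (finrank ℂ X : ℝ) ≤ finrank ℂ X' +
        2 * (LinearMap.trace ℂ E ((X.starProjection : E →ₗ[ℂ] E) ∘ₗ A)).re ∧
      ∀ v ∈ X', (⟪v, A v⟫_ℂ).re ≤ 1 / 2 * ‖v‖ ^ 2 := by
  classical
  set T := cmp X A with hT
  have hTs : T.IsSymmetric := cmp_symm X hA
  set n := finrank ℂ X with hn
  set b := hTs.eigenvectorBasis hn.symm with hb
  set lam := hTs.eigenvalues hn.symm with hlam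
  have hTb : ∀ i, T (b i) = ((lam i : ℝ) : ℂ) • b i := fun i => hTs.apply_eigenvectorBasis hn.symm i
  have hlam0 : ∀ i, 0 ≤ lam i := by
    intro i
    have h1 := hpos (b i : E)
    rw [← inner_cmp X A (b i) (b i), ← hT, hTb i, inner_smul_right] at h1
    have h2 : ⟪b i, b i⟫_ℂ = 1 := by
      rw [inner_self_eq_norm_sq_to_K, b.norm_eq_one]; simp
    rw [h2] at h1
    simpa using h1
  have hexp : ∀ x : X, (⟪x, T x⟫_ℂ).re = ∑ i, lam i * ‖b.repr x i‖ ^ 2 := by
    intro x
    have h1 : ⟪x, T x⟫_ℂ = ∑ i, ⟪x, b i⟫_ℂ * ⟪b i, T x⟫_ℂ := (b.sum_inner_mul_inner x (T x)).symm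
    rw [h1, Complex.re_sum]
    refine Finset.sum_congr rfl fun i _ => ?_
    have h2 : ⟪b i, T x⟫_ℂ = (lam i : ℂ) * ⟪b i, x⟫_ℂ := by
      rw [← hTs (b i) x, hTb i, inner_smul_left]
      simp
    rw [h2, b.repr_apply_apply]
    have h3 : ⟪x, b i⟫_ℂ * ((lam i : ℂ) * ⟪b i, x⟫_ℂ) = ((lam i * ‖⟪b i, x⟫_ℂ‖ ^ 2 : ℝ) : ℂ) := by
      rw [← inner_conj_symm x (b i)]
      have : (starRingEnd ℂ) ⟪b i, x⟫_ℂ * ⟪b i, x⟫_ℂ = ((‖⟪b i, x⟫_ℂ‖ ^ 2 : ℝ) : ℂ) := by
        rw [mul_comm, Complex.mul_conj, Complex.normSq_eq_norm_sq]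
      calc (starRingEnd ℂ) ⟪b i, x⟫_ℂ * ((lam i : ℂ) * ⟪b i, x⟫_ℂ)
          = (lam i : ℂ) * ((starRingEnd ℂ) ⟪b i, x⟫_ℂ * ⟪b i, x⟫_ℂ) := by ring
        _ = _ := by rw [this]; push_cast; ring
    rw [h3, Complex.ofReal_re]
  -- indices with large eigenvalue
  set I : Finset (Fin n) := Finset.univ.filter fun i => 1 / 2 < lam i with hI
  let φ : X →ₗ[ℂ] (I → ℂ) :=
    { toFun := fun x i => b.repr x i.1
      map_add' := by intro x y; ext i; simp
      map_smul' := by intro c x; ext i; simp }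
  have hcard : (I.card : ℝ) ≤
      2 * (LinearMap.trace ℂ E ((X.starProjection : E →ₗ[ℂ] E) ∘ₗ A)).re := by
    rw [← trace_cmp, ← hT]
    have h1 := hTs.re_trace_eq_sum_eigenvalues hn.symm
    have h2 : (LinearMap.trace ℂ X T).re = ∑ i, lam i := h1
    rw [h2]
    have h3 : ∑ i ∈ I, (1 / 2 : ℝ) ≤ ∑ i ∈ I, lam i :=
      Finset.sum_le_sum fun i hi => (Finset.mem_filter.1 hi).2.le
    have h4 : ∑ i ∈ I, lam i ≤ ∑ i, lam i :=
      Finset.sum_le_sum_of_subset_of_nonneg (Finset.subset_univ _) fun i _ _ => hlam0 i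
    rw [Finset.sum_const, nsmul_eq_mul] at h3
    linarith
  refine ⟨(LinearMap.ker φ).map X.subtype, ?_, ?_, ?_⟩
  · exact Submodule.map_subtype_le X _
  · have h1 := LinearMap.finrank_range_add_finrank_ker φ
    have h2 : finrank ℂ (LinearMap.range φ) ≤ I.card := by
      have := Submodule.finrank_le (LinearMap.range φ)
      simpa using this
    have h3 : finrank ℂ ((LinearMap.ker φ).map X.subtype) = finrank ℂ (LinearMap.ker φ) :=
      ((Submodule.equivMapOfInjective X.subtype (Submodule.injective_subtype X) _).finrank_eq).symm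
    rw [h3]
    have h4 : (finrank ℂ X : ℝ) ≤ I.card + finrank ℂ (LinearMap.ker φ) := by
      have : finrank ℂ X ≤ I.card + finrank ℂ (LinearMap.ker φ) := by omega
      exact_mod_cast this
    rw [← hn] at h4
    linarith
  · rintro v ⟨x, hx, rfl⟩
    have h1 : (⟪(x : E), A x⟫_ℂ).re = ∑ i, lam i * ‖b.repr x i‖ ^ 2 := by
      rw [← inner_cmp, ← hT, hexp]
    rw [Submodule.subtype_apply, h1]
    have h2 : ‖(x : E)‖ ^ 2 = ∑ i, ‖b.repr x i‖ ^ 2 := by
      have : ‖(x : E)‖ = ‖x‖ := rfl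
      rw [this, ← b.repr.norm_map x, EuclideanSpace.norm_sq_eq]
    rw [h2, Finset.mul_sum]
    refine Finset.sum_le_sum fun i _ => ?_
    by_cases hi : 1 / 2 < lam i
    · have h0 : b.repr x i = 0 := by
        have := congrFun (LinearMap.mem_ker.1 hx) ⟨i, Finset.mem_filter.2 ⟨Finset.mem_univ _, hi⟩⟩
        exact this
      rw [h0]; simp
    · push Not at hi
      exact mul_le_mul_of_nonneg_right hi (by positivity)

end abstract_part

variable {ι β : Type*} [Fintype ι] [DecidableEq ι] [DecidableEq β]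

/-- the operator of a matrix -/
noncomputable abbrev op (M : Matrix ι ι ℂ) : EuclideanSpace ℂ ι →L[ℂ] EuclideanSpace ℂ ι :=
  toEuclideanCLM (n := ι) (𝕜 := ℂ) M

theorem op_mul_apply (M N : Matrix ι ι ℂ) (v : EuclideanSpace ℂ ι) :
    op (M * N) v = op M (op N v) := by
  rw [op, map_mul]; rfl

theorem op_add_apply (M N : Matrix ι ι ℂ) (v : EuclideanSpace ℂ ι) :
    op (M + N) v = op M v + op N v := by
  rw [op, map_add]; rfl

theorem op_sub_apply (M N : Matrix ι ι ℂ) (v : EuclideanSpace ℂ ι) :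
    op (M - N) v = op M v - op N v := by
  rw [op, map_sub]; rfl

theorem op_one_apply (v : EuclideanSpace ℂ ι) : op (1 : Matrix ι ι ℂ) v = v := by
  rw [op, map_one]; rfl

theorem op_zero_apply (v : EuclideanSpace ℂ ι) : op (0 : Matrix ι ι ℂ) v = 0 := by
  rw [op, map_zero]; rfl

theorem op_smul_apply (c : ℂ) (M : Matrix ι ι ℂ) (v : EuclideanSpace ℂ ι) :
    op (c • M) v = c • op M v := by
  rw [op, map_smul]; rfl

theorem trace_op (M : Matrix ι ι ℂ) :
    LinearMap.trace ℂ (EuclideanSpace ℂ ι)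
      (op M : EuclideanSpace ℂ ι →ₗ[ℂ] EuclideanSpace ℂ ι) = M.trace := by
  have := Matrix.trace_toLin_eq M (EuclideanSpace.basisFun ι ℂ).toBasis
  rw [← this]
  congr 1

theorem finrank_of_proj {P : Matrix ι ι ℂ} {X : Submodule ℂ (EuclideanSpace ℂ ι)}
    (hX : op P = X.starProjection) : (finrank ℂ X : ℝ) = trR P := by
  have h1 : LinearMap.IsProj X
      (X.starProjection : EuclideanSpace ℂ ι →ₗ[ℂ] EuclideanSpace ℂ ι) := by
    constructor
    · intro x; exact Submodule.starProjection_apply_mem X x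
    · intro x hx; exact Submodule.starProjection_eq_self_iff.2 hx
  have h2 := h1.trace
  rw [← hX, trace_op] at h2
  rw [trR, h2]; simp

/-- a star projection matrix is the orthogonal projection on its range -/
theorem op_eq_starProjection {P : Matrix ι ι ℂ} (hP : IsStarProjection P) :
    op P = ((op P).range).starProjection := by
  have h : IsStarProjection (op P) := hP.map (toEuclideanCLM (n := ι) (𝕜 := ℂ))
  obtain ⟨_, h2⟩ := isStarProjection_iff_eq_starProjection_range.1 h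
  exact h2


theorem proj_symm {G : Matrix ι ι ℂ} (hG : IsStarProjection G) (x y : EuclideanSpace ℂ ι) :
    ⟪op G x, y⟫_ℂ = ⟪x, op G y⟫_ℂ := by
  have : IsStarProjection (op G) := hG.map (toEuclideanCLM (n := ι) (𝕜 := ℂ))
  exact ContinuousLinearMap.isSelfAdjoint_iff_isSymmetric.1 this.isSelfAdjoint x y

theorem proj_inner {G : Matrix ι ι ℂ} (hG : IsStarProjection G) (v : EuclideanSpace ℂ ι) :
    ⟪v, op G v⟫_ℂ = ((‖op G v‖ ^ 2 : ℝ) : ℂ) := by
  have h3 := proj_symm hG v (op G v)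
  rw [← op_mul_apply, hG.isIdempotentElem.eq] at h3
  rw [← h3, inner_self_eq_norm_sq_to_K]
  push_cast; rfl

/-- codimension of the kernel of a projection -/
theorem finrank_inf_ker {G : Matrix ι ι ℂ} (hG : IsStarProjection G)
    (X : Submodule ℂ (EuclideanSpace ℂ ι)) :
    (finrank ℂ X : ℝ) ≤ finrank ℂ (X ⊓ LinearMap.ker
      (op G : EuclideanSpace ℂ ι →ₗ[ℂ] EuclideanSpace ℂ ι) : Submodule ℂ (EuclideanSpace ℂ ι)) +
        trR G := by
  set K : Submodule ℂ (EuclideanSpace ℂ ι) := LinearMap.ker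
      (op G : EuclideanSpace ℂ ι →ₗ[ℂ] EuclideanSpace ℂ ι) with hK
  have hrk : (finrank ℂ (LinearMap.range (op G : EuclideanSpace ℂ ι →ₗ[ℂ] EuclideanSpace ℂ ι)) : ℝ)
      = trR G := finrank_of_proj (op_eq_starProjection hG)
  have hrn := LinearMap.finrank_range_add_finrank_ker
    (op G : EuclideanSpace ℂ ι →ₗ[ℂ] EuclideanSpace ℂ ι)
  have hinf := Submodule.finrank_sup_add_finrank_inf_eq X K
  have hsupe : finrank ℂ (X ⊔ K : Submodule ℂ (EuclideanSpace ℂ ι)) ≤
      finrank ℂ (EuclideanSpace ℂ ι) := Submodule.finrank_le _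
  rw [← hrk]
  have : finrank ℂ X ≤ finrank ℂ (X ⊓ K : Submodule ℂ (EuclideanSpace ℂ ι)) +
      finrank ℂ (LinearMap.range (op G : EuclideanSpace ℂ ι →ₗ[ℂ] EuclideanSpace ℂ ι)) := by
    rw [← hK] at hrn
    omega
  exact_mod_cast this

/-- the vector computation -/
theorem vec_bound (w : ℝ) (S' F F0 Fm : Matrix ι ι ℂ)
    (hF : IsStarProjection F) (hsum : F + F0 + Fm = 1) (hFFm : F * Fm = 0)
    (hS'F : S' * F = (Real.exp w : ℂ) • F) (hS'Fm : S' * Fm = Fm)
    (XF : Submodule ℂ (EuclideanSpace ℂ ι)) (hXF : op F = XF.starProjection)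
    (u : EuclideanSpace ℂ ι) (huK : op F0 u = 0)
    (hu : ‖op (1 - F) u‖ ^ 2 ≤ 1 / 2 * ‖u‖ ^ 2) :
    ‖op S' u - XF.starProjection (op S' u)‖ ≤
      Real.exp (-w) * ‖XF.starProjection (op S' u)‖ := by
  have hdec : u = op F u + op Fm u := by
    have h3 : op (F + F0 + Fm) u = u := by rw [hsum, op_one_apply]
    rw [op_add_apply, op_add_apply, huK, add_zero] at h3
    exact h3.symm
  have hGu : op (1 - F) u = op Fm u := by
    rw [op_sub_apply, op_one_apply]
    nth_rewrite 1 [hdec]; abel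
  have hnG : ‖op Fm u‖ ^ 2 ≤ 1 / 2 * ‖u‖ ^ 2 := by
    rw [hGu] at hu
    exact hu
  have hpyth : ‖u‖ ^ 2 = ‖op F u‖ ^ 2 + ‖op Fm u‖ ^ 2 := by
    have h3 : ‖u‖ ^ 2 = ‖XF.starProjection u‖ ^ 2 + ‖XFᗮ.starProjection u‖ ^ 2 :=
      Submodule.norm_sq_eq_add_norm_sq_starProjection u XF
    have h4 : XFᗮ.starProjection u = op Fm u := by
      rw [← hGu, op_sub_apply, op_one_apply, hXF]
      exact Submodule.starProjection_orthogonal_val u
    rw [h4, ← hXF] at h3
    exact h3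
  have hle : ‖op Fm u‖ ≤ ‖op F u‖ := by
    have h3 : ‖op Fm u‖ ^ 2 ≤ ‖op F u‖ ^ 2 := by linarith
    exact (sq_le_sq₀ (norm_nonneg _) (norm_nonneg _)).1 h3
  have hv : op S' u = (Real.exp w : ℂ) • op F u + op Fm u := by
    conv_lhs => rw [hdec]
    rw [map_add, ← op_mul_apply, ← op_mul_apply, hS'F, hS'Fm, op_smul_apply]
  have hFv : op F (op S' u) = (Real.exp w : ℂ) • op F u := by
    rw [hv, map_add, map_smul, ← op_mul_apply, ← op_mul_apply, hF.isIdempotentElem.eq, hFFm,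
      op_zero_apply, add_zero]
  rw [← hXF, hFv, hv, add_sub_cancel_left, norm_smul]
  have h3 : ‖(Real.exp w : ℂ)‖ = Real.exp w := by
    rw [Complex.norm_real, Real.norm_eq_abs, abs_of_pos (Real.exp_pos _)]
  rw [h3, ← mul_assoc, ← Real.exp_add]
  simpa using hle

theorem trace_pj_comp (P G : Matrix ι ι ℂ) (X : Submodule ℂ (EuclideanSpace ℂ ι))
    (hX : op P = X.starProjection) :
    (LinearMap.trace ℂ (EuclideanSpace ℂ ι)
      ((X.starProjection : EuclideanSpace ℂ ι →ₗ[ℂ] EuclideanSpace ℂ ι) ∘ₗ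
        (op G : EuclideanSpace ℂ ι →ₗ[ℂ] EuclideanSpace ℂ ι))).re = trR (P * G) := by
  have h : ((X.starProjection : EuclideanSpace ℂ ι →ₗ[ℂ] EuclideanSpace ℂ ι) ∘ₗ
        (op G : EuclideanSpace ℂ ι →ₗ[ℂ] EuclideanSpace ℂ ι)) =
      (op (P * G) : EuclideanSpace ℂ ι →ₗ[ℂ] EuclideanSpace ℂ ι) := by
    ext v
    simp only [LinearMap.comp_apply, ContinuousLinearMap.coe_coe]
    rw [op_mul_apply, hX]
  rw [h, trace_op, trR]

/-- spectral subspace for a projection matrix `G` -/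
theorem exists_sub_proj (P G : Matrix ι ι ℂ) (hG : IsStarProjection G)
    (X1 : Submodule ℂ (EuclideanSpace ℂ ι)) (hX1 : op P = X1.starProjection) :
    ∃ X' : Submodule ℂ (EuclideanSpace ℂ ι), X' ≤ X1 ∧
      (finrank ℂ X1 : ℝ) ≤ finrank ℂ X' + 2 * trR (P * G) ∧
      ∀ u ∈ X', ‖op G u‖ ^ 2 ≤ 1 / 2 * ‖u‖ ^ 2 := by
  obtain ⟨X', hX'le, hX'dim, hX'⟩ := exists_sub_le X1
    (op G : EuclideanSpace ℂ ι →ₗ[ℂ] EuclideanSpace ℂ ι) (proj_symm hG) (by
      intro v
      have := proj_inner hG v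
      rw [ContinuousLinearMap.coe_coe, this, Complex.ofReal_re]; positivity)
  rw [trace_pj_comp P G X1 hX1] at hX'dim
  refine ⟨X', hX'le, hX'dim, ?_⟩
  intro u hu
  have h := hX' u hu
  rw [ContinuousLinearMap.coe_coe, proj_inner hG u, Complex.ofReal_re] at h
  exact h

/-- selection of the subspace `E2` (before applying `S'`) -/
theorem exists_good (win : ι → β) (P F F0 Fm : Matrix ι ι ℂ)
    (hP : IsStarProjection P) (hF : IsStarProjection F) (hF0 : IsStarProjection F0)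
    (hFm : IsStarProjection Fm) (hsum : F + F0 + Fm = 1)
    (hwF : ∀ m m', win m ≠ win m' → F m m' = 0)
    (h1 : (1 / 2 : ℂ) • F ≤ F * comp win P) (h0 : F0 * comp win P = (1 / 2 : ℂ) • F0)
    (h2 : Fm * comp win P ≤ (1 / 2 : ℂ) • Fm)
    (X1 : Submodule ℂ (EuclideanSpace ℂ ι)) (hX1 : op P = X1.starProjection) :
    ∃ Y : Submodule ℂ (EuclideanSpace ℂ ι), Y ≤ X1 ∧
      (finrank ℂ X1 : ℝ) ≤ finrank ℂ Y + 8 * offW win P ∧
      ∀ u ∈ Y, op F0 u = 0 ∧ ‖op (1 - F) u‖ ^ 2 ≤ 1 / 2 * ‖u‖ ^ 2 := by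
  obtain ⟨c0, c1, c2, c3⟩ := core win P F F0 Fm hP hF hF0 hFm hsum hwF h1 h0 h2
  obtain ⟨X', hX'le, hX'dim, hX'⟩ := exists_sub_proj P (1 - F) hF.one_sub X1 hX1
  have hdimi := finrank_inf_ker hF0 X'
  refine ⟨X' ⊓ LinearMap.ker (op F0 : EuclideanSpace ℂ ι →ₗ[ℂ] EuclideanSpace ℂ ι),
    inf_le_left.trans hX'le, by linarith, ?_⟩
  intro u hu
  exact ⟨LinearMap.mem_ker.1 hu.2, hX' u hu.1⟩

/-- The structure lemma (C). -/
theorem struct_matrix (win : ι → β) (w : ℝ) (S S' P F F0 Fm : Matrix ι ι ℂ)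
    (hS'S : S' * S = 1)
    (hP : IsStarProjection P) (hF : IsStarProjection F) (hF0 : IsStarProjection F0)
    (hFm : IsStarProjection Fm) (hsum : F + F0 + Fm = 1) (hFFm : F * Fm = 0)
    (hwF : ∀ m m', win m ≠ win m' → F m m' = 0)
    (hSF : S * F = (Real.exp (-w) : ℂ) • F) (hSFm : S * Fm = Fm)
    (h1 : (1 / 2 : ℂ) • F ≤ F * comp win P) (h0 : F0 * comp win P = (1 / 2 : ℂ) • F0)
    (h2 : Fm * comp win P ≤ (1 / 2 : ℂ) • Fm)
    (X1 XF : Submodule ℂ (EuclideanSpace ℂ ι)) (hX1 : op P = X1.starProjection)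
    (hXF : op F = XF.starProjection) :
    (finrank ℂ XF : ℝ) ≤ finrank ℂ X1 + 2 * offW win P ∧
    (finrank ℂ X1 : ℝ) ≤ finrank ℂ XF + 2 * offW win P ∧
    ∃ E2 : Submodule ℂ (EuclideanSpace ℂ ι),
      E2 ≤ X1.map (op S' : EuclideanSpace ℂ ι →ₗ[ℂ] EuclideanSpace ℂ ι) ∧
      (finrank ℂ X1 : ℝ) ≤ finrank ℂ E2 + 8 * offW win P ∧
      ∀ v ∈ E2, ‖v - XF.starProjection v‖ ≤ Real.exp (-w) * ‖XF.starProjection v‖ := by
  obtain ⟨c0, c1, c2, c3⟩ := core win P F F0 Fm hP hF hF0 hFm hsum hwF h1 h0 h2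
  obtain ⟨Y, hYle, hYdim, hY⟩ := exists_good win P F F0 Fm hP hF hF0 hFm hsum hwF h1 h0 h2 X1 hX1
  -- injectivity of S'
  have hSS'0 : S * S' = 1 := mul_eq_one_comm.1 hS'S
  have hinj : Function.Injective (op S' : EuclideanSpace ℂ ι →ₗ[ℂ] EuclideanSpace ℂ ι) := by
    intro x y hxy
    have h4 : op S' x = op S' y := hxy
    have h3 : op S (op S' x) = op S (op S' y) := by rw [h4]
    rwa [← op_mul_apply, ← op_mul_apply, hSS'0, op_one_apply, op_one_apply] at h3
  have hS'F : S' * F = (Real.exp w : ℂ) • F := by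
    have h3 : S' * (S * F) = S' * ((Real.exp (-w) : ℂ) • F) := by rw [hSF]
    rw [← Matrix.mul_assoc, hS'S, one_mul, mul_smul_comm] at h3
    have h4 : (Real.exp w : ℂ) • F = (Real.exp w : ℂ) • ((Real.exp (-w) : ℂ) • (S' * F)) := by
      rw [← h3]
    rw [h4, smul_smul, ← Complex.ofReal_mul, ← Real.exp_add]
    simp
  have hS'Fm : S' * Fm = Fm := by
    have h3 : S' * (S * Fm) = S' * Fm := by rw [hSFm]
    rw [← Matrix.mul_assoc, hS'S, one_mul] at h3
    exact h3.symm
  have hdim : (finrank ℂ X1 : ℝ) ≤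
      finrank ℂ (Y.map (op S' : EuclideanSpace ℂ ι →ₗ[ℂ] EuclideanSpace ℂ ι)) +
        8 * offW win P := by
    have h3 : finrank ℂ (Y.map (op S' : EuclideanSpace ℂ ι →ₗ[ℂ] EuclideanSpace ℂ ι)) =
        finrank ℂ Y := ((Submodule.equivMapOfInjective _ hinj _).finrank_eq).symm
    rw [h3]; exact hYdim
  refine ⟨?_, ?_, Y.map (op S' : EuclideanSpace ℂ ι →ₗ[ℂ] EuclideanSpace ℂ ι),
    Submodule.map_mono hYle, hdim, ?_⟩
  · rw [finrank_of_proj hX1, finrank_of_proj hXF]; linarith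
  · rw [finrank_of_proj hX1, finrank_of_proj hXF]; linarith
  · intro v hv
    obtain ⟨u, hu, rfl⟩ := Submodule.mem_map.1 hv
    exact vec_bound w S' F F0 Fm hF hsum hFFm hS'F hS'Fm XF hXF u (hY u hu).1 (hY u hu).2

end Crest.Agent.R113.FD.Struct
end

-- ▼ part R113/Minc

/-! # T04: minimisation + structure — blueprint 6835 (MIN),(C) -/

set_option autoImplicit false

namespace Crest.Agent.R113

open scoped BigOperators MatrixOrder ComplexOrder
open Matrix FD

theorem blockSub_range {ι κ' : Type*} [Fintype ι] [DecidableEq ι] [DecidableEq κ'] (win : ι → κ')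
    {F : Matrix ι ι ℂ} (hF : IsStarProjection F) (hw : IsWin win F) :
    BlockSub win (Φ F).range := by
  intro c v hv
  obtain ⟨u, hu⟩ := hv
  refine ⟨restr {i | win i = c} u, ?_⟩
  have h := blockDiag_of_isWin hw c u
  rw [ContinuousLinearMap.coe_coe] at h
  rw [← hu]
  exact h

theorem offW_eq_offw {ι κ' : Type*} [Fintype ι] [DecidableEq ι] [DecidableEq κ'] (win : ι → κ')
    (X : Submodule ℂ (EuclideanSpace ℂ ι)) : Struct.offW win (pm X) = offw win X := by
  unfold Struct.offW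
  rw [offw_eqna]
  refine Finset.sum_congr rfl fun i _ => Finset.sum_congr rfl fun j _ => ?_
  rw [pm_apply]

theorem minc {q : ℕ} {κ' : Type*} [DecidableEq κ'] (win : Fin q → κ')
    (E : Submodule ℂ (EuclideanSpace ℂ (Fin q))) (g : Fin q → ℝ) (G : ℝ)
    (hg0 : ∀ i, 0 ≤ g i) (hgG : ∀ i, g i ≤ G) (hgw : ∀ i j, win i = win j → g i = g j)
    (w θ : ℝ) (hw : 0 < w) (hθ : 0 < θ) (hq : 0 < q) :
    ∃ (s : ℝ) (a : EuclideanSpace ℂ (Fin q) →ₗ[ℂ] EuclideanSpace ℂ (Fin q))
      (F E2 : Submodule ℂ (EuclideanSpace ℂ (Fin q))),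
      0 ≤ s ∧ s ≤ w / θ ∧ BlockDiag win a ∧ (∀ v, ‖a v‖ ≤ ‖v‖) ∧
      (∀ v, Real.exp (-(w + s * G)) * ‖v‖ ≤ ‖a v‖) ∧ BlockSub win F ∧
      (∑ i, dg (E.map a) i * g i ≤ ∑ i, dg E i * g i + θ * q) ∧
      ((Module.finrank ℂ F : ℝ) ≤ Module.finrank ℂ E + 20 * offw win (E.map a)) ∧
      E2 ≤ E.map (mulD (fun i => Real.exp (-(s * g i)))) ∧
      ((Module.finrank ℂ E : ℝ) ≤ Module.finrank ℂ E2 + 20 * offw win (E.map a)) ∧
      (∀ v ∈ E2, ‖v - F.starProjection v‖ ≤ Real.exp (-w) * ‖F.starProjection v‖) := by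
  obtain ⟨s, S, S', F, F0, Fm, a, hs0, hs1, hSp, hSS', hS'S, -, -, -, -, hwS, hwF, hwF0, hwFm,
    hF, hF0, hFm, hsum, hFF0, hFFm, -, -, -, -, hSF, -, hSFm, -, -, -, hav, hbd, ha1, ha2, -, -, -,
    h1, h0, h2, hflux⟩ := min_sub win E g hgw w θ hw hθ
  obtain ⟨hd1, -, E2, hE2, hd2, hv2⟩ := Struct.struct_matrix win w S S' (pm (E.map a)) F F0 Fm hS'S
    (pm_proj _) hF hF0 hFm hsum hFFm hwF hSF hSFm h1 h0 h2 (E.map a) (Φ F).range (Φ_pm _)
    (Struct.op_eq_starProjection hF)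
  have hoff0 : 0 ≤ offw win (E.map a) := by
    rw [offw_eqna]
    refine Finset.sum_nonneg fun i _ => Finset.sum_nonneg fun j _ => ?_
    split_ifs <;> positivity
  rw [offW_eq_offw] at hd1 hd2
  have hainj : Function.Injective a := by
    rw [← LinearMap.ker_eq_bot, LinearMap.ker_eq_bot']
    intro v hv
    have h := ha2 G hgG v
    rw [hv, norm_zero] at h
    have h3 : 0 < Real.exp (-(w + s * G)) := Real.exp_pos _
    have h4 : ‖v‖ ≤ 0 := by
      by_contra hcon
      push Not at hcon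
      have := mul_pos h3 hcon
      linarith
    exact norm_le_zero_iff.1 h4
  have hfr : Module.finrank ℂ (E.map a) = Module.finrank ℂ E :=
    ((Submodule.equivMapOfInjective a hainj E).finrank_eq).symm
  rw [hfr] at hd1 hd2
  refine ⟨s, a, (Φ F).range, E2, hs0, hs1, hbd, ha1 hg0, ha2 G hgG, blockSub_range win hF hwF,
    ?_, by linarith, ?_, by linarith, hv2⟩
  · simpa using hflux
  · refine hE2.trans ?_
    rintro x ⟨y, ⟨e, he, rfl⟩, rfl⟩
    refine ⟨e, he, ?_⟩
    have h5 : Struct.op S' (a e) = mulD (fun m => Real.exp (-s * g m)) e := by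
      rw [hav]
      change Φ S' (Φ S _) = _
      rw [← Φ_mul, hS'S, map_one]
      rfl
    have h6 : (fun i => Real.exp (-(s * g i))) = fun m => Real.exp (-s * g m) := by
      ext m; ring_nf
    rw [h6]
    exact h5.symm

end Crest.Agent.R113
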