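import Mathlib
import Crest.Agent.R113.Defs

-- ▼ part R113/NearInvAux
section

/-!
Row 113, S0149, task T6 (NI): near invariance of `F` on the good windows.
Blueprint 6835 (NI).
-/

set_option autoImplicit false

namespace Crest.Agent.R113.NI

open Module Submodule

/-! ### spectral split -/

section split

variable {V W : Type*} [NormedAddCommGroup V] [InnerProductSpace ℂ V] [FiniteDimensional ℂ V]
  [NormedAddCommGroup W] [InnerProductSpace ℂ W] [FiniteDimensional ℂ W]

/-- For a linear map `B` and a level `c ≥ 0` the space splits as (vectors with `‖B v‖ ≤ c ‖v‖`) and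
(vectors with `‖B v‖ > c ‖v‖`). -/
theorem exists_split (B : V →ₗ[ℂ] W) (c : ℝ) (hc : 0 ≤ c) :
    ∃ Vle Vgt : Submodule ℂ V, finrank ℂ Vle + finrank ℂ Vgt = finrank ℂ V ∧
      (∀ v ∈ Vle, ‖B v‖ ≤ c * ‖v‖) ∧ (∀ v ∈ Vgt, v ≠ 0 → c * ‖v‖ < ‖B v‖) := by
  classical
  set G : V →ₗ[ℂ] V := LinearMap.adjoint B ∘ₗ B with hG
  have hGs : G.IsSymmetric := by
    intro x y
    simp only [hG, LinearMap.comp_apply]
    rw [LinearMap.adjoint_inner_left, LinearMap.adjoint_inner_right]
  set n := finrank ℂ V with hn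
  set b := hGs.eigenvectorBasis hn.symm with hb
  set lam := hGs.eigenvalues hn.symm with hlam
  have hGb : ∀ i, G (b i) = (lam i : ℂ) • b i := fun i => hGs.apply_eigenvectorBasis hn.symm i
  have hnorm : ∀ v : V, ‖v‖ ^ 2 = ∑ i, ‖b.repr v i‖ ^ 2 := by
    intro v
    rw [← b.repr.norm_map v, EuclideanSpace.norm_sq_eq]
  have hB : ∀ v : V, ‖B v‖ ^ 2 = ∑ i, lam i * ‖b.repr v i‖ ^ 2 := by
    intro v
    have h1 : (‖B v‖ ^ 2 : ℝ) = RCLike.re (inner ℂ v (G v)) := by
      rw [hG, LinearMap.comp_apply, LinearMap.adjoint_inner_right]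
      simp [inner_self_eq_norm_sq_to_K]
      norm_cast
    rw [h1]
    have h2 : G v = ∑ i, ((lam i : ℂ) * b.repr v i) • b i := by
      conv_lhs => rw [← b.sum_repr v]
      rw [map_sum]
      refine Finset.sum_congr rfl fun i _ => ?_
      rw [map_smul, hGb, smul_smul, mul_comm]
    rw [h2, inner_sum, map_sum]
    refine Finset.sum_congr rfl fun i _ => ?_
    rw [inner_smul_right]
    have h3 : inner ℂ v (b i) = (starRingEnd ℂ) (b.repr v i) := by
      rw [b.repr_apply_apply, inner_conj_symm]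
    rw [h3, mul_assoc, Complex.mul_conj, Complex.normSq_eq_norm_sq]
    norm_cast
  -- the two spans
  have key : ∀ (s : Finset (Fin n)) (v : V), v ∈ span ℂ (b '' (s : Set (Fin n))) → ∀ i ∉ s, b.repr v i = 0 := by
    intro s v hv i hi
    induction hv using Submodule.span_induction with
    | mem x hx =>
      obtain ⟨j, hj, rfl⟩ := hx
      have hij : i ≠ j := fun h => hi (h ▸ hj)
      simp [OrthonormalBasis.repr_self, hij]
    | zero => simp
    | add x y _ _ hx hy => simp [hx, hy]
    | smul a x _ hx => simp [hx]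
  have hfr : ∀ s : Finset (Fin n), finrank ℂ (span ℂ (b '' (s : Set (Fin n)))) = s.card := by
    intro s
    have hli : LinearIndependent ℂ (fun i : s => b i) :=
      (b.orthonormal.linearIndependent).comp _ Subtype.val_injective
    have h := finrank_span_eq_card hli
    rw [Set.image_eq_range]
    simpa using h
  let s : Finset (Fin n) := Finset.univ.filter fun i => lam i ≤ c ^ 2
  refine ⟨span ℂ (b '' (s : Set (Fin n))), span ℂ (b '' ((sᶜ : Finset (Fin n)) : Set (Fin n))), ?_, ?_, ?_⟩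
  · rw [hfr, hfr, Finset.card_compl, Fintype.card_fin]
    have := Finset.card_le_univ s
    rw [Fintype.card_fin] at this
    omega
  · intro v hv
    have h1 : ‖B v‖ ^ 2 ≤ (c * ‖v‖) ^ 2 := by
      rw [mul_pow, hB, hnorm, Finset.mul_sum]
      refine Finset.sum_le_sum fun i _ => ?_
      by_cases hi : i ∈ s
      · exact mul_le_mul_of_nonneg_right (Finset.mem_filter.1 hi).2 (by positivity)
      · rw [key s v hv i hi]; simp
    exact le_of_sq_le_sq h1 (by positivity)
  · intro v hv hv0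
    have hne : ∃ i, b.repr v i ≠ 0 := by
      by_contra h
      push Not at h
      apply hv0
      rw [← b.sum_repr v]
      simp [h]
    obtain ⟨i0, hi0⟩ := hne
    have hi0s : i0 ∈ sᶜ := by
      by_contra h
      exact hi0 (key sᶜ v hv i0 h)
    have h1 : (c * ‖v‖) ^ 2 < ‖B v‖ ^ 2 := by
      rw [mul_pow, hB, hnorm, Finset.mul_sum]
      refine Finset.sum_lt_sum (fun i _ => ?_) ⟨i0, Finset.mem_univ _, ?_⟩
      · by_cases hi : i ∈ sᶜ
        · have : c ^ 2 < lam i := by
            have := Finset.mem_compl.1 hi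
            simp only [s, Finset.mem_filter, Finset.mem_univ, true_and, not_le] at this
            exact this
          exact mul_le_mul_of_nonneg_right this.le (by positivity)
        · rw [key sᶜ v hv i hi]; simp
      · have : c ^ 2 < lam i0 := by
          have := Finset.mem_compl.1 hi0s
          simp only [s, Finset.mem_filter, Finset.mem_univ, true_and, not_le] at this
          exact this
        have h3 : 0 < ‖b.repr v i0‖ ^ 2 := by positivity
        exact mul_lt_mul_of_pos_right this h3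
    exact lt_of_pow_lt_pow_left₀ 2 (norm_nonneg _) h1

end split

/-! ### dimension counts -/

section dims

variable {E : Type*} [AddCommGroup E] [Module ℂ E] [FiniteDimensional ℂ E]

theorem finrank_add_le_comap (X Y Z : Submodule ℂ E) (L : E →ₗ[ℂ] E) (hYZ : Y ≤ Z)
    (hL : ∀ v ∈ X, L v ∈ Z) :
    finrank ℂ X + finrank ℂ Y ≤ finrank ℂ (X ⊓ Y.comap L : Submodule ℂ E) + finrank ℂ Z := by
  set f : X →ₗ[ℂ] (E ⧸ Y) := (Y.mkQ ∘ₗ L).domRestrict X with hf
  have h1 := LinearMap.finrank_range_add_finrank_ker f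
  have h2 : finrank ℂ (LinearMap.range f) + finrank ℂ Y ≤ finrank ℂ Z := by
    have hle : LinearMap.range f ≤ Z.map Y.mkQ := by
      rintro _ ⟨x, rfl⟩
      exact ⟨L x, hL x x.2, rfl⟩
    have h3 : finrank ℂ (LinearMap.range f) ≤ finrank ℂ (Z.map Y.mkQ) := Submodule.finrank_mono hle
    set g : Z →ₗ[ℂ] (E ⧸ Y) := Y.mkQ.domRestrict Z with hg
    have h4 := LinearMap.finrank_range_add_finrank_ker g
    have h5 : LinearMap.range g = Z.map Y.mkQ := by
      rw [hg, LinearMap.domRestrict, LinearMap.range_comp, Submodule.range_subtype]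
    have h6 : LinearMap.ker g = Y.comap Z.subtype := by
      rw [hg, LinearMap.domRestrict, LinearMap.ker_comp, Submodule.ker_mkQ]
    have h7 : finrank ℂ (Y.comap Z.subtype) = finrank ℂ Y :=
      LinearEquiv.finrank_eq (Submodule.comapSubtypeEquivOfLe hYZ)
    rw [h5, h6, h7] at h4
    omega
  have h8 : finrank ℂ (LinearMap.ker f) ≤ finrank ℂ (X ⊓ Y.comap L : Submodule ℂ E) := by
    have h9 : LinearMap.ker f = (X ⊓ Y.comap L).comap X.subtype := by
      ext x
      simp [hf, LinearMap.domRestrict]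
    rw [h9]
    exact (LinearEquiv.finrank_eq (Submodule.comapSubtypeEquivOfLe inf_le_left)).le
  omega

theorem finrank_add_le_inf (X Y Z : Submodule ℂ E) (hX : X ≤ Z) (hY : Y ≤ Z) :
    finrank ℂ X + finrank ℂ Y ≤ finrank ℂ (X ⊓ Y : Submodule ℂ E) + finrank ℂ Z := by
  have h := Submodule.finrank_sup_add_finrank_inf_eq X Y
  have h2 : finrank ℂ (X ⊔ Y : Submodule ℂ E) ≤ finrank ℂ Z := Submodule.finrank_mono (sup_le hX hY)
  omega

end dims

/-! ### the global near invariance -/

section glob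

variable {E : Type*} [NormedAddCommGroup E] [InnerProductSpace ℂ E] [FiniteDimensional ℂ E]

theorem near_inv_global (F E1 E2 E1' SS : Submodule ℂ E) (N : E →ₗ[ℂ] E) (ε d1 d2 d3 dS : ℝ)
    (hε0 : 0 ≤ ε) (hε1 : ε ≤ 1)
    (h2 : E2 ≤ E1) (hd2 : (finrank ℂ E1 : ℝ) ≤ finrank ℂ E2 + d2)
    (h1 : E1' ≤ E1) (hd1 : (finrank ℂ E1 : ℝ) ≤ finrank ℂ E1' + d1)
    (hd3 : (finrank ℂ F : ℝ) ≤ finrank ℂ E1 + d3)
    (hdS : (finrank ℂ E : ℝ) ≤ finrank ℂ SS + dS)
    (hFS : ∀ v ∈ SS, F.starProjection v ∈ SS)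
    (hE2 : ∀ v ∈ E2, ‖v - F.starProjection v‖ ≤ ε * ‖F.starProjection v‖)
    (hinv : ∀ v ∈ E1', ‖N v - E1.starProjection (N v)‖ ≤ ε * ‖v‖)
    (hN : ∀ v ∈ SS, ‖N v‖ ≤ ‖v‖) :
    ∃ G ≤ F, (finrank ℂ F : ℝ) ≤ finrank ℂ G + (d1 + 2 * d2 + d3 + dS) ∧
      ∀ f ∈ G, f ∈ SS ∧ ‖N f - F.starProjection (N f)‖ ≤ 5 * ε * ‖f‖ := by
  classical
  set X1 : Submodule ℂ E := E2 ⊓ E1' with hX1
  set X2 : Submodule ℂ E := X1 ⊓ SS with hX2
  set L : E →ₗ[ℂ] E := (E1.starProjection : E →ₗ[ℂ] E) ∘ₗ N with hL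
  set X3 : Submodule ℂ E := X2 ⊓ E2.comap L with hX3
  have c1 : (finrank ℂ E1 : ℝ) ≤ finrank ℂ X1 + (d1 + d2) := by
    have := finrank_add_le_inf E2 E1' E1 h2 h1
    have : (finrank ℂ E2 : ℝ) + finrank ℂ E1' ≤ finrank ℂ X1 + finrank ℂ E1 := by exact_mod_cast this
    linarith
  have c2 : (finrank ℂ X1 : ℝ) ≤ finrank ℂ X2 + dS := by
    have := finrank_add_le_inf X1 SS ⊤ le_top le_top
    rw [finrank_top] at this
    have : (finrank ℂ X1 : ℝ) + finrank ℂ SS ≤ finrank ℂ X2 + finrank ℂ E := by exact_mod_cast this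
    linarith
  have c3 : (finrank ℂ X2 : ℝ) ≤ finrank ℂ X3 + d2 := by
    have := finrank_add_le_comap X2 E2 E1 L h2 (fun v _ => by
      rw [hL]; exact Submodule.starProjection_apply_mem _ _)
    have : (finrank ℂ X2 : ℝ) + finrank ℂ E2 ≤ finrank ℂ X3 + finrank ℂ E1 := by exact_mod_cast this
    linarith
  have hX3E2 : X3 ≤ E2 := fun v hv => hv.1.1.1
  -- F is injective on X3
  set PF : E →ₗ[ℂ] E := (F.starProjection : E →ₗ[ℂ] E) with hPF
  have hPFv : ∀ v, PF v = F.starProjection v := fun v => rfl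
  have hinj : ∀ v ∈ E2, PF v = 0 → v = 0 := by
    intro v hv h0
    have := hE2 v hv
    rw [← hPFv, h0, norm_zero, mul_zero, sub_zero] at this
    exact norm_le_zero_iff.1 this
  have hfr : finrank ℂ (X3.map PF) = finrank ℂ X3 := by
    have h := LinearMap.finrank_range_add_finrank_ker (PF.domRestrict X3)
    have hk : LinearMap.ker (PF.domRestrict X3) = ⊥ := by
      rw [LinearMap.ker_eq_bot']
      rintro ⟨v, hv⟩ h0
      have := hinj v (hX3E2 hv) h0
      exact Subtype.ext this
    rw [hk, finrank_bot, add_zero, LinearMap.domRestrict, LinearMap.range_comp,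
      Submodule.range_subtype] at h
    exact h
  refine ⟨X3.map PF, ?_, ?_, ?_⟩
  · rintro _ ⟨v, _, rfl⟩
    exact Submodule.starProjection_apply_mem _ _
  · rw [hfr]; linarith
  · rintro _ ⟨v, hv, rfl⟩
    have hvE2 : v ∈ E2 := hX3E2 hv
    have hvE1' : v ∈ E1' := hv.1.1.2
    have hvS : v ∈ SS := hv.1.2
    have hy : E1.starProjection (N v) ∈ E2 := hv.2
    have hfS : PF v ∈ SS := hFS v hvS
    refine ⟨hfS, ?_⟩
    set f := PF v with hf
    set y := E1.starProjection (N v) with hyd
    have hvf : ‖v - f‖ ≤ ε * ‖f‖ := hE2 v hvE2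
    have hv2 : ‖v‖ ≤ 2 * ‖f‖ := by
      have : ‖v‖ ≤ ‖v - f‖ + ‖f‖ := by simpa using norm_add_le (v - f) f
      nlinarith [norm_nonneg f]
    have hNv : ‖N v‖ ≤ ‖v‖ := hN v hvS
    have hyn : ‖y‖ ≤ ‖N v‖ := Submodule.norm_starProjection_apply_le _ _
    have hz : ‖N v - y‖ ≤ ε * ‖v‖ := hinv v hvE1'
    have hNfv : ‖N (v - f)‖ ≤ ε * ‖f‖ := (hN _ (SS.sub_mem hvS hfS)).trans hvf
    have hQ : ∀ x : E, ‖x - F.starProjection x‖ ≤ ‖x‖ := by
      intro x
      rw [← Submodule.starProjection_orthogonal_val]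
      exact Submodule.norm_starProjection_apply_le _ _
    have hdec : N f - F.starProjection (N f) =
        (y - F.starProjection y) + ((N v - y) - F.starProjection (N v - y))
          - (N (v - f) - F.starProjection (N (v - f))) := by
      simp only [map_sub]; abel
    have e1 : ‖y - F.starProjection y‖ ≤ ε * (2 * ‖f‖) := by
      refine (hE2 y hy).trans ?_
      refine mul_le_mul_of_nonneg_left ?_ hε0
      exact (Submodule.norm_starProjection_apply_le _ _).trans (hyn.trans (hNv.trans hv2))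
    have e2 : ‖(N v - y) - F.starProjection (N v - y)‖ ≤ ε * (2 * ‖f‖) :=
      (hQ _).trans (hz.trans (mul_le_mul_of_nonneg_left hv2 hε0))
    have e3 : ‖N (v - f) - F.starProjection (N (v - f))‖ ≤ ε * ‖f‖ := (hQ _).trans hNfv
    rw [hdec]
    calc _ ≤ ‖(y - F.starProjection y) + ((N v - y) - F.starProjection (N v - y))‖
          + ‖N (v - f) - F.starProjection (N (v - f))‖ := norm_sub_le _ _
      _ ≤ (‖y - F.starProjection y‖ + ‖(N v - y) - F.starProjection (N v - y)‖)
          + ‖N (v - f) - F.starProjection (N (v - f))‖ := by gcongr; exact norm_add_le _ _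
      _ ≤ 5 * ε * ‖f‖ := by linarith

end glob

/-! ### from global to single windows -/

section windows

variable {E : Type*} [NormedAddCommGroup E] [InnerProductSpace ℂ E] [FiniteDimensional ℂ E]
  {V : Type*} [NormedAddCommGroup V] [InnerProductSpace ℂ V] [FiniteDimensional ℂ V]
  {κ : Type*}

theorem near_inv_windows (C : Finset κ) (emb : κ → V →ₗ[ℂ] E) (R : κ → E →ₗ[ℂ] V)
    (hiso : ∀ J ∈ C, ∀ v : V, ‖emb J v‖ = ‖v‖)
    (hR : ∀ J ∈ C, ∀ (x : E) (v : V), inner ℂ (R J x) v = inner ℂ x (emb J v))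
    (hort : ∀ J ∈ C, ∀ J' ∈ C, J ≠ J' → ∀ v v' : V, inner ℂ (emb J v) (emb J' v') = 0)
    (F G : Submodule ℂ E) (FJ : κ → Submodule ℂ V) (N : E →ₗ[ℂ] E) (NJ : κ → V →ₗ[ℂ] V)
    (c d : ℝ) (hc : 0 ≤ c) (hGF : G ≤ F)
    (hd : (finrank ℂ F : ℝ) ≤ finrank ℂ G + d)
    (hG : ∀ f ∈ G, ‖N f - F.starProjection (N f)‖ ≤ c * ‖f‖)
    (hFJ : ∀ J ∈ C, ∀ v ∈ FJ J, emb J v ∈ F)
    (hPF : ∀ J ∈ C, ∀ x : E, R J (F.starProjection x) = (FJ J).starProjection (R J x))
    (hNJ : ∀ J ∈ C, ∀ v, R J (N (emb J v)) = NJ J v)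
    (hNJJ : ∀ J ∈ C, ∀ J' ∈ C, J ≠ J' → ∀ v, R J (N (emb J' v)) = 0) :
    ∃ r : κ → ℕ, (∑ J ∈ C, (r J : ℝ)) ≤ d ∧ ∀ J ∈ C, ∃ F' ≤ FJ J,
      finrank ℂ (FJ J) ≤ finrank ℂ F' + r J ∧
      ∀ f ∈ F', ‖NJ J f - (FJ J).starProjection (NJ J f)‖ ≤ c * ‖f‖ := by
  classical
  set B : (J : κ) → (FJ J) →ₗ[ℂ] V := fun J =>
    (NJ J - ((FJ J).starProjection : V →ₗ[ℂ] V) ∘ₗ NJ J).domRestrict (FJ J) with hB
  have hBv : ∀ J (v : FJ J), B J v = NJ J v - (FJ J).starProjection (NJ J v) := fun J v => rfl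
  choose Vle Vgt hdim hle hgt using fun J => exists_split (B J) c hc
  refine ⟨fun J => finrank ℂ (Vgt J), ?_, ?_⟩
  · -- the direct sum of the `Vgt` meets `G` in `0`
    set Φ : ((J : C) → Vgt J) →ₗ[ℂ] E :=
      ∑ J : C, ((emb J) ∘ₗ (FJ J).subtype ∘ₗ (Vgt J).subtype) ∘ₗ LinearMap.proj J with hΦ
    have hΦv : ∀ z, Φ z = ∑ J : C, emb J ((z J : FJ J) : V) := by
      intro z
      simp [hΦ, LinearMap.sum_apply]
    let embi : (J : C) → V →ₗᵢ[ℂ] E := fun J => ⟨emb J, hiso J J.2⟩
    have hfam : OrthogonalFamily ℂ (fun _ : C => V) embi := by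
      intro J J' hne v v'
      exact hort J J.2 J' J'.2 (fun h => hne (Subtype.ext h)) v v'
    have hnormΦ : ∀ z, ‖Φ z‖ ^ 2 = ∑ J : C, ‖((z J : FJ J) : V)‖ ^ 2 := by
      intro z
      rw [hΦv]
      exact hfam.norm_sum (fun J => ((z J : FJ J) : V)) Finset.univ
    have hbessel : ∀ x : E, ∑ J : C, ‖R J x‖ ^ 2 ≤ ‖x‖ ^ 2 := by
      intro x
      set y : E := ∑ J : C, emb J (R J x) with hy
      have hy2 : ‖y‖ ^ 2 = ∑ J : C, ‖R J x‖ ^ 2 := hfam.norm_sum (fun J => R J x) Finset.univ
      have hin : inner ℂ x y = ((∑ J : C, ‖R J x‖ ^ 2 : ℝ) : ℂ) := by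
        rw [hy, inner_sum, Complex.ofReal_sum]
        refine Finset.sum_congr rfl fun J _ => ?_
        rw [← hR J J.2, inner_self_eq_norm_sq_to_K]
        simp
      have hcs : ‖inner ℂ x y‖ ≤ ‖x‖ * ‖y‖ := norm_inner_le_norm x y
      rw [hin, ← hy2, Complex.norm_real, Real.norm_of_nonneg (by positivity)] at hcs
      rw [← hy2]
      have hyx : ‖y‖ ≤ ‖x‖ := by
        by_contra h
        push Not at h
        nlinarith [norm_nonneg x, norm_nonneg y]
      exact pow_le_pow_left₀ (norm_nonneg _) hyx 2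
    have hzero : ∀ z, Φ z ∈ G → z = 0 := by
      intro z hz
      by_contra hne
      have hex : ∃ J : C, z J ≠ 0 := by
        by_contra h
        push Not at h
        exact hne (funext h)
      obtain ⟨J0, hJ0⟩ := hex
      have h1 := hG _ hz
      set x := N (Φ z) - F.starProjection (N (Φ z)) with hx
      have hRx : ∀ J : C, R J x = B J (z J) := by
        intro J
        rw [hx, map_sub, hPF J J.2, hBv]
        have h2 : R J (N (Φ z)) = NJ J ((z J : FJ J) : V) := by
          rw [hΦv, map_sum, map_sum, Finset.sum_eq_single J]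
          · exact hNJ J J.2 _
          · intro J' _ hne'
            exact hNJJ J J.2 J' J'.2 (fun h => hne' (Subtype.ext h).symm) _
          · simp
        rw [h2]
      have h3 : ‖x‖ ^ 2 ≤ c ^ 2 * ∑ J : C, ‖((z J : FJ J) : V)‖ ^ 2 := by
        rw [← hnormΦ, ← mul_pow]
        exact pow_le_pow_left₀ (norm_nonneg _) h1 2
      have h4 : c ^ 2 * ∑ J : C, ‖((z J : FJ J) : V)‖ ^ 2 < ∑ J : C, ‖R J x‖ ^ 2 := by
        rw [Finset.mul_sum]
        refine Finset.sum_lt_sum (fun J _ => ?_) ⟨J0, Finset.mem_univ _, ?_⟩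
        · rw [hRx, ← mul_pow]
          refine pow_le_pow_left₀ (by positivity) ?_ 2
          by_cases h0 : (z J : FJ J) = 0
          · rw [h0]; simp
          · exact (hgt J _ (z J).2 h0).le
        · rw [hRx, ← mul_pow]
          have h0 : (z J0 : FJ J0) ≠ 0 := fun h => hJ0 (Subtype.ext h)
          exact pow_lt_pow_left₀ (hgt J0 _ (z J0).2 h0) (by positivity) (by norm_num)
      have h5 := hbessel x
      linarith
    have hinj : Function.Injective Φ := by
      rw [← LinearMap.ker_eq_bot, LinearMap.ker_eq_bot']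
      intro z hz
      apply hzero
      rw [hz]
      exact G.zero_mem
    have hrange : LinearMap.range Φ ≤ F := by
      rintro _ ⟨z, rfl⟩
      rw [hΦv]
      exact F.sum_mem fun J _ => hFJ J J.2 _ (z J : FJ J).2
    have hinf : LinearMap.range Φ ⊓ G = ⊥ := by
      rw [eq_bot_iff]
      rintro _ ⟨⟨z, rfl⟩, hz⟩
      rw [hzero z hz]
      simp
    have h1 := finrank_add_le_inf (LinearMap.range Φ) G F hrange hGF
    rw [hinf, finrank_bot, zero_add, LinearMap.finrank_range_of_inj hinj,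
      Module.finrank_pi_fintype] at h1
    have h2 : ∑ J : C, finrank ℂ (Vgt J) = ∑ J ∈ C, finrank ℂ (Vgt J) :=
      Finset.sum_coe_sort C (fun J => finrank ℂ (Vgt J))
    rw [h2] at h1
    have h3 : ((∑ J ∈ C, finrank ℂ (Vgt J) : ℕ) : ℝ) + finrank ℂ G ≤ finrank ℂ F := by
      exact_mod_cast h1
    push_cast at h3
    linarith
  · intro J _
    refine ⟨(Vle J).map (FJ J).subtype, Submodule.map_subtype_le _ _, ?_, ?_⟩
    · have h := (Submodule.equivMapOfInjective (FJ J).subtype (FJ J).injective_subtype (Vle J)).finrank_eq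
      rw [← h, hdim J]
    · rintro _ ⟨v, hv, rfl⟩
      exact hle J v hv

end windows

end Crest.Agent.R113.NI
end

-- ▼ part R113/NearInv

/-! # T06: near-invariance of `F` inside windows — blueprint 6835 (NI)

`good` = set of starts `s0` of good windows `[s0,s0+l)`. `g` is constant on windows. -/

set_option autoImplicit false

namespace Crest.Agent.R113

open scoped BigOperators

namespace NI

open Module Submodule

theorem coord_congr {q : ℕ} (x : EuclideanSpace ℂ (Fin q)) {i j : Fin q}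
    (h : (i : ℕ) = (j : ℕ)) : x i = x j := by rw [Fin.ext h]

/-- restriction to the window `[a, a+l)` -/
noncomputable def resw (q l a : ℕ) : EuclideanSpace ℂ (Fin q) →ₗ[ℂ] EuclideanSpace ℂ (Fin l) where
  toFun x := WithLp.toLp 2 fun j : Fin l => if h : a + (j : ℕ) < q then x ⟨a + (j : ℕ), h⟩ else 0
  map_add' v w := by
    ext m
    by_cases h : a + (m : ℕ) < q <;> simp [h]
  map_smul' c v := by
    ext m
    by_cases h : a + (m : ℕ) < q <;> simp [h]

theorem resw_apply (q l a : ℕ) (x : EuclideanSpace ℂ (Fin q)) (j : Fin l) :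
    resw q l a x j = if h : a + (j : ℕ) < q then x ⟨a + (j : ℕ), h⟩ else 0 := rfl

/-- coordinate projection onto the window `[a, a+l)` -/
noncomputable def cutw (q l a : ℕ) : EuclideanSpace ℂ (Fin q) →ₗ[ℂ] EuclideanSpace ℂ (Fin q) where
  toFun x := WithLp.toLp 2 fun m : Fin q => if a ≤ (m : ℕ) ∧ (m : ℕ) < a + l then x m else 0
  map_add' v w := by
    ext m
    by_cases h : a ≤ (m : ℕ) ∧ (m : ℕ) < a + l <;> simp [h]
  map_smul' c v := by
    ext m
    by_cases h : a ≤ (m : ℕ) ∧ (m : ℕ) < a + l <;> simp [h]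

theorem cutw_apply (q l a : ℕ) (x : EuclideanSpace ℂ (Fin q)) (m : Fin q) :
    cutw q l a x m = if a ≤ (m : ℕ) ∧ (m : ℕ) < a + l then x m else 0 := rfl

theorem embw_resw (q l a : ℕ) (x : EuclideanSpace ℂ (Fin q)) :
    emb q l a (resw q l a x) = cutw q l a x := by
  ext m
  rw [emb_apply, cutw_apply]
  by_cases h : a ≤ (m : ℕ) ∧ (m : ℕ) < a + l
  · rw [dif_pos h, if_pos h, resw_apply, dif_pos (by have := m.2; simp only []; omega)]
    apply coord_congr
    simp only []
    omega
  · rw [dif_neg h, if_neg h]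

theorem resw_embw (q l a : ℕ) (ha : a + l ≤ q) (v : EuclideanSpace ℂ (Fin l)) :
    resw q l a (emb q l a v) = v := by
  ext j
  have hj := j.2
  rw [resw_apply, dif_pos (by omega), emb_apply, dif_pos (by simp only []; omega)]
  apply coord_congr
  simp

theorem sum_window {q l a : ℕ} (ha : a + l ≤ q) {β : Type*} [AddCommMonoid β] (f : Fin q → β)
    (hf : ∀ m : Fin q, ¬ (a ≤ (m : ℕ) ∧ (m : ℕ) < a + l) → f m = 0) :
    ∑ m : Fin q, f m = ∑ j : Fin l, f ⟨a + (j : ℕ), by omega⟩ := by
  classical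
  symm
  refine Finset.sum_of_injOn (fun j : Fin l => (⟨a + (j : ℕ), by omega⟩ : Fin q)) ?_ ?_ ?_ ?_
  · intro j _ j' _ h
    have := congrArg Fin.val h
    simp only [] at this
    exact Fin.ext (by omega)
  · intro j _; simp
  · intro m _ hm
    apply hf
    intro hw
    apply hm
    refine ⟨⟨(m : ℕ) - a, by omega⟩, by simp, ?_⟩
    apply Fin.ext
    simp only []
    omega
  · intro j _; rfl

theorem inner_resw (q l a : ℕ) (ha : a + l ≤ q) (x : EuclideanSpace ℂ (Fin q))
    (v : EuclideanSpace ℂ (Fin l)) :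
    inner ℂ (resw q l a x) v = inner ℂ x (emb q l a v) := by
  rw [PiLp.inner_apply, PiLp.inner_apply, sum_window ha]
  · refine Finset.sum_congr rfl fun j _ => ?_
    have hj := j.2
    rw [resw_apply, dif_pos (by omega), emb_apply, dif_pos (by simp only []; omega)]
    congr 1
    apply coord_congr
    simp
  · intro m hm
    rw [emb_apply, dif_neg hm]
    simp

theorem inner_cutw (q l a : ℕ) (x y : EuclideanSpace ℂ (Fin q)) :
    inner ℂ (cutw q l a x) y = inner ℂ x (cutw q l a y) := by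
  rw [PiLp.inner_apply, PiLp.inner_apply]
  refine Finset.sum_congr rfl fun m _ => ?_
  rw [cutw_apply, cutw_apply]
  by_cases h : a ≤ (m : ℕ) ∧ (m : ℕ) < a + l
  · rw [if_pos h, if_pos h]
  · rw [if_neg h, if_neg h]; simp

theorem norm_embw (q l a : ℕ) (ha : a + l ≤ q) (v : EuclideanSpace ℂ (Fin l)) :
    ‖emb q l a v‖ = ‖v‖ := by
  have h : inner ℂ (emb q l a v) (emb q l a v) = inner ℂ v v := by
    rw [← inner_resw q l a ha, resw_embw q l a ha]
  have h2 : (‖emb q l a v‖ ^ 2 : ℝ) = ‖v‖ ^ 2 := by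
    rw [inner_self_eq_norm_sq_to_K, inner_self_eq_norm_sq_to_K] at h
    exact_mod_cast h
  exact (pow_left_inj₀ (norm_nonneg _) (norm_nonneg _) (by norm_num)).1 h2

theorem mem_winSub {q l a : ℕ} (F : Submodule ℂ (EuclideanSpace ℂ (Fin q)))
    (v : EuclideanSpace ℂ (Fin l)) : v ∈ winSub l a F ↔ emb q l a v ∈ F := by
  rw [winSub_eqna]; rfl

theorem starProjection_resw {q l a : ℕ} (ha : a + l ≤ q)
    (F : Submodule ℂ (EuclideanSpace ℂ (Fin q)))
    (hF : ∀ x ∈ F, cutw q l a x ∈ F) (x : EuclideanSpace ℂ (Fin q)) :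
    resw q l a (F.starProjection x) = (winSub l a F).starProjection (resw q l a x) := by
  symm
  apply Submodule.eq_starProjection_of_mem_of_inner_eq_zero
  · rw [mem_winSub, embw_resw]
    exact hF _ (Submodule.starProjection_apply_mem _ _)
  · intro w hw
    rw [← map_sub, inner_resw q l a ha]
    exact Submodule.starProjection_inner_eq_zero x _ ((mem_winSub _ _).1 hw)

theorem starProjection_cutw {q l a : ℕ}
    (F : Submodule ℂ (EuclideanSpace ℂ (Fin q)))
    (hF : ∀ x ∈ F, cutw q l a x ∈ F) (x : EuclideanSpace ℂ (Fin q)) :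
    F.starProjection (cutw q l a x) = cutw q l a (F.starProjection x) := by
  apply Submodule.eq_starProjection_of_mem_of_inner_eq_zero
  · exact hF _ (Submodule.starProjection_apply_mem _ _)
  · intro w hw
    rw [← map_sub, inner_cutw]
    exact Submodule.starProjection_inner_eq_zero x _ (hF w hw)

end NI

open Module Submodule NI in
theorem near_inv {q l : ℕ} (win : Fin q → ℤ) (u : ℤ → ℝ) (n : ℕ) (hn : n < l)
    (E E' F E2 : Submodule ℂ (EuclideanSpace ℂ (Fin q))) (g : Fin q → ℝ) (s G w cs d ω : ℝ)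
    (hs : 0 ≤ s) (hg0 : ∀ i, 0 ≤ g i) (hgG : ∀ i, g i ≤ G)
    (hgw : ∀ i j, win i = win j → g i = g j) (hw : 0 ≤ w) (hcs : w + s * G ≤ cs)
    (hinv : AppInv E E' u n (Real.exp (-cs)) d)
    (hF : BlockSub win F)
    (hFdim : (Module.finrank ℂ F : ℝ) ≤ Module.finrank ℂ E + ω)
    (hE2 : E2 ≤ E.map (mulD (fun i => Real.exp (-(s * g i)))))
    (hE2dim : (Module.finrank ℂ E : ℝ) ≤ Module.finrank ℂ E2 + ω)
    (hE2F : ∀ v ∈ E2, ‖v - F.starProjection v‖ ≤ Real.exp (-w) * ‖F.starProjection v‖)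
    (good : Finset ℕ) (col : ℕ → Bool)
    (hgood : ∀ s0 ∈ good, s0 + 2 * l ≤ q ∧
      (∀ i : Fin q, win i = s0 ↔ s0 ≤ (i : ℕ) ∧ (i : ℕ) < s0 + l) ∧
      (∀ i : Fin q, win i = (s0 + l : ℕ) ↔ s0 + l ≤ (i : ℕ) ∧ (i : ℕ) < s0 + 2 * l))
    (hcol : ∀ s0 ∈ good, col (s0 + l) ≠ col s0)
    (hweight : ∀ s0 ∈ good, ∀ i j : Fin q, s0 ≤ (i : ℕ) → (i : ℕ) < s0 + l →
      (j : ℕ) = (i : ℕ) + n → 0 ≤ wsum u i n + s * (g j - g i)) :
    ∃ (r : ℕ → ℕ) (F' : ℕ → Submodule ℂ (EuclideanSpace ℂ (Fin l))),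
      ((∑ s0 ∈ good, r s0 : ℕ) : ℝ) ≤ 2 * (3 * ω + d + (q - good.card * l : ℝ)) ∧
      ∀ s0 ∈ good, F' s0 ≤ winSub l s0 F ∧
        Module.finrank ℂ (winSub l s0 F) ≤ Module.finrank ℂ (F' s0) + r s0 ∧
        ∀ v ∈ F' s0, ‖shiftN (fun m => u (s0 + m)) n v
          - (winSub l s0 F).starProjection (shiftN (fun m => u (s0 + m)) n v)‖
            ≤ 5 * Real.exp (-w) * ‖v‖ := by
  classical
  -- exponential diagonals
  set em : Fin q → ℝ := fun i => Real.exp (-(s * g i)) with hem
  set ep : Fin q → ℝ := fun i => Real.exp (s * g i) with hep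
  have hemp : ∀ x : EuclideanSpace ℂ (Fin q), mulD em (mulD ep x) = x := by
    intro x
    ext i
    rw [mulD_apply, mulD_apply, ← mul_assoc, ← Complex.ofReal_mul, hem, hep]
    simp only []
    rw [← Real.exp_add]
    simp
  have hepm : ∀ x : EuclideanSpace ℂ (Fin q), mulD ep (mulD em x) = x := by
    intro x
    ext i
    rw [mulD_apply, mulD_apply, ← mul_assoc, ← Complex.ofReal_mul, hem, hep]
    simp only []
    rw [← Real.exp_add]
    simp
  have hem1 : ∀ x : EuclideanSpace ℂ (Fin q), ‖mulD em x‖ ≤ ‖x‖ := by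
    intro x
    rw [EuclideanSpace.norm_eq, EuclideanSpace.norm_eq]
    apply Real.sqrt_le_sqrt
    refine Finset.sum_le_sum fun i _ => ?_
    rw [mulD_apply, norm_mul, mul_pow]
    have h1 : ‖((em i : ℝ) : ℂ)‖ ≤ 1 := by
      rw [Complex.norm_real, hem, Real.norm_of_nonneg (Real.exp_pos _).le]
      apply Real.exp_le_one_iff.2
      have := mul_nonneg hs (hg0 i)
      linarith
    have h2 : ‖((em i : ℝ) : ℂ)‖ ^ 2 ≤ 1 := pow_le_one₀ (norm_nonneg _) h1
    nlinarith [sq_nonneg ‖x i‖]
  have hepG : ∀ x : EuclideanSpace ℂ (Fin q), ‖mulD ep x‖ ≤ Real.exp (s * G) * ‖x‖ := by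
    intro x
    have h0 : ‖mulD ep x‖ ^ 2 ≤ (Real.exp (s * G) * ‖x‖) ^ 2 := by
      rw [mul_pow, EuclideanSpace.norm_sq_eq, EuclideanSpace.norm_sq_eq, Finset.mul_sum]
      refine Finset.sum_le_sum fun i _ => ?_
      rw [mulD_apply, norm_mul, mul_pow]
      refine mul_le_mul_of_nonneg_right ?_ (by positivity)
      refine pow_le_pow_left₀ (norm_nonneg _) ?_ 2
      rw [Complex.norm_real, hep, Real.norm_of_nonneg (Real.exp_pos _).le]
      exact Real.exp_le_exp.2 (mul_le_mul_of_nonneg_left (hgG i) hs)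
    exact le_of_sq_le_sq h0 (by positivity)
  -- the conjugated shift
  set N : EuclideanSpace ℂ (Fin q) →ₗ[ℂ] EuclideanSpace ℂ (Fin q) :=
    mulD em ∘ₗ shiftN u n ∘ₗ mulD ep with hN
  have hNv : ∀ (x : EuclideanSpace ℂ (Fin q)) (j : Fin q), N x j = if h : n ≤ (j : ℕ) then
      ((em j * Real.exp (-(wsum u ((j : ℤ) - n) n)) *
        ep ⟨(j : ℕ) - n, lt_of_le_of_lt (Nat.sub_le _ _) j.2⟩ : ℝ) : ℂ) *
        x ⟨(j : ℕ) - n, lt_of_le_of_lt (Nat.sub_le _ _) j.2⟩ else 0 := by
    intro x j
    rw [hN, LinearMap.comp_apply, LinearMap.comp_apply, mulD_apply, shiftN_apply]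
    by_cases h : n ≤ (j : ℕ)
    · rw [dif_pos h, dif_pos h, mulD_apply]
      push_cast
      ring
    · rw [dif_neg h, dif_neg h, mul_zero]
  have hl : 0 < l := lt_of_le_of_lt (Nat.zero_le _) hn
  -- windows of good starts
  have hin : ∀ s0 ∈ good, ∀ i : Fin q, win i = s0 ↔ s0 ≤ (i : ℕ) ∧ (i : ℕ) < s0 + l :=
    fun s0 h => (hgood s0 h).2.1
  have hq : ∀ s0 ∈ good, s0 + l ≤ q := fun s0 h => by have := (hgood s0 h).1; omega
  have hdisj : ∀ s0 ∈ good, ∀ s1 ∈ good, s0 < s1 → s0 + l ≤ s1 := by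
    intro s0 h0 s1 h1 hlt
    by_contra hcon
    push Not at hcon
    have hs1q : s1 < q := by have := hq s1 h1; omega
    have e1 := (hin s1 h1 ⟨s1, hs1q⟩).2 ⟨le_rfl, by simp only []; omega⟩
    have e0 := (hin s0 h0 ⟨s1, hs1q⟩).2 ⟨by simp only []; omega, by simp only []; omega⟩
    rw [e1] at e0
    have : s1 = s0 := by exact_mod_cast e0
    omega
  have hdisj2 : ∀ s0 ∈ good, ∀ s1 ∈ good, col s0 = col s1 → s0 < s1 → s0 + 2 * l ≤ s1 := by
    intro s0 h0 s1 h1 hc hlt
    by_contra hcon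
    push Not at hcon
    have hs1q : s1 < q := by have := hq s1 h1; omega
    have h01 := hdisj s0 h0 s1 h1 hlt
    have e1 := (hin s1 h1 ⟨s1, hs1q⟩).2 ⟨le_rfl, by simp only []; omega⟩
    have e0 := ((hgood s0 h0).2.2 ⟨s1, hs1q⟩).2 ⟨by simp only []; omega, by simp only []; omega⟩
    rw [e1] at e0
    have : s1 = s0 + l := by exact_mod_cast e0
    rw [this] at hc
    exact hcol s0 h0 hc.symm
  -- the union of the good windows
  set S : Finset (Fin q) := Finset.univ.filter fun i : Fin q =>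
    ∃ s0 ∈ good, s0 ≤ (i : ℕ) ∧ (i : ℕ) < s0 + l with hS
  have hScard : S.card = good.card * l := by
    have h1 : S = good.biUnion fun s0 => Finset.univ.filter fun i : Fin q =>
        s0 ≤ (i : ℕ) ∧ (i : ℕ) < s0 + l := by
      ext i
      simp [hS]
    rw [h1, Finset.card_biUnion]
    · rw [Finset.sum_const_nat (m := l)]
      intro s0 h0
      have := hq s0 h0
      rw [Finset.card_filter, sum_window this]
      · rw [Finset.sum_congr rfl (g := fun _ => 1)]
        · simp
        · intro j _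
          have := j.2
          rw [if_pos]
          constructor
          · simp
          · simp
      · intro m hm
        rw [if_neg hm]
    · intro s0 h0 s1 h1 hne
      rw [Function.onFun, Finset.disjoint_left]
      intro i hi0 hi1
      simp only [Finset.mem_filter, Finset.mem_univ, true_and] at hi0 hi1
      rcases lt_or_gt_of_ne hne with h | h
      · have := hdisj s0 h0 s1 h1 h; omega
      · have := hdisj s1 h1 s0 h0 h; omega
  set SS : Submodule ℂ (EuclideanSpace ℂ (Fin q)) := coordSub S with hSS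
  have memSS : ∀ v : EuclideanSpace ℂ (Fin q), v ∈ SS ↔ ∀ i, i ∉ S → v i = 0 :=
    fun v => mem_coordSub S v
  have hSSdim : (finrank ℂ (EuclideanSpace ℂ (Fin q)) : ℝ) ≤ finrank ℂ SS + (q - good.card * l) := by
    have h1 : S.card ≤ finrank ℂ SS := by
      set L : EuclideanSpace ℂ (Fin q) →ₗ[ℂ] ((Sᶜ : Finset (Fin q)) → ℂ) :=
        LinearMap.pi fun i => ((EuclideanSpace.proj (i : Fin q) :
          EuclideanSpace ℂ (Fin q) →L[ℂ] ℂ) : EuclideanSpace ℂ (Fin q) →ₗ[ℂ] ℂ) with hL
      have hk : LinearMap.ker L = SS := by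
        ext v
        rw [LinearMap.mem_ker, memSS]
        constructor
        · intro h i hi
          exact congrFun h ⟨i, Finset.mem_compl.2 hi⟩
        · intro h
          ext i
          exact h i (Finset.mem_compl.1 i.2)
      have h3 := LinearMap.finrank_range_add_finrank_ker L
      have h4 : finrank ℂ (LinearMap.range L) ≤ Sᶜ.card := by
        refine (Submodule.finrank_le _).trans ?_
        simp
      rw [hk, finrank_euclideanSpace_fin] at h3
      rw [Finset.card_compl, Fintype.card_fin] at h4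
      have h5 : S.card ≤ q := by simpa using Finset.card_le_univ S
      omega
    rw [finrank_euclideanSpace_fin]
    have h2 : (S.card : ℝ) ≤ finrank ℂ SS := by exact_mod_cast h1
    rw [hScard] at h2
    push_cast at h2
    linarith
  -- `F` and single windows
  have hcutF : ∀ s0 ∈ good, ∀ x ∈ F, cutw q l s0 x ∈ F := by
    intro s0 h0 x hx
    have h1 := (BlockSub_eqna win F ▸ hF) (s0 : ℤ) x hx
    have h2 : cutw q l s0 x = restr {i | win i = (s0 : ℤ)} x := by
      ext m
      rw [cutw_apply, restr_apply]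
      have := hin s0 h0 m
      by_cases h : s0 ≤ (m : ℕ) ∧ (m : ℕ) < s0 + l
      · rw [if_pos h, if_pos (show m ∈ {i | win i = (s0 : ℤ)} from this.2 h)]
      · rw [if_neg h, if_neg (show ¬ m ∈ {i | win i = (s0 : ℤ)} from fun h' => h (this.1 h'))]
    rw [h2]
    exact h1
  have hFS : ∀ v ∈ SS, F.starProjection v ∈ SS := by
    intro v hv
    have h1 : v = ∑ s0 ∈ good, cutw q l s0 v := by
      ext i
      rw [WithLp.ofLp_sum, Finset.sum_apply]
      by_cases hi : i ∈ S
      · obtain ⟨s0, h0, h2⟩ := (Finset.mem_filter.1 hi).2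
        rw [Finset.sum_eq_single s0]
        · rw [cutw_apply, if_pos h2]
        · intro s1 h1 hne
          rw [cutw_apply, if_neg]
          intro h3
          rcases lt_or_gt_of_ne hne with h | h
          · have := hdisj s1 h1 s0 h0 h; omega
          · have := hdisj s0 h0 s1 h1 h; omega
        · intro h; exact absurd h0 h
      · rw [(memSS v).1 hv i hi, Finset.sum_eq_zero]
        intro s0 h0
        rw [cutw_apply, if_neg]
        intro h2
        exact hi (Finset.mem_filter.2 ⟨Finset.mem_univ _, s0, h0, h2⟩)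
    rw [h1, map_sum]
    refine SS.sum_mem fun s0 h0 => ?_
    rw [starProjection_cutw F (hcutF s0 h0), memSS]
    intro i hi
    rw [cutw_apply, if_neg]
    intro h2
    exact hi (Finset.mem_filter.2 ⟨Finset.mem_univ _, s0, h0, h2⟩)
  -- `N` is a contraction on `SS`
  have hNcontr : ∀ v ∈ SS, ‖N v‖ ≤ ‖v‖ := by
    intro v hv
    have h0 : ‖N v‖ ^ 2 ≤ ‖v‖ ^ 2 := by
      rw [EuclideanSpace.norm_sq_eq, EuclideanSpace.norm_sq_eq]
      have h1 : ∀ j : Fin q, ‖N v j‖ ^ 2 ≤ if h : n ≤ (j : ℕ) then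
          ‖v ⟨(j : ℕ) - n, lt_of_le_of_lt (Nat.sub_le _ _) j.2⟩‖ ^ 2 else 0 := by
        intro j
        rw [hNv]
        by_cases h : n ≤ (j : ℕ)
        · rw [dif_pos h, dif_pos h, norm_mul, mul_pow]
          set i : Fin q := ⟨(j : ℕ) - n, lt_of_le_of_lt (Nat.sub_le _ _) j.2⟩ with hi
          by_cases hiS : i ∈ S
          · obtain ⟨s0, h0, h2⟩ := (Finset.mem_filter.1 hiS).2
            have h3 := hweight s0 h0 i j h2.1 h2.2 (by rw [hi]; simp only []; omega)
            have h4 : ‖((em j * Real.exp (-(wsum u ((j : ℤ) - n) n)) * ep i : ℝ) : ℂ)‖ ≤ 1 := by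
              rw [Complex.norm_real, hem, hep]
              simp only []
              rw [← Real.exp_add, ← Real.exp_add, Real.norm_of_nonneg (Real.exp_pos _).le,
                Real.exp_le_one_iff]
              have h5 : ((i : ℕ) : ℤ) = (j : ℤ) - n := by
                rw [hi]; simp only []; omega
              rw [h5] at h3
              linarith
            have h5 := pow_le_one₀ (n := 2) (norm_nonneg _) h4
            nlinarith [sq_nonneg ‖v i‖]
          · rw [(memSS v).1 hv i hiS]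
            simp
        · rw [dif_neg h, dif_neg h]; simp
      refine (Finset.sum_le_sum fun j _ => h1 j).trans ?_
      rw [← Finset.sum_filter_add_sum_filter_not Finset.univ (fun j : Fin q => n ≤ (j : ℕ))]
      rw [Finset.sum_eq_zero (s := Finset.univ.filter fun j : Fin q => ¬ n ≤ (j : ℕ))
        (fun j hj => dif_neg (Finset.mem_filter.1 hj).2), add_zero]
      have h2 : ∑ j ∈ Finset.univ.filter (fun j : Fin q => n ≤ (j : ℕ)),
          (if h : n ≤ (j : ℕ) then
          ‖v ⟨(j : ℕ) - n, lt_of_le_of_lt (Nat.sub_le _ _) j.2⟩‖ ^ 2 else 0) =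
          ∑ i ∈ (Finset.univ.filter (fun j : Fin q => n ≤ (j : ℕ))).image
            (fun j : Fin q => (⟨(j : ℕ) - n, lt_of_le_of_lt (Nat.sub_le _ _) j.2⟩ : Fin q)),
            ‖v i‖ ^ 2 := by
        rw [Finset.sum_image]
        · refine Finset.sum_congr rfl fun j hj => ?_
          rw [dif_pos (Finset.mem_filter.1 hj).2]
        · intro j hj j' hj' h
          have e1 := (Finset.mem_filter.1 hj).2
          have e2 := (Finset.mem_filter.1 hj').2
          have := congrArg Fin.val h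
          simp only [] at this
          exact Fin.ext (by omega)
      rw [h2]
      exact Finset.sum_le_sum_of_subset_of_nonneg (Finset.subset_univ _)
        (fun i _ _ => by positivity)
    exact le_of_sq_le_sq h0 (norm_nonneg _)
  -- `E₁` and `E₁'`
  set E1 := E.map (mulD em) with hE1
  set E1' := E'.map (mulD em) with hE1'
  have hinj : Function.Injective (mulD em) := by
    intro x y h
    rw [← hepm x, ← hepm y, h]
  have hfrE1 : finrank ℂ E1 = finrank ℂ E :=
    ((Submodule.equivMapOfInjective (mulD em) hinj E).finrank_eq).symm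
  have hfrE1' : finrank ℂ E1' = finrank ℂ E' :=
    ((Submodule.equivMapOfInjective (mulD em) hinj E').finrank_eq).symm
  have hinv1 : ∀ v ∈ E1', ‖N v - E1.starProjection (N v)‖ ≤ Real.exp (-w) * ‖v‖ := by
    rintro _ ⟨v, hv, rfl⟩
    have h1 : N (mulD em v) = mulD em (shiftN u n v) := by
      rw [hN, LinearMap.comp_apply, LinearMap.comp_apply, hepm]
    have h2 : ‖N (mulD em v) - E1.starProjection (N (mulD em v))‖ ≤
        ‖N (mulD em v) - mulD em (E.starProjection (shiftN u n v))‖ := by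
      rw [Submodule.starProjection_minimal]
      refine ciInf_le ⟨0, ?_⟩ (⟨mulD em (E.starProjection (shiftN u n v)),
        ⟨_, Submodule.starProjection_apply_mem _ _, rfl⟩⟩ : E1)
      rintro _ ⟨x, rfl⟩
      exact norm_nonneg _
    refine h2.trans ?_
    rw [h1, ← map_sub]
    refine (hem1 _).trans ((hinv.inv v hv).trans ?_)
    have h3 : ‖v‖ ≤ Real.exp (s * G) * ‖mulD em v‖ := by
      conv_lhs => rw [← hepm v]
      exact hepG _
    calc Real.exp (-cs) * ‖v‖ ≤ Real.exp (-cs) * (Real.exp (s * G) * ‖mulD em v‖) := by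
          gcongr
      _ = Real.exp (-cs + s * G) * ‖mulD em v‖ := by rw [← mul_assoc, ← Real.exp_add]
      _ ≤ Real.exp (-w) * ‖mulD em v‖ := by
          gcongr
          linarith
  obtain ⟨Gd, hGF, hGdim, hGd⟩ := near_inv_global F E1 E2 E1' SS N (Real.exp (-w)) d ω ω
    (q - good.card * l) (Real.exp_pos _).le (Real.exp_le_one_iff.2 (by linarith))
    hE2 (by rw [hfrE1]; exact hE2dim) (Submodule.map_mono hinv.le)
    (by rw [hfrE1, hfrE1']; exact hinv.codim) (by rw [hfrE1]; exact hFdim)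
    hSSdim hFS hE2F hinv1 hNcontr
  -- the two colour classes
  have hclass : ∀ bb : Bool, ∃ r : ℕ → ℕ,
      (∑ J ∈ good.filter (fun s0 => col s0 = bb), (r J : ℝ)) ≤
        d + 2 * ω + ω + (q - good.card * l) ∧
      ∀ J ∈ good.filter (fun s0 => col s0 = bb), ∃ F' ≤ winSub l J F,
      finrank ℂ (winSub l J F) ≤ finrank ℂ F' + r J ∧
      ∀ f ∈ F', ‖shiftN (fun m => u (J + m)) n f -
        (winSub l J F).starProjection (shiftN (fun m => u (J + m)) n f)‖ ≤
          5 * Real.exp (-w) * ‖f‖ := by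
    intro bb
    have hmem : ∀ J ∈ good.filter (fun s0 => col s0 = bb), J ∈ good ∧ col J = bb :=
      fun J hJ => Finset.mem_filter.1 hJ
    refine near_inv_windows (good.filter (fun s0 => col s0 = bb)) (fun J => emb q l J)
      (fun J => resw q l J) ?_ ?_ ?_ F Gd (fun J => winSub l J F) N
      (fun J => shiftN (fun m => u (J + m)) n) (5 * Real.exp (-w)) _ (by positivity) hGF hGdim
      (fun f hf => (hGd f hf).2) ?_ ?_ ?_ ?_
    · intro J hJ v
      exact norm_embw q l J (hq J (hmem J hJ).1) v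
    · intro J hJ x v
      exact inner_resw q l J (hq J (hmem J hJ).1) x v
    · intro J hJ J' hJ' hne v v'
      rw [← inner_resw q l J' (hq J' (hmem J' hJ').1)]
      have h0 : resw q l J' (emb q l J v) = 0 := by
        ext j
        rw [resw_apply]
        have hJq := hq J' (hmem J' hJ').1
        have hj := j.2
        rw [dif_pos (by omega), emb_apply, dif_neg]
        · rfl
        · simp only []
          intro h2
          rcases lt_or_gt_of_ne hne with h | h
          · have := hdisj J (hmem J hJ).1 J' (hmem J' hJ').1 h; omega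
          · have := hdisj J' (hmem J' hJ').1 J (hmem J hJ).1 h; omega
      rw [h0, inner_zero_left]
    · intro J hJ v hv
      exact (mem_winSub _ _).1 hv
    · intro J hJ x
      exact starProjection_resw (hq J (hmem J hJ).1) F (hcutF J (hmem J hJ).1) x
    · intro J hJ v
      ext j
      have hJq := hq J (hmem J hJ).1
      have hj := j.2
      rw [resw_apply, dif_pos (by omega), hNv, shiftN_apply]
      by_cases h1 : n ≤ (j : ℕ)
      · rw [dif_pos h1, dif_pos (by simp only []; omega), emb_apply,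
          dif_pos (by simp only []; omega)]
        have hgc : g ⟨J + (j : ℕ), by omega⟩ = g ⟨J + (j : ℕ) - n, by omega⟩ := by
          apply hgw
          rw [(hin J (hmem J hJ).1 ⟨J + (j : ℕ), by omega⟩).2 ⟨by simp, by simp⟩,
            (hin J (hmem J hJ).1 ⟨J + (j : ℕ) - n, by omega⟩).2
              ⟨by simp only []; omega, by simp only []; omega⟩]
        congr 1
        · rw [hem, hep]
          simp only []
          rw [hgc, ← Real.exp_add, ← Real.exp_add]
          push_cast
          congr 1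
          have h2 : wsum u (((J : ℤ) + (j : ℕ)) - n) n =
              wsum (fun m => u (J + m)) ((j : ℤ) - n) n := by
            rw [wsum_eqna, wsum_eqna]
            refine Finset.sum_congr rfl fun i _ => ?_
            congr 1
            ring
          rw [h2]
          ring
        · apply coord_congr
          simp only []
          omega
      · rw [dif_neg h1]
        by_cases h2 : n ≤ J + (j : ℕ)
        · rw [dif_pos (by simp only []; omega), emb_apply, dif_neg (by simp only []; omega),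
            mul_zero]
        · rw [dif_neg (by simp only []; omega)]
    · intro J hJ J' hJ' hne v
      ext j
      have hJq := hq J (hmem J hJ).1
      have hj := j.2
      rw [resw_apply, dif_pos (by omega), hNv]
      by_cases h2 : n ≤ J + (j : ℕ)
      · rw [dif_pos (by simp only []; omega), emb_apply, dif_neg, mul_zero]
        · rfl
        · simp only []
          intro h3
          have hcc : col J = col J' := (hmem J hJ).2.trans (hmem J' hJ').2.symm
          rcases lt_or_gt_of_ne hne with h | h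
          · have := hdisj2 J (hmem J hJ).1 J' (hmem J' hJ').1 hcc h; omega
          · have := hdisj2 J' (hmem J' hJ').1 J (hmem J hJ).1 hcc.symm h; omega
      · rw [dif_neg (by simp only []; omega)]
        rfl
  choose rr hrr hFF using hclass
  have hFF' : ∀ J ∈ good, ∃ F' ≤ winSub l J F,
      finrank ℂ (winSub l J F) ≤ finrank ℂ F' + rr (col J) J ∧
      ∀ f ∈ F', ‖shiftN (fun m => u (J + m)) n f -
        (winSub l J F).starProjection (shiftN (fun m => u (J + m)) n f)‖ ≤
          5 * Real.exp (-w) * ‖f‖ :=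
    fun J hJ => hFF (col J) J (Finset.mem_filter.2 ⟨hJ, rfl⟩)
  choose! F' hF1 hF2 hF3 using hFF'
  refine ⟨fun J => rr (col J) J, F', ?_, fun J hJ => ⟨hF1 J hJ, hF2 J hJ, hF3 J hJ⟩⟩
  have hsplit : ∑ s0 ∈ good, (rr (col s0) s0 : ℝ) =
      ∑ s0 ∈ good.filter (fun s0 => col s0 = true), (rr true s0 : ℝ) +
      ∑ s0 ∈ good.filter (fun s0 => col s0 = false), (rr false s0 : ℝ) := by
    rw [← Finset.sum_filter_add_sum_filter_not good (fun s0 => col s0 = true)]
    congr 1
    · refine Finset.sum_congr rfl fun J hJ => ?_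
      rw [(Finset.mem_filter.1 hJ).2]
    · have : good.filter (fun s0 => ¬ col s0 = true) = good.filter (fun s0 => col s0 = false) := by
        refine Finset.filter_congr fun J _ => ?_
        simp
      rw [this]
      refine Finset.sum_congr rfl fun J hJ => ?_
      rw [(Finset.mem_filter.1 hJ).2]
  push_cast
  rw [hsplit]
  have h1 := hrr true
  have h2 := hrr false
  linarith

end Crest.Agent.R113
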