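import Mathlib

/-!
Row 113, S0149: numerical parameters (one common module for `Defs.lean` and `Design.lean`).
-/

set_option autoImplicit false

namespace Crest.Agent.R113

/-- cell length `M_b = 2^(20 b²)` -/
def Mb (b : ℕ) : ℕ := 2 ^ (20 * b ^ 2)

/-- reach (number of far shifts) `r_b = 2^(30 b)` -/
def rb (b : ℕ) : ℕ := 2 ^ (30 * b)

/-- period `Π_b = 2^(6000 b² + 10)` -/
def Pib (b : ℕ) : ℕ := 2 ^ (6000 * b ^ 2 + 10)

theorem Mb_eqna (b : ℕ) : Mb b = 2 ^ (20 * b ^ 2) := by rw [Mb.eq_1]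
theorem Pib_eqna (b : ℕ) : Pib b = 2 ^ (6000 * b ^ 2 + 10) := by rw [Pib.eq_1]

theorem Mb_pos (b : ℕ) : 0 < Mb b := by unfold Mb; positivity
theorem rb_pos (b : ℕ) : 0 < rb b := by unfold rb; positivity
theorem Pib_pos (b : ℕ) : 0 < Pib b := by unfold Pib; positivity

end Crest.Agent.R113
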