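import Crest.Prelude.Def_TwoAdicShift

-- ▼ part R113/TwoDefs
section

/-!
# Row 113, S0150: shared definitions for the fibred weighted shift over the 2-adic odometer
-/

set_option autoImplicit false

namespace Crest.Agent.R113.Two

open Crest.AnalysisR.TwoAdic MeasureTheory

attribute [local instance] Crest.AnalysisR.TwoAdic.borelTwoAdic
  Crest.AnalysisR.TwoAdic.borelSpace_twoAdic

/-- Valley-shaped, very fast growing costs on `ℤ`: arbitrarily long windows `[L, R)` on which the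
cost is at most `lo`, while outside of it the cost is at least `hi`, with `hi` much larger than
`lo` and the length of the window. -/
structure Valley (c : ℤ → ℝ) : Prop where
  nonneg : ∀ j, 0 ≤ c j
  lev : ∀ K : ℕ, ∃ (L R : ℤ) (lo hi : ℝ), L ≤ -(K : ℤ) ∧ (K : ℤ) ≤ R ∧ (K : ℝ) ≤ lo ∧
    (∀ i : ℤ, L ≤ i → i < R → c i ≤ lo) ∧ (∀ i : ℤ, (i < L ∨ R ≤ i) → hi ≤ c i) ∧
    (K : ℝ) * ((R - L : ℤ) + 1 : ℝ) ^ 3 * (lo + 1) ≤ hi

end Crest.Agent.R113.Two
end

-- ▼ part R113/UniBasic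
section

/-!
Row 113, S0150, part (U): basic facts on the weighted shift on `ℓ²(ℤ)`.
-/

set_option autoImplicit false
open Filter Topology
open Crest.AnalysisR.TwoAdic

namespace Crest.Agent.R113.Uni

/-- cumulative function of a cost sequence. -/
noncomputable def gam (c : ℤ → ℝ) : ℤ → ℝ
  | (n : ℕ) => ∑ i ∈ Finset.range n, c i
  | Int.negSucc n => -∑ i ∈ Finset.range (n + 1), c (-(i : ℤ) - 1)

theorem gam_succ (c : ℤ → ℝ) (j : ℤ) : gam c (j + 1) = gam c j + c j := by
  rcases j with n | n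
  · have : (Int.ofNat n + 1 : ℤ) = ((n + 1 : ℕ) : ℤ) := by simp
    rw [this]
    show (∑ i ∈ Finset.range (n + 1), c i) = (∑ i ∈ Finset.range n, c i) + c n
    rw [Finset.sum_range_succ]
  · rcases n with _ | n
    · show gam c ((0 : ℕ) : ℤ) = -∑ i ∈ Finset.range (0 + 1), c (-(i : ℤ) - 1) + c (-1)
      simp [gam]
    · have : (Int.negSucc (n + 1) + 1 : ℤ) = Int.negSucc n := by
        simp [Int.negSucc_eq]
      rw [this]
      show -∑ i ∈ Finset.range (n + 1), c (-(i : ℤ) - 1)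
        = -∑ i ∈ Finset.range (n + 1 + 1), c (-(i : ℤ) - 1) + c (Int.negSucc (n + 1))
      rw [Finset.sum_range_succ _ (n + 1)]
      have h2 : (Int.negSucc (n + 1) : ℤ) = -((n + 1 : ℕ) : ℤ) - 1 := by
        simp [Int.negSucc_eq]; ring
      rw [h2]
      ring

theorem gam_le_of_le {c : ℤ → ℝ} {i j : ℤ} (hij : i ≤ j) {B : ℝ}
    (h : ∀ t, i ≤ t → t < j → c t ≤ B) : gam c j - gam c i ≤ B * ((j : ℝ) - i) := by
  induction j, hij using Int.leInduction with
  | base => simp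
  | succ j hij ih =>
    have h1 := ih (fun t h1 h2 => h t h1 (by linarith))
    have h2 := h j hij (by linarith)
    rw [gam_succ]
    push_cast
    linarith

theorem le_gam_of_le {c : ℤ → ℝ} {i j : ℤ} (hij : i ≤ j) {B : ℝ}
    (h : ∀ t, i ≤ t → t < j → B ≤ c t) : B * ((j : ℝ) - i) ≤ gam c j - gam c i := by
  induction j, hij using Int.leInduction with
  | base => simp
  | succ j hij ih =>
    have h1 := ih (fun t h1 h2 => h t h1 (by linarith))
    have h2 := h j hij (by linarith)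
    rw [gam_succ]
    push_cast
    linarith

theorem gam_mono {c : ℤ → ℝ} (hc : ∀ i, 0 ≤ c i) {i j : ℤ} (hij : i ≤ j) :
    gam c i ≤ gam c j := by
  have := le_gam_of_le (c := c) hij (B := 0) (fun t _ _ => hc t)
  linarith

theorem basisVec_apply (j i : ℤ) : (basisVec j : ℤ → ℂ) i = if i = j then 1 else 0 := by
  unfold basisVec
  rw [lp.single_apply]
  by_cases h : i = j
  · subst h; simp
  · simp [h]

/-- coordinate as a continuous linear functional. -/
theorem coord_eq (f : seqHilbert) (i : ℤ) : inner ℂ (basisVec i) f = (f : ℤ → ℂ) i := by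
  unfold basisVec
  rw [lp.inner_single_left]
  simp

theorem hasSum_basis (f : seqHilbert) : HasSum (fun j : ℤ => (f : ℤ → ℂ) j • basisVec j) f := by
  have h := lp.hasSum_single (p := 2) (by norm_num) f
  have e : (fun j : ℤ => (f : ℤ → ℂ) j • basisVec j) =
      fun j : ℤ => lp.single 2 j ((f : ℤ → ℂ) j) := by
    funext j
    unfold basisVec
    rw [← lp.single_smul]
    simp
  rw [e]
  exact h

/-- `S` is the weighted shift with costs `c`. -/
def IsShift (c : ℤ → ℝ) (S : seqHilbert →L[ℂ] seqHilbert) : Prop :=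
  ∀ j, S (basisVec j) = (Real.exp (-(c j)) : ℂ) • basisVec (j + 1)

theorem shift_apply {c : ℤ → ℝ} {S : seqHilbert →L[ℂ] seqHilbert} (hS : IsShift c S)
    (f : seqHilbert) (j : ℤ) :
    (S f : ℤ → ℂ) (j + 1) = (Real.exp (-(c j)) : ℂ) * (f : ℤ → ℂ) j := by
  have h1 : HasSum (fun i : ℤ => (f : ℤ → ℂ) i • S (basisVec i)) (S f) := by
    have := (hasSum_basis f).mapL S
    simpa using this
  have h2 : HasSum (fun i : ℤ => inner ℂ (basisVec (j + 1)) ((f : ℤ → ℂ) i • S (basisVec i)))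
      (inner ℂ (basisVec (j + 1)) (S f)) := by
    have := h1.mapL (innerSL ℂ (basisVec (j + 1)))
    simpa using this
  rw [coord_eq] at h2
  refine h2.unique ?_
  have e : (fun i : ℤ => inner ℂ (basisVec (j + 1)) ((f : ℤ → ℂ) i • S (basisVec i))) =
      fun i : ℤ => if i = j then (Real.exp (-(c j)) : ℂ) * (f : ℤ → ℂ) j else 0 := by
    funext i
    rw [hS i, inner_smul_right, inner_smul_right, coord_eq, basisVec_apply]
    by_cases h : i = j
    · subst h; simp [mul_comm]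
    · have : ¬ (j + 1 = i + 1) := fun h' => h (by linarith)
      simp [this, h]
  rw [e]
  exact hasSum_ite_eq j _

theorem shift_pow_apply {c : ℤ → ℝ} {S : seqHilbert →L[ℂ] seqHilbert} (hS : IsShift c S)
    (f : seqHilbert) (n : ℕ) (j : ℤ) :
    ((S ^ n) f : ℤ → ℂ) (j + n) =
      (Real.exp (-(gam c (j + n) - gam c j)) : ℂ) * (f : ℤ → ℂ) j := by
  induction n with
  | zero => simp
  | succ n ih =>
    rw [pow_succ', mul_apply_eq_comp]
    have : (j + ((n + 1 : ℕ) : ℤ)) = (j + n) + 1 := by push_cast; ring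
    rw [this, shift_apply hS, ih, gam_succ, ← mul_assoc]
    congr 1
    rw [← Complex.ofReal_mul, ← Real.exp_add]
    congr 2
    ring

theorem norm_sq_hasSum (f : seqHilbert) : HasSum (fun j : ℤ => ‖(f : ℤ → ℂ) j‖ ^ 2) (‖f‖ ^ 2) := by
  have := lp.hasSum_norm (p := 2) (by norm_num) f
  simpa using this

theorem norm_coord_le (f : seqHilbert) (j : ℤ) : ‖(f : ℤ → ℂ) j‖ ≤ ‖f‖ :=
  lp.norm_apply_le_norm (by norm_num) f j

/-- the inner product `⟪g, S^n f⟫` as a sum. -/
theorem hasSum_inner_pow {c : ℤ → ℝ} {S : seqHilbert →L[ℂ] seqHilbert} (hS : IsShift c S)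
    (f g : seqHilbert) (n : ℕ) :
    HasSum (fun j : ℤ => (starRingEnd ℂ) ((g : ℤ → ℂ) (j + n)) *
      ((Real.exp (-(gam c (j + n) - gam c j)) : ℂ) * (f : ℤ → ℂ) j))
      (inner ℂ g ((S ^ n) f)) := by
  have h := lp.hasSum_inner (𝕜 := ℂ) g ((S ^ n) f)
  have h2 := (Equiv.addRight (n : ℤ)).hasSum_iff.mpr h
  have e : (fun j : ℤ => (starRingEnd ℂ) ((g : ℤ → ℂ) (j + n)) *
      ((Real.exp (-(gam c (j + n) - gam c j)) : ℂ) * (f : ℤ → ℂ) j)) =
      (fun i : ℤ => inner ℂ ((g : ℤ → ℂ) i) (((S ^ n) f : ℤ → ℂ) i)) ∘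
        (Equiv.addRight (n : ℤ)) := by
    funext j
    simp only [Function.comp, Equiv.coe_addRight]
    rw [shift_pow_apply hS]
    simp [mul_comm]
  rw [e]
  exact h2

end Crest.Agent.R113.Uni
private theorem rz_26eca3341c : type_of% @_root_.Crest.Agent.R113.Uni.gam.eq_1 := @_root_.Crest.Agent.R113.Uni.gam.eq_1 -- L14
end

-- ▼ part R113/UniMain
section

/-!
Row 113, S0150, part (U): non-vanishing of `⟪g, S^n f⟫`.
-/

set_option autoImplicit false
open Filter Topology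
open Crest.AnalysisR.TwoAdic

namespace Crest.Agent.R113.Uni

theorem exists_max_left (a : ℤ → ℝ) (k0 N : ℤ) (hN : N ≤ k0) (h : ∀ k, k < N → a k ≤ a k0) :
    ∃ k, N ≤ k ∧ k ≤ k0 ∧ ∀ j, j ≤ k0 → a j ≤ a k := by
  obtain ⟨k, hk, hk2⟩ := Finset.exists_max_image (Finset.Icc N k0) a ⟨k0, by simp [hN]⟩
  rw [Finset.mem_Icc] at hk
  refine ⟨k, hk.1, hk.2, fun j hj => ?_⟩
  by_cases hjN : j < N
  · exact (h j hjN).trans (hk2 k0 (by simp [hN]))
  · exact hk2 j (by simp; omega)

theorem exists_max_right (a : ℤ → ℝ) (l0 N : ℤ) (hN : l0 ≤ N) (h : ∀ k, N < k → a k ≤ a l0) :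
    ∃ k, k ≤ N ∧ l0 ≤ k ∧ ∀ j, l0 ≤ j → a j ≤ a k := by
  obtain ⟨k, hk, hk2⟩ := Finset.exists_max_image (Finset.Icc l0 N) a ⟨l0, by simp [hN]⟩
  rw [Finset.mem_Icc] at hk
  refine ⟨k, hk.2, hk.1, fun j hj => ?_⟩
  by_cases hjN : N < j
  · exact (h j hjN).trans (hk2 l0 (by simp [hN]))
  · exact hk2 j (by simp; omega)

/-- tilted left weights. -/
noncomputable def wA (c F : ℤ → ℝ) (lam : ℝ) (k : ℤ) : ℝ :=
  F k * Real.exp (gam c k - lam * k)

/-- tilted right weights. -/
noncomputable def wB (c G : ℤ → ℝ) (lam : ℝ) (l : ℤ) : ℝ :=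
  G l * Real.exp (-gam c l + lam * l)

theorem wA_far {c F : ℤ → ℝ} {L lam nF : ℝ} {P : ℕ} {k0 : ℤ} (hc0 : ∀ i, 0 ≤ c i)
    (hL : 0 < L) (hlam : lam ≤ 4 * L) (hlam0 : 0 ≤ lam)
    (hP : ∀ i : ℤ, i < -(P : ℤ) → 16 * L ≤ c i)
    (hFn : ∀ j, F j ≤ nF) (hF0 : 0 ≤ F k0) (hnF : nF ≤ F k0 * Real.exp (12 * L)) (k : ℤ)
    (hk : k < -(2 * (|k0| + P))) : wA c F lam k ≤ wA c F lam k0 := by
  set K : ℤ := |k0| + P with hK
  have hk0 : |k0| ≤ K := by omega
  have hk0' := abs_le.mp hk0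
  have hKnn : 0 ≤ K := (abs_nonneg k0).trans hk0
  have h1 : 16 * L * (((-K : ℤ) : ℝ) - k) ≤ gam c (-K) - gam c k := by
    refine le_gam_of_le (by omega) ?_
    intro t _ ht
    apply hP
    have := abs_nonneg k0
    omega
  have h2 : gam c (-K) ≤ gam c k0 := gam_mono hc0 (by omega)
  have hkR : (k : ℝ) ≤ -(2 * (K : ℝ)) - 1 := by
    have : k + 1 ≤ -(2 * K) := by omega
    have : ((k + 1 : ℤ) : ℝ) ≤ ((-(2 * K) : ℤ) : ℝ) := by exact_mod_cast this
    push_cast at this
    linarith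
  have hk0R : (k0 : ℝ) ≤ K := by exact_mod_cast hk0'.2
  have hKR : (0 : ℝ) ≤ K := by exact_mod_cast hKnn
  have h3 : 12 * L ≤ gam c k0 - gam c k - lam * (k0 - k) := by
    have h4 : lam * ((k0 : ℝ) - k) ≤ 4 * L * ((K : ℝ) - k) := by
      have : (0 : ℝ) ≤ (K : ℝ) - k := by linarith
      calc lam * ((k0 : ℝ) - k) ≤ lam * ((K : ℝ) - k) := by
            apply mul_le_mul_of_nonneg_left _ hlam0; linarith
        _ ≤ 4 * L * ((K : ℝ) - k) := mul_le_mul_of_nonneg_right hlam this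
    push_cast at h1
    nlinarith
  unfold wA
  calc F k * Real.exp (gam c k - lam * k) ≤ nF * Real.exp (gam c k - lam * k) :=
        mul_le_mul_of_nonneg_right (hFn k) (Real.exp_pos _).le
    _ ≤ (F k0 * Real.exp (12 * L)) * Real.exp (gam c k - lam * k) :=
        mul_le_mul_of_nonneg_right hnF (Real.exp_pos _).le
    _ = F k0 * Real.exp (12 * L + (gam c k - lam * k)) := by rw [mul_assoc, ← Real.exp_add]
    _ ≤ F k0 * Real.exp (gam c k0 - lam * k0) := by
        apply mul_le_mul_of_nonneg_left _ hF0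
        apply Real.exp_le_exp.mpr
        linarith

theorem wB_far {c G : ℤ → ℝ} {L lam nG : ℝ} {P : ℕ} {l0 : ℤ} (hc0 : ∀ i, 0 ≤ c i)
    (hL : 0 < L) (hlam : lam ≤ 4 * L) (hlam0 : 0 ≤ lam)
    (hP : ∀ i : ℤ, (P : ℤ) ≤ i → 16 * L ≤ c i)
    (hGn : ∀ j, G j ≤ nG) (hG0 : 0 ≤ G l0) (hnG : nG ≤ G l0 * Real.exp (12 * L)) (l : ℤ)
    (hl : 2 * (|l0| + P) < l) : wB c G lam l ≤ wB c G lam l0 := by
  set K : ℤ := |l0| + P with hK
  have hl0 : |l0| ≤ K := by omega
  have hl0' := abs_le.mp hl0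
  have hKnn : 0 ≤ K := (abs_nonneg l0).trans hl0
  have h1 : 16 * L * ((l : ℝ) - (K : ℝ)) ≤ gam c l - gam c K := by
    refine le_gam_of_le (by omega) ?_
    intro t ht _
    apply hP
    have := abs_nonneg l0
    omega
  have h2 : gam c l0 ≤ gam c K := gam_mono hc0 (by omega)
  have hlR : 2 * (K : ℝ) + 1 ≤ l := by
    have : 2 * K + 1 ≤ l := by omega
    exact_mod_cast this
  have hl0R : -(K : ℝ) ≤ l0 := by exact_mod_cast hl0'.1
  have hKR : (0 : ℝ) ≤ K := by exact_mod_cast hKnn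
  have h3 : 12 * L ≤ gam c l - gam c l0 - lam * (l - l0) := by
    have h4 : lam * ((l : ℝ) - l0) ≤ 4 * L * ((l : ℝ) + K) := by
      have : (0 : ℝ) ≤ (l : ℝ) + K := by linarith
      calc lam * ((l : ℝ) - l0) ≤ lam * ((l : ℝ) + K) := by
            apply mul_le_mul_of_nonneg_left _ hlam0; linarith
        _ ≤ 4 * L * ((l : ℝ) + K) := mul_le_mul_of_nonneg_right hlam this
    nlinarith
  unfold wB
  calc G l * Real.exp (-gam c l + lam * l) ≤ nG * Real.exp (-gam c l + lam * l) :=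
        mul_le_mul_of_nonneg_right (hGn l) (Real.exp_pos _).le
    _ ≤ (G l0 * Real.exp (12 * L)) * Real.exp (-gam c l + lam * l) :=
        mul_le_mul_of_nonneg_right hnG (Real.exp_pos _).le
    _ = G l0 * Real.exp (12 * L + (-gam c l + lam * l)) := by rw [mul_assoc, ← Real.exp_add]
    _ ≤ G l0 * Real.exp (-gam c l0 + lam * l0) := by
        apply mul_le_mul_of_nonneg_left _ hG0
        apply Real.exp_le_exp.mpr
        linarith

/-- maximisers move to the left when `lam` grows. -/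
theorem argmax_left_mono {c F : ℤ → ℝ} {k0 k k' : ℤ} {lam lam' : ℝ} (hl : lam < lam')
    (hk0 : 0 < F k0) (hk : k ≤ k0) (hk' : k' ≤ k0)
    (h : ∀ j, j ≤ k0 → wA c F lam j ≤ wA c F lam k)
    (h' : ∀ j, j ≤ k0 → wA c F lam' j ≤ wA c F lam' k') : k' ≤ k := by
  have hpos : 0 < wA c F lam k := lt_of_lt_of_le (by unfold wA; positivity) (h k0 le_rfl)
  have e : ∀ j, wA c F lam' j = wA c F lam j * Real.exp (-(lam' - lam) * j) := by
    intro j
    unfold wA
    rw [mul_assoc, ← Real.exp_add]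
    congr 2
    ring
  have h1 := h' k hk
  rw [e, e] at h1
  have h2 : wA c F lam k' * Real.exp (-(lam' - lam) * k') ≤
      wA c F lam k * Real.exp (-(lam' - lam) * k') :=
    mul_le_mul_of_nonneg_right (h k' hk') (Real.exp_pos _).le
  have h3 : Real.exp (-(lam' - lam) * k) ≤ Real.exp (-(lam' - lam) * k') :=
    le_of_mul_le_mul_left (h1.trans h2) hpos
  have h4 := Real.exp_le_exp.mp h3
  have h5 : (k' : ℝ) ≤ k := by nlinarith
  exact_mod_cast h5

theorem argmax_right_mono {c G : ℤ → ℝ} {l0 l l' : ℤ} {lam lam' : ℝ} (hl : lam < lam')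
    (hl0 : 0 < G l0) (hk : l0 ≤ l) (hk' : l0 ≤ l')
    (h : ∀ j, l0 ≤ j → wB c G lam j ≤ wB c G lam l)
    (h' : ∀ j, l0 ≤ j → wB c G lam' j ≤ wB c G lam' l') : l ≤ l' := by
  have hpos : 0 < wB c G lam l := lt_of_lt_of_le (by unfold wB; positivity) (h l0 le_rfl)
  have e : ∀ j, wB c G lam' j = wB c G lam j * Real.exp ((lam' - lam) * j) := by
    intro j
    unfold wB
    rw [mul_assoc, ← Real.exp_add]
    congr 2
    ring
  have h1 := h' l hk
  rw [e, e] at h1
  have h2 : wB c G lam l' * Real.exp ((lam' - lam) * l') ≤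
      wB c G lam l * Real.exp ((lam' - lam) * l') :=
    mul_le_mul_of_nonneg_right (h l' hk') (Real.exp_pos _).le
  have h3 : Real.exp ((lam' - lam) * l) ≤ Real.exp ((lam' - lam) * l') :=
    le_of_mul_le_mul_left (h1.trans h2) hpos
  have h4 := Real.exp_le_exp.mp h3
  have h5 : (l : ℝ) ≤ l' := by nlinarith
  exact_mod_cast h5

/-- the absolute value of the `j`-th term of `⟪g, S^n f⟫`. -/
noncomputable def trm (c F G : ℤ → ℝ) (n j : ℤ) : ℝ :=
  F j * G (j + n) * Real.exp (-(gam c (j + n) - gam c j))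

theorem trm_eq (c F G : ℤ → ℝ) (n j : ℤ) (lam lam' : ℝ) :
    trm c F G n j = wA c F lam j * wB c G lam' (j + n) * Real.exp (lam * j - lam' * (j + n)) := by
  unfold trm wA wB
  have : F j * Real.exp (gam c j - lam * j) *
      (G (j + n) * Real.exp (-gam c (j + n) + lam' * ((j + n : ℤ) : ℝ))) *
      Real.exp (lam * j - lam' * (j + n)) =
      F j * G (j + n) * (Real.exp (gam c j - lam * j) *
        Real.exp (-gam c (j + n) + lam' * ((j + n : ℤ) : ℝ)) *
        Real.exp (lam * j - lam' * (j + n))) := by ring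
  rw [this, ← Real.exp_add, ← Real.exp_add]
  congr 2
  push_cast
  ring

section bounds
variable {c F G : ℤ → ℝ} {L lam1 lam2 nF nG : ℝ} {a b k0 l0 k l n : ℤ}

theorem wA_nonneg (hF : ∀ j, 0 ≤ F j) (lam : ℝ) (j : ℤ) : 0 ≤ wA c F lam j :=
  mul_nonneg (hF j) (Real.exp_pos _).le

theorem wB_nonneg (hG : ∀ j, 0 ≤ G j) (lam : ℝ) (j : ℤ) : 0 ≤ wB c G lam j :=
  mul_nonneg (hG j) (Real.exp_pos _).le

theorem trm_nonneg (hF : ∀ j, 0 ≤ F j) (hG : ∀ j, 0 ≤ G j) (n j : ℤ) : 0 ≤ trm c F G n j :=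
  mul_nonneg (mul_nonneg (hF j) (hG _)) (Real.exp_pos _).le

/-- middle terms to the right of the centre. -/
theorem bound_mid_right (hF : ∀ j, 0 ≤ F j) (hG : ∀ j, 0 ≤ G j) (hn : n = l - k)
    (hA1 : ∀ j, j ≤ k0 → wA c F lam1 j ≤ wA c F lam1 k)
    (hB2 : ∀ j, l0 ≤ j → wB c G lam2 j ≤ wB c G lam2 l) (j : ℤ) (hj : j ≤ k0)
    (hjn : l0 ≤ j + n) :
    trm c F G n j ≤ trm c F G n k * Real.exp (-(lam2 - lam1) * ((j : ℝ) - k)) := by
  have hkn : k + n = l := by omega
  rw [trm_eq c F G n j lam1 lam2, trm_eq c F G n k lam1 lam2, hkn]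
  have h1 : wA c F lam1 j * wB c G lam2 (j + n) ≤ wA c F lam1 k * wB c G lam2 l :=
    mul_le_mul (hA1 j hj) (hB2 _ hjn) (wB_nonneg hG _ _) (wA_nonneg hF _ _)
  calc _ ≤ wA c F lam1 k * wB c G lam2 l * Real.exp (lam1 * j - lam2 * (j + n)) :=
        mul_le_mul_of_nonneg_right h1 (Real.exp_pos _).le
    _ = _ := by
        rw [mul_assoc (wA c F lam1 k * wB c G lam2 l), ← Real.exp_add]
        congr 2
        have : (n : ℝ) = l - k := by rw [hn]; push_cast; ring
        rw [this]; ring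

theorem bound_mid_left (hF : ∀ j, 0 ≤ F j) (hG : ∀ j, 0 ≤ G j) (hn : n = l - k)
    (hA2 : ∀ j, j ≤ k0 → wA c F lam2 j ≤ wA c F lam2 k)
    (hB1 : ∀ j, l0 ≤ j → wB c G lam1 j ≤ wB c G lam1 l) (j : ℤ) (hj : j ≤ k0)
    (hjn : l0 ≤ j + n) :
    trm c F G n j ≤ trm c F G n k * Real.exp (-(lam2 - lam1) * ((k : ℝ) - j)) := by
  have hkn : k + n = l := by omega
  rw [trm_eq c F G n j lam2 lam1, trm_eq c F G n k lam2 lam1, hkn]
  have h1 : wA c F lam2 j * wB c G lam1 (j + n) ≤ wA c F lam2 k * wB c G lam1 l :=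
    mul_le_mul (hA2 j hj) (hB1 _ hjn) (wB_nonneg hG _ _) (wA_nonneg hF _ _)
  calc _ ≤ wA c F lam2 k * wB c G lam1 l * Real.exp (lam2 * j - lam1 * (j + n)) :=
        mul_le_mul_of_nonneg_right h1 (Real.exp_pos _).le
    _ = _ := by
        rw [mul_assoc (wA c F lam2 k * wB c G lam1 l), ← Real.exp_add]
        congr 2
        have : (n : ℝ) = l - k := by rw [hn]; push_cast; ring
        rw [this]; ring

/-- terms starting to the right of `k0` but inside of the low window. -/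
theorem bound_right_low (hlow : ∀ i, a ≤ i → i < b → c i ≤ L / 4) (hak : a ≤ k0)
    (hG : ∀ j, 0 ≤ G j) (hFn : ∀ j, F j ≤ nF) (hF : ∀ j, 0 ≤ F j)
    (hF0 : 0 < F k0) (hL : L ≤ lam2) (hn : n = l - k) (hkk : k ≤ k0)
    (hA2 : ∀ j, j ≤ k0 → wA c F lam2 j ≤ wA c F lam2 k)
    (hB2 : ∀ j, l0 ≤ j → wB c G lam2 j ≤ wB c G lam2 l) (hl : l0 ≤ l) (j : ℤ) (hj : k0 < j)
    (hjb : j ≤ b) :
    trm c F G n j ≤ trm c F G n k *
      (nF / F k0 * Real.exp (-(3 / 4 * L) * ((j : ℝ) - k0))) := by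
  have hkn : k + n = l := by omega
  have hjn : l0 ≤ j + n := by omega
  have hjk : (k0 : ℝ) < j := by exact_mod_cast hj
  have hn' : (n : ℝ) = l - k := by rw [hn]; push_cast; ring
  rw [trm_eq c F G n j lam2 lam2, trm_eq c F G n k lam2 lam2, hkn]
  have e1 : wA c F lam2 j ≤ wA c F lam2 k * (nF / F k0 *
      Real.exp (gam c j - gam c k0 - lam2 * (j - k0))) := by
    have h0 : wA c F lam2 k0 ≤ wA c F lam2 k := hA2 k0 le_rfl
    calc wA c F lam2 j ≤ nF * Real.exp (gam c j - lam2 * j) :=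
          mul_le_mul_of_nonneg_right (hFn j) (Real.exp_pos _).le
      _ = wA c F lam2 k0 * (nF / F k0 * Real.exp (gam c j - gam c k0 - lam2 * (j - k0))) := by
          unfold wA
          have : F k0 * Real.exp (gam c k0 - lam2 * k0) * (nF / F k0 *
              Real.exp (gam c j - gam c k0 - lam2 * (j - k0))) =
              nF * (Real.exp (gam c k0 - lam2 * k0) *
                Real.exp (gam c j - gam c k0 - lam2 * (j - k0))) := by
            field_simp
          rw [this, ← Real.exp_add]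
          congr 2
          ring
      _ ≤ _ := by
          apply mul_le_mul_of_nonneg_right h0
          have : 0 ≤ nF := (hF j).trans (hFn j)
          positivity
  have e2 : gam c j - gam c k0 ≤ L / 4 * ((j : ℝ) - k0) := by
    refine gam_le_of_le hj.le ?_
    intro t h1 h2
    exact hlow t (by omega) (by omega)
  have e3 : Real.exp (gam c j - gam c k0 - lam2 * (j - k0)) ≤
      Real.exp (-(3 / 4 * L) * ((j : ℝ) - k0)) := by
    apply Real.exp_le_exp.mpr
    nlinarith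
  have hnF : 0 ≤ nF := (hF j).trans (hFn j)
  have e4 : wA c F lam2 j ≤ wA c F lam2 k * (nF / F k0 *
      Real.exp (-(3 / 4 * L) * ((j : ℝ) - k0))) := by
    refine e1.trans ?_
    apply mul_le_mul_of_nonneg_left _ (wA_nonneg hF _ _)
    apply mul_le_mul_of_nonneg_left e3
    positivity
  have h1 : wA c F lam2 j * wB c G lam2 (j + n) ≤ (wA c F lam2 k * (nF / F k0 *
      Real.exp (-(3 / 4 * L) * ((j : ℝ) - k0)))) * wB c G lam2 l :=
    mul_le_mul e4 (hB2 _ hjn) (wB_nonneg hG _ _)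
      (mul_nonneg (wA_nonneg hF _ _) (by positivity))
  have e5 : Real.exp (lam2 * j - lam2 * (j + n)) = Real.exp (lam2 * k - lam2 * (k + n)) := by
    congr 1; ring
  calc _ ≤ (wA c F lam2 k * (nF / F k0 *
      Real.exp (-(3 / 4 * L) * ((j : ℝ) - k0)))) * wB c G lam2 l *
        Real.exp (lam2 * j - lam2 * (j + n)) :=
        mul_le_mul_of_nonneg_right h1 (Real.exp_pos _).le
    _ = _ := by rw [e5]; ring

/-- terms ending to the left of `l0` but inside of the low window. -/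
theorem bound_left_low (hlow : ∀ i, a ≤ i → i < b → c i ≤ L / 4) (hlb : l0 ≤ b)
    (hG : ∀ j, 0 ≤ G j) (hGn : ∀ j, G j ≤ nG) (hF : ∀ j, 0 ≤ F j)
    (hG0 : 0 < G l0) (hL : L ≤ lam2) (hn : n = l - k) (hkk : k ≤ k0)
    (hA2 : ∀ j, j ≤ k0 → wA c F lam2 j ≤ wA c F lam2 k)
    (hB2 : ∀ j, l0 ≤ j → wB c G lam2 j ≤ wB c G lam2 l) (hl : l0 ≤ l) (j : ℤ)
    (hj : j + n < l0) (hja : a ≤ j + n) :
    trm c F G n j ≤ trm c F G n k *
      (nG / G l0 * Real.exp (-(3 / 4 * L) * ((l0 : ℝ) - (j + n)))) := by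
  have hkn : k + n = l := by omega
  have hjk : ((j : ℝ) + n) < l0 := by exact_mod_cast hj
  have hjk0 : j ≤ k0 := by omega
  rw [trm_eq c F G n j lam2 lam2, trm_eq c F G n k lam2 lam2, hkn]
  have hnG : 0 ≤ nG := (hG j).trans (hGn j)
  have e1 : wB c G lam2 (j + n) ≤ wB c G lam2 l * (nG / G l0 *
      Real.exp (gam c l0 - gam c (j + n) - lam2 * (l0 - (j + n)))) := by
    have h0 : wB c G lam2 l0 ≤ wB c G lam2 l := hB2 l0 le_rfl
    calc wB c G lam2 (j + n) ≤ nG * Real.exp (-gam c (j + n) + lam2 * ((j + n : ℤ) : ℝ)) :=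
          mul_le_mul_of_nonneg_right (hGn _) (Real.exp_pos _).le
      _ = wB c G lam2 l0 * (nG / G l0 *
            Real.exp (gam c l0 - gam c (j + n) - lam2 * (l0 - (j + n)))) := by
          unfold wB
          have : G l0 * Real.exp (-gam c l0 + lam2 * l0) * (nG / G l0 *
              Real.exp (gam c l0 - gam c (j + n) - lam2 * (l0 - (j + n)))) =
              nG * (Real.exp (-gam c l0 + lam2 * l0) *
                Real.exp (gam c l0 - gam c (j + n) - lam2 * (l0 - (j + n)))) := by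
            field_simp
          rw [this, ← Real.exp_add]
          congr 2
          push_cast
          ring
      _ ≤ _ := by
          apply mul_le_mul_of_nonneg_right h0
          positivity
  have e2 : gam c l0 - gam c (j + n) ≤ L / 4 * ((l0 : ℝ) - ((j + n : ℤ) : ℝ)) := by
    refine gam_le_of_le hj.le ?_
    intro t h1 h2
    exact hlow t (by omega) (by omega)
  push_cast at e2
  have e3 : Real.exp (gam c l0 - gam c (j + n) - lam2 * (l0 - (j + n))) ≤
      Real.exp (-(3 / 4 * L) * ((l0 : ℝ) - (j + n))) := by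
    apply Real.exp_le_exp.mpr
    nlinarith
  have e4 : wB c G lam2 (j + n) ≤ wB c G lam2 l * (nG / G l0 *
      Real.exp (-(3 / 4 * L) * ((l0 : ℝ) - (j + n)))) := by
    refine e1.trans ?_
    apply mul_le_mul_of_nonneg_left _ (wB_nonneg hG _ _)
    apply mul_le_mul_of_nonneg_left e3
    positivity
  have h1 : wA c F lam2 j * wB c G lam2 (j + n) ≤ wA c F lam2 k * (wB c G lam2 l * (nG / G l0 *
      Real.exp (-(3 / 4 * L) * ((l0 : ℝ) - (j + n))))) :=
    mul_le_mul (hA2 j hjk0) e4 (wB_nonneg hG _ _) (wA_nonneg hF _ _)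
  have e5 : Real.exp (lam2 * j - lam2 * (j + n)) = Real.exp (lam2 * k - lam2 * (k + n)) := by
    congr 1; ring
  calc _ ≤ wA c F lam2 k * (wB c G lam2 l * (nG / G l0 *
      Real.exp (-(3 / 4 * L) * ((l0 : ℝ) - (j + n))))) *
        Real.exp (lam2 * j - lam2 * (j + n)) :=
        mul_le_mul_of_nonneg_right h1 (Real.exp_pos _).le
    _ = _ := by rw [e5]; ring

/-- terms whose window lies completely in the high region. -/
theorem bound_high (hF : ∀ j, 0 ≤ F j) (hG : ∀ j, 0 ≤ G j) (hn : 0 ≤ n) (j : ℤ)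
    (h : ∀ t, j ≤ t → t < j + n → 16 * L ≤ c t) :
    trm c F G n j ≤ Real.exp (-(16 * L) * n) * (F j * G (j + n)) := by
  have h1 : 16 * L * (((j + n : ℤ) : ℝ) - j) ≤ gam c (j + n) - gam c j :=
    le_gam_of_le (by omega) h
  push_cast at h1
  unfold trm
  rw [mul_comm (Real.exp (-(16 * L) * n))]
  apply mul_le_mul_of_nonneg_left _ (mul_nonneg (hF _) (hG _))
  apply Real.exp_le_exp.mpr
  linarith

end bounds

end Crest.Agent.R113.Uni
end

-- ▼ part R113/UniCore
section

/-!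
Row 113, S0150, part (U): the unicellular lemma for a valley-shaped weighted shift.
-/

set_option autoImplicit false
open Filter Topology
open Crest.AnalysisR.TwoAdic
open Crest.Agent.R113.Uni

namespace Crest.Agent.R113.Two

/-- summable weight on `ℤ`. -/
theorem summable_ew : Summable fun d : ℤ => Real.exp (-|(d : ℝ)|) := by
  have h : Summable fun n : ℕ => Real.exp (-(n : ℝ)) := by
    have := Real.summable_exp_neg_nat
    simpa using this
  refine Summable.of_nat_of_neg ?_ ?_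
  · simpa using h
  · simpa using h

/-- the total weight. -/
noncomputable def WW : ℝ := ∑' d : ℤ, Real.exp (-|(d : ℝ)|)

theorem WW_nonneg : 0 ≤ WW := tsum_nonneg fun _ => (Real.exp_pos _).le

theorem hasSum_ew (t : ℤ) : HasSum (fun j : ℤ => Real.exp (-|(j : ℝ) - t|)) WW := by
  have h := (Equiv.addRight (-t)).hasSum_iff.mpr summable_ew.hasSum
  have e : (fun j : ℤ => Real.exp (-|(j : ℝ) - t|)) =
      (fun d : ℤ => Real.exp (-|(d : ℝ)|)) ∘ (Equiv.addRight (-t)) := by
    funext j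
    simp [sub_eq_add_neg]
  rw [e]
  exact h

theorem ew_le {mu : ℝ} (hmu : 1 ≤ mu) {x : ℝ} (hx : 1 ≤ |x|) :
    Real.exp (-mu * |x|) ≤ Real.exp (-(mu - 1)) * Real.exp (-|x|) := by
  rw [← Real.exp_add]
  apply Real.exp_le_exp.mpr
  nlinarith

theorem one_le_abs_of_ne {i j : ℤ} (h : i ≠ j) : 1 ≤ |(i : ℝ) - j| := by
  have h1 : 1 ≤ |i - j| := Int.one_le_abs (sub_ne_zero.mpr h)
  exact_mod_cast h1

section
variable {c F G : ℤ → ℝ} {L lam1 lam2 nF nG : ℝ} {a b k0 l0 k l n : ℤ}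

/-- the dominating function. -/
noncomputable def bdf (c F G : ℤ → ℝ) (L mu nF nG : ℝ) (k0 l0 k n j : ℤ) : ℝ :=
  trm c F G n k * (Real.exp (-(mu - 1)) * Real.exp (-|(j : ℝ) - k|) +
    nF / F k0 * (Real.exp (-(3 / 4 * L - 1)) * Real.exp (-|(j : ℝ) - k0|)) +
    nG / G l0 * (Real.exp (-(3 / 4 * L - 1)) * Real.exp (-|(j : ℝ) - (l0 - n : ℤ)|))) +
  Real.exp (-(16 * L) * n) * ((F j ^ 2 + G (j + n) ^ 2) / 2)

theorem trm_le_bdf {mu : ℝ} (hmu : 1 ≤ mu) (hlam : lam2 - lam1 = mu) (hL43 : 1 ≤ 3 / 4 * L)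
    (hlow : ∀ i, a ≤ i → i < b → c i ≤ L / 4)
    (hhigh : ∀ i, (i < a ∨ b ≤ i) → 16 * L ≤ c i)
    (hak : a ≤ k0) (hlb : l0 ≤ b) (hkl0 : k0 < l0)
    (hF : ∀ j, 0 ≤ F j) (hG : ∀ j, 0 ≤ G j) (hFn : ∀ j, F j ≤ nF) (hGn : ∀ j, G j ≤ nG)
    (hF0 : 0 < F k0) (hG0 : 0 < G l0) (hL : L ≤ lam2)
    (hkk : k ≤ k0) (hll : l0 ≤ l) (hn : n = l - k)
    (hA1 : ∀ j, j ≤ k0 → wA c F lam1 j ≤ wA c F lam1 k)
    (hA2 : ∀ j, j ≤ k0 → wA c F lam2 j ≤ wA c F lam2 k)
    (hB1 : ∀ j, l0 ≤ j → wB c G lam1 j ≤ wB c G lam1 l)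
    (hB2 : ∀ j, l0 ≤ j → wB c G lam2 j ≤ wB c G lam2 l) (j : ℤ) (hj : j ≠ k) :
    trm c F G n j ≤ bdf c F G L mu nF nG k0 l0 k n j := by
  have hT : 0 ≤ trm c F G n k := trm_nonneg hF hG n k
  have hnF : 0 ≤ nF := (hF j).trans (hFn j)
  have hnG : 0 ≤ nG := (hG j).trans (hGn j)
  have hFG : F j * G (j + n) ≤ (F j ^ 2 + G (j + n) ^ 2) / 2 := by
    nlinarith [sq_nonneg (F j - G (j + n))]
  have p1 : 0 ≤ Real.exp (-(mu - 1)) * Real.exp (-|(j : ℝ) - k|) := by positivity
  have p2 : 0 ≤ nF / F k0 * (Real.exp (-(3 / 4 * L - 1)) * Real.exp (-|(j : ℝ) - k0|)) := by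
    positivity
  have p3 : 0 ≤ nG / G l0 * (Real.exp (-(3 / 4 * L - 1)) *
      Real.exp (-|(j : ℝ) - (l0 - n : ℤ)|)) := by positivity
  have p4 : 0 ≤ Real.exp (-(16 * L) * n) * ((F j ^ 2 + G (j + n) ^ 2) / 2) := by positivity
  unfold bdf
  by_cases h1 : j ≤ k0
  · by_cases h2 : l0 ≤ j + n
    · -- middle terms
      have hkey : trm c F G n j ≤ trm c F G n k *
          (Real.exp (-(mu - 1)) * Real.exp (-|(j : ℝ) - k|)) := by
        have h5 := one_le_abs_of_ne hj
        have h6 := ew_le hmu h5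
        rcases lt_or_gt_of_ne hj with h3 | h3
        · have h4 := bound_mid_left hF hG hn hA2 hB1 j h1 h2
          rw [hlam] at h4
          have h7 : |(j : ℝ) - k| = (k : ℝ) - j := by
            rw [abs_of_neg]; · ring
            have : (j : ℝ) < k := by exact_mod_cast h3
            linarith
          rw [h7] at h6 ⊢
          exact h4.trans (mul_le_mul_of_nonneg_left h6 hT)
        · have h4 := bound_mid_right hF hG hn hA1 hB2 j h1 h2
          rw [hlam] at h4
          have h7 : |(j : ℝ) - k| = (j : ℝ) - k := by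
            rw [abs_of_pos]
            have : (k : ℝ) < j := by exact_mod_cast h3
            linarith
          rw [h7] at h6 ⊢
          exact h4.trans (mul_le_mul_of_nonneg_left h6 hT)
      have := mul_nonneg hT p2
      have := mul_nonneg hT p3
      nlinarith
    · push Not at h2
      by_cases h3 : a ≤ j + n
      · have h4 := bound_left_low hlow hlb hG hGn hF hG0 hL hn hkk hA2 hB2 hll j h2 h3
        have h5 : 1 ≤ |(j : ℝ) - (l0 - n : ℤ)| := one_le_abs_of_ne (by omega)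
        have h6 := ew_le hL43 h5
        have h7 : |(j : ℝ) - (l0 - n : ℤ)| = (l0 : ℝ) - (j + n) := by
          rw [abs_of_neg]; · push_cast; ring
          have : ((j : ℝ) + n) < l0 := by exact_mod_cast h2
          push_cast
          linarith
        have hkey : trm c F G n j ≤ trm c F G n k * (nG / G l0 *
            (Real.exp (-(3 / 4 * L - 1)) * Real.exp (-|(j : ℝ) - (l0 - n : ℤ)|))) := by
          rw [h7] at h6 ⊢
          refine h4.trans (mul_le_mul_of_nonneg_left ?_ hT)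
          exact mul_le_mul_of_nonneg_left h6 (by positivity)
        have := mul_nonneg hT p1
        have := mul_nonneg hT p2
        nlinarith
      · push Not at h3
        have h4 := bound_high (L := L) (c := c) hF hG (n := n) (by omega) j
          (fun t h5 h6 => hhigh t (Or.inl (by omega)))
        have h5 := mul_le_mul_of_nonneg_left hFG (Real.exp_pos (-(16 * L) * n)).le
        have := mul_nonneg hT p1
        have := mul_nonneg hT p2
        have := mul_nonneg hT p3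
        nlinarith
  · push Not at h1
    by_cases h3 : j ≤ b
    · have h4 := bound_right_low hlow hak hG hFn hF hF0 hL hn hkk hA2 hB2 hll j h1 h3
      have h5 : 1 ≤ |(j : ℝ) - k0| := one_le_abs_of_ne (by omega)
      have h6 := ew_le hL43 h5
      have h7 : |(j : ℝ) - k0| = (j : ℝ) - k0 := by
        rw [abs_of_pos]
        have : (k0 : ℝ) < j := by exact_mod_cast h1
        linarith
      have hkey : trm c F G n j ≤ trm c F G n k * (nF / F k0 *
          (Real.exp (-(3 / 4 * L - 1)) * Real.exp (-|(j : ℝ) - k0|))) := by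
        rw [h7] at h6 ⊢
        refine h4.trans (mul_le_mul_of_nonneg_left ?_ hT)
        exact mul_le_mul_of_nonneg_left h6 (by positivity)
      have := mul_nonneg hT p1
      have := mul_nonneg hT p3
      nlinarith
    · push Not at h3
      have h4 := bound_high (L := L) (c := c) hF hG (n := n) (by omega) j
        (fun t h5 h6 => hhigh t (Or.inr (by omega)))
      have h5 := mul_le_mul_of_nonneg_left hFG (Real.exp_pos (-(16 * L) * n)).le
      have := mul_nonneg hT p1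
      have := mul_nonneg hT p2
      have := mul_nonneg hT p3
      nlinarith

theorem bdf_nonneg {mu : ℝ} (hF : ∀ j, 0 ≤ F j) (hG : ∀ j, 0 ≤ G j) (hnF : 0 ≤ nF)
    (hnG : 0 ≤ nG) (j : ℤ) : 0 ≤ bdf c F G L mu nF nG k0 l0 k n j := by
  have hT : 0 ≤ trm c F G n k := trm_nonneg hF hG n k
  have := hF k0
  have := hG l0
  unfold bdf
  positivity

theorem hasSum_bdf {mu : ℝ} {sF sG : ℝ} (hsF : HasSum (fun j => F j ^ 2) sF)
    (hsG : HasSum (fun j => G j ^ 2) sG) :
    HasSum (bdf c F G L mu nF nG k0 l0 k n)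
      (trm c F G n k * (Real.exp (-(mu - 1)) * WW +
        nF / F k0 * (Real.exp (-(3 / 4 * L - 1)) * WW) +
        nG / G l0 * (Real.exp (-(3 / 4 * L - 1)) * WW)) +
      Real.exp (-(16 * L) * n) * ((sF + sG) / 2)) := by
  unfold bdf
  have h1 := (hasSum_ew k).mul_left (Real.exp (-(mu - 1)))
  have h2 := ((hasSum_ew k0).mul_left (Real.exp (-(3 / 4 * L - 1)))).mul_left (nF / F k0)
  have h3 := ((hasSum_ew (l0 - n)).mul_left (Real.exp (-(3 / 4 * L - 1)))).mul_left (nG / G l0)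
  have h4 : HasSum (fun j => G (j + n) ^ 2) sG := by
    have := (Equiv.addRight n).hasSum_iff.mpr hsG
    simpa [Function.comp_def] using this
  have h5 := ((hsF.add h4).div_const 2).mul_left (Real.exp (-(16 * L) * n))
  exact (((h1.add h2).add h3).mul_left (trm c F G n k)).add h5

theorem centre_lower (hF0 : 0 < F k0) (hG0 : 0 < G l0) (hF : ∀ j, 0 ≤ F j)
    (hG : ∀ j, 0 ≤ G j) (hkl0 : k0 < l0)
    (hn : n = l - k) (hnn : 0 ≤ n) (hlam0 : 0 ≤ lam1) (hlam : lam1 ≤ 4 * L)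
    (hA1 : ∀ j, j ≤ k0 → wA c F lam1 j ≤ wA c F lam1 k)
    (hB1 : ∀ j, l0 ≤ j → wB c G lam1 j ≤ wB c G lam1 l) :
    F k0 * G l0 * Real.exp (-(gam c l0 - gam c k0)) * Real.exp (-(4 * L) * n) ≤
      trm c F G n k := by
  have hkn : k + n = l := by omega
  rw [trm_eq c F G n k lam1 lam1, hkn]
  have h1 : wA c F lam1 k0 * wB c G lam1 l0 ≤ wA c F lam1 k * wB c G lam1 l :=
    mul_le_mul (hA1 _ le_rfl) (hB1 _ le_rfl) (wB_nonneg hG _ _) (wA_nonneg hF _ _)
  refine le_trans ?_ (mul_le_mul_of_nonneg_right h1 (Real.exp_pos _).le)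
  unfold wA wB
  have e : F k0 * Real.exp (gam c k0 - lam1 * k0) * (G l0 * Real.exp (-gam c l0 + lam1 * l0)) *
      Real.exp (lam1 * k - lam1 * (k + n)) = F k0 * G l0 * (Real.exp (gam c k0 - lam1 * k0) *
        Real.exp (-gam c l0 + lam1 * l0) * Real.exp (lam1 * k - lam1 * (k + n))) := by ring
  rw [e, mul_assoc (F k0 * G l0), ← Real.exp_add, ← Real.exp_add, ← Real.exp_add]
  apply mul_le_mul_of_nonneg_left _ (by positivity)
  apply Real.exp_le_exp.mpr
  have h2 : (k0 : ℝ) < l0 := by exact_mod_cast hkl0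
  have h3 : (0 : ℝ) ≤ n := by exact_mod_cast hnn
  nlinarith

/-- numerical end of the argument. -/
theorem total_lt {mu sF sG : ℝ} (hF : ∀ j, 0 ≤ F j) (hG : ∀ j, 0 ≤ G j)
    (hF0 : 0 < F k0) (hG0 : 0 < G l0)
    (hkl0 : k0 < l0) (hL0 : 0 < L)
    (hn : n = l - k) (hnn : 1 ≤ n) (hlam0 : 0 ≤ lam1) (hlam : lam1 ≤ 4 * L)
    (hA1 : ∀ j, j ≤ k0 → wA c F lam1 j ≤ wA c F lam1 k)
    (hB1 : ∀ j, l0 ≤ j → wB c G lam1 j ≤ wB c G lam1 l)
    (h1 : WW * Real.exp (-(mu - 1)) ≤ 1 / 4)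
    (h2 : WW * (nF / F k0 + nG / G l0) * Real.exp (-(3 / 4 * L - 1)) ≤ 1 / 4)
    (h3 : (sF + sG) / 2 ≤ 1 / 4 * (F k0 * G l0 * Real.exp (-(gam c l0 - gam c k0))) *
      Real.exp (12 * L)) :
    trm c F G n k * (Real.exp (-(mu - 1)) * WW +
        nF / F k0 * (Real.exp (-(3 / 4 * L - 1)) * WW) +
        nG / G l0 * (Real.exp (-(3 / 4 * L - 1)) * WW)) +
      Real.exp (-(16 * L) * n) * ((sF + sG) / 2) < trm c F G n k := by
  have hc := centre_lower (L := L) (c := c) hF0 hG0 hF hG hkl0 hn (by omega) hlam0 hlam hA1 hB1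
  set C0 := F k0 * G l0 * Real.exp (-(gam c l0 - gam c k0)) with hC0
  have hC0pos : 0 < C0 := by positivity
  have hT : 0 < trm c F G n k := lt_of_lt_of_le (by positivity) hc
  have hn1 : (1 : ℝ) ≤ n := by exact_mod_cast hnn
  have e1 : Real.exp (-(16 * L) * n) * ((sF + sG) / 2) ≤ 1 / 4 * trm c F G n k := by
    calc Real.exp (-(16 * L) * n) * ((sF + sG) / 2)
        ≤ Real.exp (-(16 * L) * n) * (1 / 4 * C0 * Real.exp (12 * L)) :=
          mul_le_mul_of_nonneg_left h3 (Real.exp_pos _).le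
      _ = 1 / 4 * (C0 * (Real.exp (-(16 * L) * n) * Real.exp (12 * L))) := by ring
      _ ≤ 1 / 4 * (C0 * Real.exp (-(4 * L) * n)) := by
          apply mul_le_mul_of_nonneg_left _ (by norm_num)
          apply mul_le_mul_of_nonneg_left _ hC0pos.le
          rw [← Real.exp_add]
          apply Real.exp_le_exp.mpr
          nlinarith
      _ ≤ 1 / 4 * trm c F G n k := by
          apply mul_le_mul_of_nonneg_left hc (by norm_num)
  have e2 : trm c F G n k * (Real.exp (-(mu - 1)) * WW +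
        nF / F k0 * (Real.exp (-(3 / 4 * L - 1)) * WW) +
        nG / G l0 * (Real.exp (-(3 / 4 * L - 1)) * WW)) ≤ trm c F G n k * (1 / 4 + 1 / 4) := by
    apply mul_le_mul_of_nonneg_left _ hT.le
    nlinarith
  linarith

end

/-- the central non-vanishing statement. -/
theorem pair_ne_zero {c : ℤ → ℝ} {S : seqHilbert →L[ℂ] seqHilbert} (hS : IsShift c S)
    (f g : seqHilbert) {L lam1 lam2 mu : ℝ} {a b k0 l0 k l : ℤ}
    (hmu : 1 ≤ mu) (hlam : lam2 - lam1 = mu) (hL0 : 0 < L) (hL43 : 1 ≤ 3 / 4 * L)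
    (hlow : ∀ i, a ≤ i → i < b → c i ≤ L / 4)
    (hhigh : ∀ i, (i < a ∨ b ≤ i) → 16 * L ≤ c i)
    (hak : a ≤ k0) (hlb : l0 ≤ b) (hkl0 : k0 < l0)
    (hf : (f : ℤ → ℂ) k0 ≠ 0) (hg : (g : ℤ → ℂ) l0 ≠ 0)
    (hL1 : 0 ≤ lam1) (hL2 : lam1 ≤ 4 * L) (hL : L ≤ lam2)
    (hkk : k ≤ k0) (hll : l0 ≤ l)
    (hA1 : ∀ j, j ≤ k0 → wA c (fun j => ‖(f : ℤ → ℂ) j‖) lam1 j ≤
      wA c (fun j => ‖(f : ℤ → ℂ) j‖) lam1 k)
    (hA2 : ∀ j, j ≤ k0 → wA c (fun j => ‖(f : ℤ → ℂ) j‖) lam2 j ≤
      wA c (fun j => ‖(f : ℤ → ℂ) j‖) lam2 k)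
    (hB1 : ∀ j, l0 ≤ j → wB c (fun j => ‖(g : ℤ → ℂ) j‖) lam1 j ≤
      wB c (fun j => ‖(g : ℤ → ℂ) j‖) lam1 l)
    (hB2 : ∀ j, l0 ≤ j → wB c (fun j => ‖(g : ℤ → ℂ) j‖) lam2 j ≤
      wB c (fun j => ‖(g : ℤ → ℂ) j‖) lam2 l)
    (h1 : WW * Real.exp (-(mu - 1)) ≤ 1 / 4)
    (h2 : WW * (‖f‖ / ‖(f : ℤ → ℂ) k0‖ + ‖g‖ / ‖(g : ℤ → ℂ) l0‖) *
      Real.exp (-(3 / 4 * L - 1)) ≤ 1 / 4)
    (h3 : (‖f‖ ^ 2 + ‖g‖ ^ 2) / 2 ≤ 1 / 4 * (‖(f : ℤ → ℂ) k0‖ * ‖(g : ℤ → ℂ) l0‖ *
      Real.exp (-(gam c l0 - gam c k0))) * Real.exp (12 * L)) :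
    inner ℂ g ((S ^ (l - k).toNat) f) ≠ 0 := by
  set F : ℤ → ℝ := fun j => ‖(f : ℤ → ℂ) j‖ with hFdef
  set G : ℤ → ℝ := fun j => ‖(g : ℤ → ℂ) j‖ with hGdef
  have hF : ∀ j, 0 ≤ F j := fun j => norm_nonneg _
  have hG : ∀ j, 0 ≤ G j := fun j => norm_nonneg _
  have hFn : ∀ j, F j ≤ ‖f‖ := fun j => norm_coord_le f j
  have hGn : ∀ j, G j ≤ ‖g‖ := fun j => norm_coord_le g j
  have hF0 : 0 < F k0 := norm_pos_iff.mpr hf
  have hG0 : 0 < G l0 := norm_pos_iff.mpr hg
  set N : ℕ := (l - k).toNat with hN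
  have hNn : (N : ℤ) = l - k := by omega
  intro hzero
  set z : ℤ → ℂ := fun j => (starRingEnd ℂ) ((g : ℤ → ℂ) (j + N)) *
      ((Real.exp (-(gam c (j + N) - gam c j)) : ℂ) * (f : ℤ → ℂ) j) with hz
  have hsum : HasSum z 0 := by
    have := hasSum_inner_pow hS f g N
    rw [hzero] at this
    exact this
  have hznorm : ∀ j, ‖z j‖ = trm c F G N j := by
    intro j
    simp only [hz, norm_mul, RCLike.norm_conj]
    unfold trm
    have e : ‖((Real.exp (-(gam c (j + N) - gam c j)) : ℝ) : ℂ)‖ =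
        Real.exp (-(gam c (j + N) - gam c j)) := by
      rw [Complex.norm_real, Real.norm_eq_abs, abs_of_pos (Real.exp_pos _)]
    rw [e]
    simp only [hFdef, hGdef]
    ring
  have hsum2 : HasSum (fun j => z j - (if j = k then z k else 0)) (0 - z k) :=
    hsum.sub (hasSum_ite_eq k (z k))
  have hb := hasSum_bdf (c := c) (F := F) (G := G) (L := L) (nF := ‖f‖) (nG := ‖g‖)
    (k0 := k0) (l0 := l0) (k := k) (n := (N : ℤ)) (mu := mu)
    (norm_sq_hasSum f) (norm_sq_hasSum g)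
  have hle := tsum_of_norm_bounded (f := fun j => z j - (if j = k then z k else 0)) hb (by
    intro j
    by_cases hj : j = k
    · subst hj
      simp only [if_true, sub_self, norm_zero]
      exact bdf_nonneg hF hG (norm_nonneg _) (norm_nonneg _) _
    · simp only [hj, if_false, sub_zero]
      rw [hznorm]
      exact trm_le_bdf hmu hlam hL43 hlow hhigh hak hlb hkl0 hF hG hFn hGn hF0 hG0 hL hkk hll
        hNn hA1 hA2 hB1 hB2 j hj)
  have hlt := total_lt (c := c) (F := F) (G := G) (L := L) (nF := ‖f‖) (nG := ‖g‖)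
    (k0 := k0) (l0 := l0) (k := k) (l := l) (n := (N : ℤ)) (mu := mu)
    hF hG hF0 hG0 hkl0 hL0 hNn (by omega) hL1 hL2 hA1 hB1 h1 h2 h3
  rw [hsum2.tsum_eq, zero_sub, norm_neg, hznorm] at hle
  exact absurd hle (not_le.mpr hlt)

end Crest.Agent.R113.Two
end

-- ▼ part R113/TwoUni
section

/-!
Row 113, S0150, part (U): the unicellular lemma for a valley-shaped weighted shift:
`unicell_pair` and `unicell`.
-/

set_option autoImplicit false
open Filter Topology
open Crest.AnalysisR.TwoAdic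
open Crest.Agent.R113.Uni

namespace Crest.Agent.R113.Two

theorem exp_small {W x : ℝ} (hx : 4 * W ≤ x) : W * Real.exp (-x) ≤ 1 / 4 := by
  have h1 : x + 1 ≤ Real.exp x := Real.add_one_le_exp x
  have h2 : Real.exp (-x) * Real.exp x = 1 := by rw [← Real.exp_add]; simp
  have h3 : 0 < Real.exp (-x) := Real.exp_pos _
  have h4 : W * Real.exp (-x) * 4 ≤ Real.exp (-x) * Real.exp x := by
    nlinarith
  linarith

/-- a convenient reformulation of `Valley`. -/
theorem valley_gap {c : ℤ → ℝ} (hv : Valley c) (X : ℝ) :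
    ∃ (L : ℝ) (P : ℕ) (a b : ℤ), X ≤ L ∧ X * ((P : ℝ) + 1) ≤ L ∧ 4 ≤ L ∧
      (∀ t : ℤ, |(t : ℝ)| ≤ X → a ≤ t ∧ t ≤ b) ∧
      (∀ i, a ≤ i → i < b → c i ≤ L / 4) ∧ (∀ i, (i < a ∨ b ≤ i) → 16 * L ≤ c i) ∧
      -(P : ℤ) ≤ a ∧ b ≤ P := by
  obtain ⟨K, hK⟩ : ∃ K : ℕ, 64 + 16 * |X| ≤ K := exists_nat_ge _
  obtain ⟨a, b, lo, hi, ha, hb, hlo, hlow, hhigh, hbig⟩ := hv.lev K
  have hX0 := abs_nonneg X
  have hX1 := le_abs_self X
  have hK64 : (64 : ℝ) ≤ K := by linarith only [hK, hX0]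
  have hKX : 16 * |X| ≤ K := by linarith only [hK, hX0]
  have hab : a ≤ 0 ∧ 0 ≤ b := by constructor <;> omega
  obtain ⟨w, hw⟩ : ∃ w : ℝ, w = ((b - a : ℤ) : ℝ) + 1 := ⟨_, rfl⟩
  rw [← hw] at hbig
  have hw1 : 1 ≤ w := by
    have : (0 : ℝ) ≤ ((b - a : ℤ) : ℝ) := by
      have : (0 : ℤ) ≤ b - a := by omega
      exact_mod_cast this
    rw [hw]
    linarith only [this]
  have hlo0 : 0 ≤ lo := by linarith only [hlo, hK64]
  have hw3 : w ≤ w ^ 3 := by
    have h2 : (1 : ℝ) ≤ w ^ 2 := one_le_pow₀ hw1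
    calc w = w * 1 := by ring
      _ ≤ w * w ^ 2 := mul_le_mul_of_nonneg_left h2 (by linarith only [hw1])
      _ = w ^ 3 := by ring
  have hK0 : (0 : ℝ) ≤ K := by linarith only [hK64]
  have hhi1 : (K : ℝ) * w * (lo + 1) ≤ hi := by
    refine le_trans ?_ hbig
    apply mul_le_mul_of_nonneg_right _ (by linarith only [hlo0])
    exact mul_le_mul_of_nonneg_left hw3 hK0
  have hhi2 : (K : ℝ) * w ≤ hi := by
    have h1 : 0 ≤ (K : ℝ) * w := by positivity
    have h2 : (K : ℝ) * w * 1 ≤ (K : ℝ) * w * (lo + 1) :=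
      mul_le_mul_of_nonneg_left (by linarith only [hlo0]) h1
    linarith only [h2, hhi1]
  have hhi3 : (K : ℝ) * (lo + 1) ≤ hi := by
    have h1 : 0 ≤ (K : ℝ) * (lo + 1) := by positivity
    have h2 : (K : ℝ) * (lo + 1) * 1 ≤ (K : ℝ) * (lo + 1) * w :=
      mul_le_mul_of_nonneg_left hw1 h1
    linarith only [h2, hhi1]
  have hhi4 : (K : ℝ) ≤ hi := by
    have h2 : (K : ℝ) * 1 ≤ (K : ℝ) * w := mul_le_mul_of_nonneg_left hw1 hK0
    linarith only [h2, hhi2]
  obtain ⟨P, hP⟩ : ∃ P : ℕ, P = (b - a).toNat := ⟨_, rfl⟩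
  have hPz : (P : ℤ) = b - a := by omega
  have hPw : (P : ℝ) + 1 = w := by
    rw [hw, ← hPz]; simp
  refine ⟨hi / 16, P, a, b, ?_, ?_, ?_, ?_, ?_, ?_, by omega, by omega⟩
  · linarith only [hKX, hX1, hhi4]
  · rw [hPw]
    have h1 : X * w ≤ |X| * w := mul_le_mul_of_nonneg_right hX1 (by linarith only [hw1])
    have h2 : 16 * |X| * w ≤ K * w := mul_le_mul_of_nonneg_right hKX (by linarith only [hw1])
    linarith only [h1, h2, hhi2]
  · linarith only [hK64, hhi4]
  · intro t ht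
    have h1 : |(t : ℝ)| ≤ K := by linarith only [ht, hX1, hX0, hKX]
    have h2 : |t| ≤ (K : ℤ) := by exact_mod_cast h1
    have h3 := abs_le.mp h2
    constructor <;> omega
  · intro i h1 h2
    have h3 := hlow i h1 h2
    have h4 : 64 * (lo + 1) ≤ K * (lo + 1) :=
      mul_le_mul_of_nonneg_right hK64 (by linarith only [hlo0])
    linarith only [h3, h4, hhi3]
  · intro i h1
    have := hhigh i h1
    linarith only [this]

/-- the pigeonhole argument. -/
theorem exists_const {c F G : ℤ → ℝ} {L mu : ℝ} {k0 l0 : ℤ} {N : ℕ} {R1 R2 : ℤ}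
    (hkl0 : k0 < l0) (hmu : 0 < mu) (hF0 : 0 < F k0) (hG0 : 0 < G l0)
    (hN : R1 + R2 < N)
    (hexk : ∀ i : ℕ, i ≤ N → ∃ k : ℤ, (-R1 ≤ k ∧ k ≤ k0 ∧
      ∀ j, j ≤ k0 → wA c F (L + mu * i) j ≤ wA c F (L + mu * i) k))
    (hexl : ∀ i : ℕ, i ≤ N → ∃ l : ℤ, (l ≤ R2 ∧ l0 ≤ l ∧
      ∀ j, l0 ≤ j → wB c G (L + mu * i) j ≤ wB c G (L + mu * i) l)) :
    ∃ (i : ℕ) (k l : ℤ), i < N ∧ k ≤ k0 ∧ l0 ≤ l ∧
      (∀ j, j ≤ k0 → wA c F (L + mu * i) j ≤ wA c F (L + mu * i) k) ∧
      (∀ j, j ≤ k0 → wA c F (L + mu * (i + 1 : ℕ)) j ≤ wA c F (L + mu * (i + 1 : ℕ)) k) ∧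
      (∀ j, l0 ≤ j → wB c G (L + mu * i) j ≤ wB c G (L + mu * i) l) ∧
      (∀ j, l0 ≤ j → wB c G (L + mu * (i + 1 : ℕ)) j ≤ wB c G (L + mu * (i + 1 : ℕ)) l) := by
  have hexk' : ∀ i : ℕ, ∃ k : ℤ, i ≤ N → (-R1 ≤ k ∧ k ≤ k0 ∧
      ∀ j, j ≤ k0 → wA c F (L + mu * i) j ≤ wA c F (L + mu * i) k) := by
    intro i
    by_cases hi : i ≤ N
    · obtain ⟨k, hk⟩ := hexk i hi
      exact ⟨k, fun _ => hk⟩
    · exact ⟨0, fun h => absurd h hi⟩
  have hexl' : ∀ i : ℕ, ∃ l : ℤ, i ≤ N → (l ≤ R2 ∧ l0 ≤ l ∧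
      ∀ j, l0 ≤ j → wB c G (L + mu * i) j ≤ wB c G (L + mu * i) l) := by
    intro i
    by_cases hi : i ≤ N
    · obtain ⟨k, hk⟩ := hexl i hi
      exact ⟨k, fun _ => hk⟩
    · exact ⟨0, fun h => absurd h hi⟩
  choose kk hkk using hexk'
  choose ll hll using hexl'
  by_contra hcon
  push Not at hcon
  have hind : ∀ i : ℕ, i ≤ N → (i : ℤ) ≤ ll i - kk i := by
    intro i
    induction i with
    | zero =>
      intro h
      have h1 := (hkk 0 h).2.1
      have h2 := (hll 0 h).2.1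
      push_cast
      omega
    | succ i ih =>
      intro h
      have hi : i ≤ N := by omega
      have ih' := ih hi
      have hlt : L + mu * (i : ℝ) < L + mu * ((i + 1 : ℕ) : ℝ) := by
        push_cast
        linarith only [hmu]
      have h1 : kk (i + 1) ≤ kk i := argmax_left_mono hlt hF0 (hkk i hi).2.1
        (hkk (i + 1) h).2.1 (hkk i hi).2.2 (hkk (i + 1) h).2.2
      have h2 : ll i ≤ ll (i + 1) := argmax_right_mono hlt hG0 (hll i hi).2.1
        (hll (i + 1) h).2.1 (hll i hi).2.2 (hll (i + 1) h).2.2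
      by_cases h4 : kk i = kk (i + 1)
      · by_cases h5 : ll i = ll (i + 1)
        · exfalso
          have h6 := (hkk (i + 1) h).2.2
          rw [← h4] at h6
          have h7 := (hll (i + 1) h).2.2
          rw [← h5] at h7
          obtain ⟨j, hj1, hj2⟩ := hcon i (kk i) (ll i) (by omega) (hkk i hi).2.1 (hll i hi).2.1
            (hkk i hi).2.2 h6 (hll i hi).2.2
          exact absurd (h7 j hj1) (not_le.mpr hj2)
        · push_cast
          omega
      · push_cast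
        omega
  have h1 := hind N le_rfl
  have h2 := (hkk N le_rfl).1
  have h3 := (hll N le_rfl).1
  omega

/-- the case `k0 < l0`. -/
theorem pair_lt {c : ℤ → ℝ} (hv : Valley c) {S : seqHilbert →L[ℂ] seqHilbert}
    (hS : IsShift c S) (f g : seqHilbert) (k0 l0 : ℤ) (hkl0 : k0 < l0)
    (hf : (f : ℤ → ℂ) k0 ≠ 0) (hg : (g : ℤ → ℂ) l0 ≠ 0) :
    ∃ n : ℕ, inner ℂ g ((S ^ n) f) ≠ 0 := by
  have hF0 : 0 < ‖(f : ℤ → ℂ) k0‖ := norm_pos_iff.mpr hf
  have hG0 : 0 < ‖(g : ℤ → ℂ) l0‖ := norm_pos_iff.mpr hg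
  have hW := WW_nonneg
  obtain ⟨mu, hmu⟩ : ∃ mu : ℝ, mu = 4 * WW + 1 := ⟨_, rfl⟩
  obtain ⟨rF, hrF⟩ : ∃ rF : ℝ, rF = ‖f‖ / ‖(f : ℤ → ℂ) k0‖ := ⟨_, rfl⟩
  obtain ⟨rG, hrG⟩ : ∃ rG : ℝ, rG = ‖g‖ / ‖(g : ℤ → ℂ) l0‖ := ⟨_, rfl⟩
  have hrF0 : 0 ≤ rF := by rw [hrF]; positivity
  have hrG0 : 0 ≤ rG := by rw [hrG]; positivity
  obtain ⟨C0, hC0⟩ : ∃ C0 : ℝ, C0 = ‖(f : ℤ → ℂ) k0‖ * ‖(g : ℤ → ℂ) l0‖ *
    Real.exp (-(gam c l0 - gam c k0)) := ⟨_, rfl⟩
  have hC0pos : 0 < C0 := by rw [hC0]; positivity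
  obtain ⟨Q, hQ⟩ : ∃ Q : ℝ, Q = (‖f‖ ^ 2 + ‖g‖ ^ 2) / 2 := ⟨_, rfl⟩
  have hQ0 : 0 ≤ Q := by rw [hQ]; positivity
  obtain ⟨C1, hC1⟩ : ∃ C1 : ℝ, C1 = 4 + 2 * |(k0 : ℝ)| + 2 * |(l0 : ℝ)| + 1 := ⟨_, rfl⟩
  have hC1pos : 0 ≤ C1 := by rw [hC1]; positivity
  have hmu1 : 1 ≤ mu := by linarith only [hmu, hW]
  have n1 : 0 ≤ WW * (rF + rG) := by positivity
  have n2 : 0 ≤ Q / C0 := by positivity
  have n3 : 0 ≤ mu * C1 := by positivity
  have n4 : 0 ≤ |(k0 : ℝ)| := abs_nonneg _
  have n5 : 0 ≤ |(l0 : ℝ)| := abs_nonneg _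
  obtain ⟨X, hX⟩ : ∃ X : ℝ, X = rF + rG + 8 * (WW * (rF + rG)) + 4 * (Q / C0) +
    mu * C1 + |(k0 : ℝ)| + |(l0 : ℝ)| + 4 := ⟨_, rfl⟩
  obtain ⟨L, P, a, b, hXL, hXP, hL4, hwin, hlow, hhigh, hPa, hPb⟩ := valley_gap hv X
  have hak : a ≤ k0 := (hwin k0 (by linarith only [hX, hrF0, hrG0, n1, n2, n3, n5])).1
  have hlb : l0 ≤ b := (hwin l0 (by linarith only [hX, hrF0, hrG0, n1, n2, n3, n4])).2
  have hexp12 : L ≤ Real.exp (12 * L) := by
    have := Real.add_one_le_exp (12 * L)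
    linarith only [this, hL4]
  have hnF : ‖f‖ ≤ ‖(f : ℤ → ℂ) k0‖ * Real.exp (12 * L) := by
    have h1 : rF ≤ Real.exp (12 * L) := by
      linarith only [hX, hrG0, n1, n2, n3, n4, n5, hXL, hexp12]
    calc ‖f‖ = ‖(f : ℤ → ℂ) k0‖ * rF := by rw [hrF]; field_simp
      _ ≤ _ := mul_le_mul_of_nonneg_left h1 hF0.le
  have hnG : ‖g‖ ≤ ‖(g : ℤ → ℂ) l0‖ * Real.exp (12 * L) := by
    have h1 : rG ≤ Real.exp (12 * L) := by
      linarith only [hX, hrF0, n1, n2, n3, n4, n5, hXL, hexp12]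
    calc ‖g‖ = ‖(g : ℤ → ℂ) l0‖ * rG := by rw [hrG]; field_simp
      _ ≤ _ := mul_le_mul_of_nonneg_left h1 hG0.le
  obtain ⟨N, hN⟩ : ∃ N : ℕ, N = (2 * (|k0| + P) + 2 * (|l0| + P) + 1).toNat := ⟨_, rfl⟩
  have hNz : (N : ℤ) = 2 * (|k0| + P) + 2 * (|l0| + P) + 1 := by
    have := abs_nonneg k0
    have := abs_nonneg l0
    omega
  have hNR : (N : ℝ) = 2 * (|(k0 : ℝ)| + P) + 2 * (|(l0 : ℝ)| + P) + 1 := by
    have : ((N : ℤ) : ℝ) = ((2 * (|k0| + P) + 2 * (|l0| + P) + 1 : ℤ) : ℝ) := by rw [hNz]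
    push_cast at this
    exact this
  have hP0 : (0 : ℝ) ≤ P := Nat.cast_nonneg _
  have hNle : mu * N ≤ 3 * L := by
    have h1 : (N : ℝ) ≤ C1 * (P + 1) := by
      rw [hNR, hC1]
      have e1 : 0 ≤ |(k0 : ℝ)| * P := by positivity
      have e2 : 0 ≤ |(l0 : ℝ)| * P := by positivity
      linarith only [e1, e2, hP0, n4, n5]
    have h2 : mu * N ≤ mu * C1 * (P + 1) := by
      rw [mul_assoc]
      exact mul_le_mul_of_nonneg_left h1 (by linarith only [hmu1])
    have h3 : mu * C1 * ((P : ℝ) + 1) ≤ X * (P + 1) := by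
      apply mul_le_mul_of_nonneg_right _ (by linarith only [hP0])
      linarith only [hX, hrF0, hrG0, n1, n2, n4, n5]
    linarith only [h2, h3, hXP, hL4]
  have hlamle : ∀ i : ℕ, i ≤ N → L + mu * i ≤ 4 * L := by
    intro i hi
    have : (i : ℝ) ≤ N := by exact_mod_cast hi
    have : mu * i ≤ mu * N := mul_le_mul_of_nonneg_left this (by linarith only [hmu1])
    linarith only [this, hNle]
  have hlamge : ∀ i : ℕ, L ≤ L + mu * i := by
    intro i
    have : 0 ≤ mu * (i : ℝ) := by positivity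
    linarith only [this]
  have hPlow : ∀ i : ℤ, i < -(P : ℤ) → 16 * L ≤ c i := fun i hi => hhigh i (Or.inl (by omega))
  have hPhigh : ∀ i : ℤ, (P : ℤ) ≤ i → 16 * L ≤ c i := fun i hi => hhigh i (Or.inr (by omega))
  obtain ⟨i, k, l, hiN, hk, hl, hA1, hA2, hB1, hB2⟩ := exists_const (c := c)
    (F := fun j => ‖(f : ℤ → ℂ) j‖) (G := fun j => ‖(g : ℤ → ℂ) j‖) (L := L) (mu := mu)
    (k0 := k0) (l0 := l0) (N := N) (R1 := 2 * (|k0| + P)) (R2 := 2 * (|l0| + P))
    hkl0 (by linarith only [hmu1]) hF0 hG0 (by omega)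
    (fun i hi => exists_max_left _ k0 (-(2 * (|k0| + P)))
        (by have := neg_abs_le k0; have := abs_nonneg k0; omega)
        (wA_far hv.nonneg (by linarith only [hL4]) (hlamle i hi)
          (by linarith only [hlamge i, hL4]) hPlow
          (fun j => norm_coord_le f j) hF0.le hnF))
    (fun i hi => exists_max_right _ l0 (2 * (|l0| + P))
        (by have := le_abs_self l0; have := abs_nonneg l0; omega)
        (wB_far hv.nonneg (by linarith only [hL4]) (hlamle i hi)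
          (by linarith only [hlamge i, hL4]) hPhigh
          (fun j => norm_coord_le g j) hG0.le hnG))
  refine ⟨(l - k).toNat, ?_⟩
  refine pair_ne_zero (c := c) hS f g (L := L) (lam1 := L + mu * i)
    (lam2 := L + mu * ((i + 1 : ℕ) : ℝ)) (mu := mu) (a := a) (b := b) (k0 := k0) (l0 := l0)
    (k := k) (l := l) hmu1 ?_ (by linarith only [hL4]) (by linarith only [hL4]) hlow hhigh
    hak hlb hkl0
    hf hg (by linarith only [hlamge i, hL4]) (hlamle i hiN.le) (hlamge _) hk hl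
    hA1 hA2 hB1 hB2 ?_ ?_ ?_
  · push_cast; ring
  · apply exp_small
    linarith only [hmu]
  · rw [← hrF, ← hrG]
    apply exp_small
    linarith only [hX, hrF0, hrG0, n1, n2, n3, n4, n5, hXL, hL4]
  · rw [← hQ, ← hC0]
    have h1 : 4 * (Q / C0) ≤ L := by
      linarith only [hX, hrF0, hrG0, n1, n3, n4, n5, hXL]
    have h2 : Q ≤ 1 / 4 * C0 * L := by
      have e1 : Q / C0 * C0 = Q := by field_simp
      have e2 : 4 * (Q / C0) * C0 ≤ L * C0 := mul_le_mul_of_nonneg_right h1 hC0pos.le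
      linarith only [e1, e2]
    have h3 : 1 / 4 * C0 * L ≤ 1 / 4 * C0 * Real.exp (12 * L) :=
      mul_le_mul_of_nonneg_left hexp12 (by positivity)
    linarith only [h2, h3]

/-- **Unicellular lemma, pairing form.** -/
theorem unicell_pair {c : ℤ → ℝ} (hv : Valley c) {S : seqHilbert →L[ℂ] seqHilbert}
    (hS : ∀ j, S (basisVec j) = ((Real.exp (-c j) : ℝ) : ℂ) • basisVec (j + 1))
    (f g : seqHilbert) (j k : ℤ) (hjk : j ≤ k) (hf : (f : ℤ → ℂ) j ≠ 0)
    (hg : (g : ℤ → ℂ) k ≠ 0) : ∃ n : ℕ, inner ℂ g ((S ^ n) f) ≠ 0 := by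
  have hS' : IsShift c S := hS
  rcases lt_or_eq_of_le hjk with h | h
  · exact pair_lt hv hS' f g j k h hf hg
  · subst h
    by_cases h1 : ∃ j', j' < j ∧ (f : ℤ → ℂ) j' ≠ 0
    · obtain ⟨j', h2, h3⟩ := h1
      exact pair_lt hv hS' f g j' j h2 h3 hg
    · by_cases h4 : ∃ k', j < k' ∧ (g : ℤ → ℂ) k' ≠ 0
      · obtain ⟨k', h2, h3⟩ := h4
        exact pair_lt hv hS' f g j k' h2 hf h3
      · push Not at h1 h4
        refine ⟨0, ?_⟩
        have h5 := lp.hasSum_inner (𝕜 := ℂ) g f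
        have h6 : HasSum (fun i : ℤ => inner ℂ ((g : ℤ → ℂ) i) ((f : ℤ → ℂ) i))
            (inner ℂ ((g : ℤ → ℂ) j) ((f : ℤ → ℂ) j)) := by
          refine hasSum_single j ?_
          intro i hi
          rcases lt_or_gt_of_ne hi with h7 | h7
          · rw [h1 i h7]; simp
          · rw [h4 i h7]; simp
        have h7 : inner ℂ g f = inner ℂ ((g : ℤ → ℂ) j) ((f : ℤ → ℂ) j) := h5.unique h6
        simp only [pow_zero, one_apply_eq_self]
        rw [h7]
        simp [hf, hg]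

theorem mem_tailSpace_iff (h : ℤ) (f : seqHilbert) :
    f ∈ tailSpace h ↔ ∀ j, j < h → (f : ℤ → ℂ) j = 0 := by
  constructor
  · intro hf j hj
    have hle : tailSpace h ≤ LinearMap.ker ((innerSL ℂ (basisVec j)).toLinearMap) := by
      unfold tailSpace
      refine Submodule.topologicalClosure_minimal _ ?_ ?_
      · rw [Submodule.span_le]
        rintro _ ⟨⟨i, hi⟩, rfl⟩
        simp only [SetLike.mem_coe, LinearMap.mem_ker]
        show inner ℂ (basisVec j) (basisVec i) = 0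
        rw [coord_eq, basisVec_apply, if_neg (by omega)]
      · exact (innerSL ℂ (basisVec j)).isClosed_ker
    have := hle hf
    rw [LinearMap.mem_ker] at this
    have h2 : inner ℂ (basisVec j) f = 0 := this
    rwa [coord_eq] at h2
  · intro hf
    have h1 := hasSum_basis f
    have hcl : IsClosed (tailSpace h : Set seqHilbert) := by
      unfold tailSpace
      exact Submodule.isClosed_topologicalClosure _
    refine hcl.mem_of_tendsto h1 (Eventually.of_forall ?_)
    intro s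
    refine Submodule.sum_mem _ ?_
    intro j _
    by_cases hj : j < h
    · rw [hf j hj, zero_smul]; exact Submodule.zero_mem _
    · refine Submodule.smul_mem _ _ ?_
      unfold tailSpace
      exact Submodule.le_topologicalClosure _ (Submodule.subset_span ⟨⟨j, by omega⟩, rfl⟩)

/-- **Unicellular lemma.** -/
theorem unicell {c : ℤ → ℝ} (hv : Valley c) {S : seqHilbert →L[ℂ] seqHilbert}
    (hS : ∀ j, S (basisVec j) = ((Real.exp (-c j) : ℝ) : ℂ) • basisVec (j + 1))
    (W : Submodule ℂ seqHilbert) (hW : IsClosed (W : Set seqHilbert)) :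
    (∀ v ∈ W, S v ∈ W) ↔ (W = ⊥ ∨ W = ⊤ ∨ ∃ h : ℤ, W = tailSpace h) := by
  have hS' : IsShift c S := hS
  constructor
  · intro hinv
    by_cases hbot : W = ⊥
    · exact Or.inl hbot
    by_cases htop : W = ⊤
    · exact Or.inr (Or.inl htop)
    refine Or.inr (Or.inr ?_)
    have : CompleteSpace W := hW.completeSpace_coe
    have hpow : ∀ (n : ℕ), ∀ v ∈ W, (S ^ n) v ∈ W := by
      intro n
      induction n with
      | zero => intro v hv; simpa using hv
      | succ n ih =>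
        intro v hv
        rw [pow_succ', mul_apply_eq_comp]
        exact hinv _ (ih v hv)
    have hkey : ∀ f ∈ W, ∀ g ∈ Wᗮ, ∀ j k : ℤ, (f : ℤ → ℂ) j ≠ 0 → (g : ℤ → ℂ) k ≠ 0 → k < j := by
      intro f hf g hg j k hj hk
      by_contra hlt
      push Not at hlt
      obtain ⟨n, hn⟩ := unicell_pair hv hS f g j k hlt hj hk
      exact hn (Submodule.inner_left_of_mem_orthogonal (hpow n f hf) hg)
    have hne : ∀ f : seqHilbert, f ≠ 0 → ∃ j : ℤ, (f : ℤ → ℂ) j ≠ 0 := by
      intro f hf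
      by_contra hcon
      push Not at hcon
      apply hf
      apply lp.ext
      funext j
      exact hcon j
    obtain ⟨f0, hf0W, hf0⟩ := Submodule.exists_mem_ne_zero_of_ne_bot hbot
    have hperp : Wᗮ ≠ ⊥ := by
      intro h
      exact htop ((Submodule.orthogonal_eq_bot_iff).mp h)
    obtain ⟨g0, hg0W, hg0⟩ := Submodule.exists_mem_ne_zero_of_ne_bot hperp
    obtain ⟨j0, hj0⟩ := hne f0 hf0
    obtain ⟨k0, hk0⟩ := hne g0 hg0
    obtain ⟨h, ⟨f1, hf1W, hf1⟩, hmin⟩ := Int.exists_least_of_bdd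
      (P := fun j => ∃ f ∈ W, (f : ℤ → ℂ) j ≠ 0)
      ⟨k0, fun z ⟨f, hf, hz⟩ => (hkey f hf g0 hg0W z k0 hz hk0).le⟩ ⟨j0, f0, hf0W, hj0⟩
    refine ⟨h, le_antisymm ?_ ?_⟩
    · intro f hf
      rw [mem_tailSpace_iff]
      intro j hj
      by_contra hne'
      exact absurd (hmin j ⟨f, hf, hne'⟩) (not_le.mpr hj)
    · intro f hf
      rw [mem_tailSpace_iff] at hf
      rw [← Submodule.orthogonal_orthogonal W]
      rw [Submodule.mem_orthogonal]
      intro g hg
      have h5 := lp.hasSum_inner (𝕜 := ℂ) g f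
      have h6 : HasSum (fun i : ℤ => inner ℂ ((g : ℤ → ℂ) i) ((f : ℤ → ℂ) i)) 0 := by
        have : (fun i : ℤ => inner ℂ ((g : ℤ → ℂ) i) ((f : ℤ → ℂ) i)) = fun _ => 0 := by
          funext i
          by_cases hi : i < h
          · rw [hf i hi]; simp
          · have : (g : ℤ → ℂ) i = 0 := by
              by_contra hgi
              have := hkey f1 hf1W g hg h i hf1 hgi
              omega
            rw [this]; simp
        rw [this]
        exact hasSum_zero
      exact h5.unique h6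
  · rintro (h | h | ⟨h, hh⟩)
    · subst h
      intro v hv
      rw [Submodule.mem_bot] at hv ⊢
      rw [hv, map_zero]
    · subst h
      intro v _
      exact Submodule.mem_top
    · subst hh
      intro v hv
      rw [mem_tailSpace_iff] at hv ⊢
      intro j hj
      have := shift_apply hS' v (j - 1)
      rw [sub_add_cancel] at this
      rw [this, hv (j - 1) (by omega), mul_zero]

end Crest.Agent.R113.Two
end

-- ▼ part R113/TwoShift
section

/-!
# Row 113, S0150: weighted shifts on `ℓ²(ℤ)`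
-/

set_option autoImplicit false

namespace Crest.Agent.R113.Two

open Crest.AnalysisR.TwoAdic MeasureTheory

/-- Truncated-free weighted shift: `(wsh w d v) k = w (k - d) * v (k - d)`. -/
noncomputable def wfun (w : ℤ → ℝ) (d : ℤ) (v : ℤ → ℂ) : ℤ → ℂ :=
  fun k => (w (k - d) : ℂ) * v (k - d)

theorem two_toReal_pos : 0 < (2 : ENNReal).toReal := by norm_num


theorem wfun_sum_le {w : ℤ → ℝ} {M : ℝ} (hw : ∀ j, |w j| ≤ M) (d : ℤ) (v : seqHilbert)
    (s : Finset ℤ) :
    ∑ k ∈ s, ‖wfun w d v k‖ ^ (2 : ENNReal).toReal ≤ (M * ‖v‖) ^ (2 : ENNReal).toReal := by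
  have hM : 0 ≤ M := le_trans (abs_nonneg _) (hw 0)
  have h1 : ∀ k, ‖wfun w d v k‖ ^ (2 : ENNReal).toReal ≤
      M ^ (2 : ENNReal).toReal * ‖v (k - d)‖ ^ (2 : ENNReal).toReal := by
    intro k
    rw [← Real.mul_rpow hM (norm_nonneg _)]
    apply Real.rpow_le_rpow (norm_nonneg _) _ (le_of_lt two_toReal_pos)
    unfold wfun
    rw [norm_mul, Complex.norm_real]
    exact mul_le_mul_of_nonneg_right (hw _) (norm_nonneg _)
  calc ∑ k ∈ s, ‖wfun w d v k‖ ^ (2 : ENNReal).toReal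
      ≤ ∑ k ∈ s, M ^ (2 : ENNReal).toReal * ‖v (k - d)‖ ^ (2 : ENNReal).toReal :=
        Finset.sum_le_sum fun k _ => h1 k
    _ = M ^ (2 : ENNReal).toReal * ∑ k ∈ s.map (Equiv.subRight d).toEmbedding,
          ‖v k‖ ^ (2 : ENNReal).toReal := by
        rw [← Finset.mul_sum, Finset.sum_map]
        rfl
    _ ≤ M ^ (2 : ENNReal).toReal * ‖v‖ ^ (2 : ENNReal).toReal := by
        apply mul_le_mul_of_nonneg_left _ (Real.rpow_nonneg hM _)
        exact lp.sum_rpow_le_norm_rpow two_toReal_pos v _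
    _ = (M * ‖v‖) ^ (2 : ENNReal).toReal := by
        rw [Real.mul_rpow hM (norm_nonneg _)]

theorem wfun_mem {w : ℤ → ℝ} {M : ℝ} (hw : ∀ j, |w j| ≤ M) (d : ℤ) (v : seqHilbert) :
    Memℓp (wfun w d v) 2 :=
  memℓp_gen' (wfun_sum_le hw d v)

/-- The weighted shift operator on `ℓ²(ℤ)`: `δ_j ↦ w_j δ_{j+d}`, for bounded weights. -/
noncomputable def wsh (w : ℤ → ℝ) (d : ℤ) (M : ℝ) (hw : ∀ j, |w j| ≤ M) :
    seqHilbert →L[ℂ] seqHilbert :=
  LinearMap.mkContinuous
    { toFun := fun v => ⟨wfun w d v, wfun_mem hw d v⟩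
      map_add' := by
        intro u v
        apply lp.ext
        funext k
        change (w (k - d) : ℂ) * (u + v) (k - d) = (w (k - d) : ℂ) * u (k - d) + (w (k - d) : ℂ) * v (k - d)
        rw [lp.coeFn_add, Pi.add_apply, mul_add]
      map_smul' := by
        intro c v
        apply lp.ext
        funext k
        change (w (k - d) : ℂ) * (c • v) (k - d) = c * ((w (k - d) : ℂ) * v (k - d))
        rw [lp.coeFn_smul, Pi.smul_apply, smul_eq_mul]
        ring }
    M (by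
      intro v
      have hM : 0 ≤ M := le_trans (abs_nonneg _) (hw 0)
      apply lp.norm_le_of_forall_sum_le two_toReal_pos (by positivity)
      intro s
      exact wfun_sum_le hw d v s)

theorem wsh_apply {w : ℤ → ℝ} {d : ℤ} {M : ℝ} {hw : ∀ j, |w j| ≤ M} (v : seqHilbert) (k : ℤ) :
    wsh w d M hw v k = (w (k - d) : ℂ) * v (k - d) := rfl

theorem wsh_norm_le {w : ℤ → ℝ} {d : ℤ} {M : ℝ} {hw : ∀ j, |w j| ≤ M} :
    ‖wsh w d M hw‖ ≤ M :=
  LinearMap.mkContinuous_norm_le _ (le_trans (abs_nonneg _) (hw 0)) _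

theorem wsh_basis {w : ℤ → ℝ} {d : ℤ} {M : ℝ} {hw : ∀ j, |w j| ≤ M} (j : ℤ) :
    wsh w d M hw (basisVec j) = ((w j : ℝ) : ℂ) • basisVec (j + d) := by
  apply lp.ext
  funext k
  rw [wsh_apply]
  simp only [basisVec, lp.coeFn_smul, Pi.smul_apply, lp.single_apply, smul_eq_mul]
  by_cases h : k = j + d
  · subst h
    simp
  · have h2 : k - d ≠ j := by
      intro h3; exact h (by omega)
    simp [Pi.single_apply, h, h2]

theorem basisVec_apply (j k : ℤ) : (basisVec j : seqHilbert) k = if k = j then 1 else 0 := by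
  simp [basisVec, lp.single_apply, Pi.single_apply]

theorem norm_basisVec (j : ℤ) : ‖(basisVec j : seqHilbert)‖ = 1 := by
  have := lp.norm_single (E := fun _ : ℤ => ℂ) (p := 2) (by norm_num) j (1 : ℂ)
  simpa [basisVec] using this


/-- Expansion of a vector. -/
theorem hasSum_basis (v : seqHilbert) : HasSum (fun j : ℤ => v j • basisVec j) v := by
  have h := lp.hasSum_single (E := fun _ : ℤ => ℂ) (p := 2) (by norm_num) v
  have h2 : (fun j : ℤ => v j • basisVec j) =
      fun j : ℤ => lp.single (E := fun _ : ℤ => ℂ) 2 j (v j) := by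
    funext j
    rw [basisVec, ← lp.single_smul, smul_eq_mul, mul_one]
  rw [h2]
  exact h

/-- The `k`-th coordinate as a continuous functional. -/
theorem coord_continuous (k : ℤ) : Continuous fun v : seqHilbert => v k :=
  (lp.evalCLM ℂ (fun _ : ℤ => ℂ) 2 k).continuous

theorem basisVec_mem_tail {h j : ℤ} (hj : h ≤ j) : basisVec j ∈ tailSpace h :=
  Submodule.le_topologicalClosure _ (Submodule.subset_span ⟨⟨j, hj⟩, rfl⟩)

theorem mem_tail_iff {h : ℤ} {v : seqHilbert} :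
    v ∈ tailSpace h ↔ ∀ j : ℤ, j < h → v j = 0 := by
  constructor
  · intro hv j hj
    have hcl : IsClosed {u : seqHilbert | u j = 0} :=
      isClosed_eq (coord_continuous j) continuous_const
    have hsub : ((Submodule.span ℂ (Set.range fun j : {j : ℤ // h ≤ j} => basisVec (j : ℤ)) :
        Submodule ℂ seqHilbert) : Set seqHilbert) ⊆ {u : seqHilbert | u j = 0} := by
      intro u hu
      have hu' : u ∈ Submodule.span ℂ (Set.range fun j : {j : ℤ // h ≤ j} => basisVec (j : ℤ)) := hu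
      induction hu' using Submodule.span_induction with
      | mem x hx =>
        obtain ⟨⟨i, hi⟩, rfl⟩ := hx
        have : j ≠ i := by omega
        simp [basisVec_apply, this]
      | zero => simp
      | add x y _ _ hx hy =>
        have hx' : x j = 0 := hx (by assumption)
        have hy' : y j = 0 := hy (by assumption)
        simp [lp.coeFn_add, hx', hy']
      | smul a x _ hx =>
        have hx' : x j = 0 := hx (by assumption)
        simp [lp.coeFn_smul, hx']
    have := closure_minimal hsub hcl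
    exact this (by
      have h1 : v ∈ closure ((Submodule.span ℂ (Set.range fun j : {j : ℤ // h ≤ j} =>
        basisVec (j : ℤ)) : Submodule ℂ seqHilbert) : Set seqHilbert) := by
        have h2 : v ∈ tailSpace h := hv
        rw [tailSpace] at h2
        rwa [← Submodule.topologicalClosure_coe]
      exact h1)
  · intro hv
    have hs := hasSum_basis v
    have hcl : IsClosed (tailSpace h : Set seqHilbert) := Submodule.isClosed_topologicalClosure _
    refine hcl.mem_of_tendsto hs (Filter.Eventually.of_forall fun s => ?_)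
    apply Submodule.sum_mem
    intro j _
    by_cases hj : h ≤ j
    · exact Submodule.smul_mem _ _ (basisVec_mem_tail hj)
    · rw [hv j (by omega), zero_smul]
      exact Submodule.zero_mem _

/-- The product of `n` consecutive weights. -/
theorem wsh_pow_apply {w : ℤ → ℝ} {M : ℝ} {hw : ∀ j, |w j| ≤ M} (n : ℕ) (v : seqHilbert)
    (k : ℤ) :
    ((wsh w 1 M hw) ^ n) v k =
      ((∏ i ∈ Finset.range n, w (k - n + i) : ℝ) : ℂ) * v (k - n) := by
  induction n generalizing k with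
  | zero => simp
  | succ n ih =>
    rw [pow_succ']
    change wsh w 1 M hw (((wsh w 1 M hw) ^ n) v) k = _
    rw [wsh_apply, ih, Finset.prod_range_succ]
    have h1 : k - 1 - (n : ℤ) = k - ((n + 1 : ℕ) : ℤ) := by push_cast; ring
    have h2 : k - ((n + 1 : ℕ) : ℤ) + (n : ℤ) = k - 1 := by push_cast; ring
    rw [h1, h2]
    push_cast
    ring

/-- Norm bound for powers. -/
theorem wsh_pow_norm_le {w : ℤ → ℝ} {M : ℝ} {hw : ∀ j, |w j| ≤ M} (n : ℕ) {C : ℝ}
    (hC : ∀ j : ℤ, |∏ i ∈ Finset.range n, w (j + i)| ≤ C) :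
    ‖(wsh w 1 M hw) ^ n‖ ≤ C := by
  have h : (wsh w 1 M hw) ^ n = wsh (fun j => ∏ i ∈ Finset.range n, w (j + i)) n C hC := by
    ext v k
    rw [wsh_pow_apply, wsh_apply]
  rw [h]
  exact wsh_norm_le

/-- Any bounded operator which acts on basis vectors as a weighted shift is given by the
coordinate formula. -/
theorem shift_apply_of_basis (A : seqHilbert →L[ℂ] seqHilbert) (w : ℤ → ℝ) (d : ℤ)
    (hA : ∀ j, A (basisVec j) = ((w j : ℝ) : ℂ) • basisVec (j + d)) (v : seqHilbert) (k : ℤ) :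
    A v k = (w (k - d) : ℂ) * v (k - d) := by
  have hs := (hasSum_basis v).mapL A
  have hs2 := hs.mapL (lp.evalCLM ℂ (fun _ : ℤ => ℂ) 2 k)
  have h3 : HasSum (fun j : ℤ => (lp.evalCLM ℂ (fun _ : ℤ => ℂ) 2 k) (A (v j • basisVec j)))
      ((w (k - d) : ℂ) * v (k - d)) := by
    have h4 : (fun j : ℤ => (lp.evalCLM ℂ (fun _ : ℤ => ℂ) 2 k) (A (v j • basisVec j))) =
        fun j : ℤ => if j = k - d then ((w (k - d) : ℂ) * v (k - d)) else 0 := by
      funext j
      rw [map_smul, hA]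
      change (v j • (((w j : ℝ) : ℂ) • basisVec (j + d)) : seqHilbert) k = _
      rw [lp.coeFn_smul, Pi.smul_apply, lp.coeFn_smul, Pi.smul_apply, basisVec_apply]
      by_cases h : j = k - d
      · subst h
        simp
        ring
      · have h' : k ≠ j + d := by
          intro h2; exact h (by omega)
        simp [h, h']
    rw [h4]
    exact hasSum_ite_eq _ _
  exact hs2.unique h3

end Crest.Agent.R113.Two
end

-- ▼ part R113/TwoFib
section

/-!
# Row 113, S0150: fibred operators on `L²(ℤ₂; ℓ²(ℤ))`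
-/

set_option autoImplicit false

namespace Crest.Agent.R113.Two

open Crest.AnalysisR.TwoAdic MeasureTheory Filter Topology

attribute [local instance] Crest.AnalysisR.TwoAdic.borelTwoAdic
  Crest.AnalysisR.TwoAdic.borelSpace_twoAdic

instance haar_isAddHaar : Measure.IsAddHaarMeasure haarTwoAdic := by
  unfold haarTwoAdic; infer_instance

instance haar_isProb : IsProbabilityMeasure haarTwoAdic := by
  constructor
  have h := Measure.addHaarMeasure_self (K₀ := (⊤ : TopologicalSpace.PositiveCompacts ℤ_[2]))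
  simpa [haarTwoAdic] using h

/-- A uniformly bounded, weakly measurable family of operators on `ℓ²(ℤ)`. -/
structure MeasFam (A : ℤ_[2] → (seqHilbert →L[ℂ] seqHilbert)) (M : ℝ) : Prop where
  bound : ∀ x, ‖A x‖ ≤ M
  meas : ∀ j, AEStronglyMeasurable (fun x => A x (basisVec j)) haarTwoAdic

theorem MeasFam.aesm {A : ℤ_[2] → (seqHilbert →L[ℂ] seqHilbert)} {M : ℝ} (hA : MeasFam A M)
    {f : ℤ_[2] → seqHilbert} (hf : AEStronglyMeasurable f haarTwoAdic) :
    AEStronglyMeasurable (fun x => A x (f x)) haarTwoAdic := by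
  have hlim : ∀ x, Tendsto (fun s : Finset ℤ => ∑ j ∈ s, (f x) j • A x (basisVec j)) atTop
      (𝓝 (A x (f x))) := by
    intro x
    have h := (hasSum_basis (f x)).mapL (A x)
    simpa only [map_smul, HasSum, SummationFilter.unconditional_filter] using h
  refine aestronglyMeasurable_of_tendsto_ae (u := (atTop : Filter (Finset ℤ)))
    (f := fun s x => ∑ j ∈ s, (f x) j • A x (basisVec j)) ?_ (Eventually.of_forall hlim)
  intro s
  apply Finset.aestronglyMeasurable_fun_sum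
  intro j _
  exact ((coord_continuous j).comp_aestronglyMeasurable hf).smul (hA.meas j)

theorem MeasFam.memLp {A : ℤ_[2] → (seqHilbert →L[ℂ] seqHilbert)} {M : ℝ} (hA : MeasFam A M)
    (f : fibreSpace) : MemLp (fun x => A x (f x)) 2 haarTwoAdic := by
  refine MemLp.of_le_mul (g := f) (c := M) (Lp.memLp f) (hA.aesm (Lp.aestronglyMeasurable f)) ?_
  refine Eventually.of_forall fun x => ?_
  exact (A x).le_of_opNorm_le (hA.bound x) _

theorem MeasFam.nonneg {A : ℤ_[2] → (seqHilbert →L[ℂ] seqHilbert)} {M : ℝ} (hA : MeasFam A M) :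
    0 ≤ M := le_trans (norm_nonneg _) (hA.bound 0)

/-- The operator on `L²(ℤ₂; ℓ²(ℤ))` acting fibrewise by the family `A`. -/
noncomputable def fibOp (A : ℤ_[2] → (seqHilbert →L[ℂ] seqHilbert)) (M : ℝ) (hA : MeasFam A M) :
    fibreSpace →L[ℂ] fibreSpace :=
  LinearMap.mkContinuous
    { toFun := fun f => (hA.memLp f).toLp _
      map_add' := by
        intro f g
        apply Lp.ext
        filter_upwards [(hA.memLp (f + g)).coeFn_toLp, (hA.memLp f).coeFn_toLp,
          (hA.memLp g).coeFn_toLp, Lp.coeFn_add f g,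
          Lp.coeFn_add ((hA.memLp f).toLp _) ((hA.memLp g).toLp _)] with x h1 h2 h3 h4 h5
        rw [h1, h5, Pi.add_apply, h2, h3, h4, Pi.add_apply, map_add]
      map_smul' := by
        intro c f
        apply Lp.ext
        filter_upwards [(hA.memLp (c • f)).coeFn_toLp, (hA.memLp f).coeFn_toLp,
          Lp.coeFn_smul c f, Lp.coeFn_smul c ((hA.memLp f).toLp _)] with x h1 h2 h4 h5
        simp only [RingHom.id_apply]
        rw [h1, h5, Pi.smul_apply, h2, h4, Pi.smul_apply, map_smul] }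
    M (by
      intro f
      apply Lp.norm_le_mul_norm_of_ae_le_mul
      filter_upwards [(hA.memLp f).coeFn_toLp] with x h1
      simp only [LinearMap.coe_mk, AddHom.coe_mk]
      rw [h1]
      exact (A x).le_of_opNorm_le (hA.bound x) _)

theorem fibOp_ae {A : ℤ_[2] → (seqHilbert →L[ℂ] seqHilbert)} {M : ℝ} (hA : MeasFam A M)
    (f : fibreSpace) : ∀ᵐ x ∂haarTwoAdic,
      (fibOp A M hA f : ℤ_[2] → seqHilbert) x = A x ((f : ℤ_[2] → seqHilbert) x) :=
  (hA.memLp f).coeFn_toLp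

theorem fibOp_norm_le {A : ℤ_[2] → (seqHilbert →L[ℂ] seqHilbert)} {M : ℝ} (hA : MeasFam A M) :
    ‖fibOp A M hA‖ ≤ M :=
  LinearMap.mkContinuous_norm_le _ hA.nonneg _

/-- An operator acting fibrewise is bounded by the essential bound of the fibres. -/
theorem norm_le_of_fib {T : fibreSpace →L[ℂ] fibreSpace}
    {A : ℤ_[2] → (seqHilbert →L[ℂ] seqHilbert)}
    (hT : ∀ f : fibreSpace, ∀ᵐ x ∂haarTwoAdic, (T f : ℤ_[2] → seqHilbert) x = A x (f x))
    {C : ℝ} (hC0 : 0 ≤ C) (hC : ∀ᵐ x ∂haarTwoAdic, ‖A x‖ ≤ C) : ‖T‖ ≤ C := by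
  apply ContinuousLinearMap.opNorm_le_bound _ hC0
  intro f
  apply Lp.norm_le_mul_norm_of_ae_le_mul
  filter_upwards [hT f, hC] with x h1 h2
  rw [h1]
  exact (A x).le_of_opNorm_le h2 _

theorem pow_ae_of_fib {T : fibreSpace →L[ℂ] fibreSpace}
    {A : ℤ_[2] → (seqHilbert →L[ℂ] seqHilbert)}
    (hT : ∀ f : fibreSpace, ∀ᵐ x ∂haarTwoAdic, (T f : ℤ_[2] → seqHilbert) x = A x (f x))
    (n : ℕ) (f : fibreSpace) : ∀ᵐ x ∂haarTwoAdic,
      ((T ^ n) f : ℤ_[2] → seqHilbert) x = (A x ^ n) (f x) := by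
  induction n with
  | zero => exact Eventually.of_forall fun x => by simp
  | succ n ih =>
    filter_upwards [hT ((T ^ n) f), ih] with x h1 h2
    have e1 : (T ^ (n + 1)) f = T ((T ^ n) f) := by rw [pow_succ']; rfl
    have e2 : (A x ^ (n + 1)) (f x) = A x ((A x ^ n) (f x)) := by rw [pow_succ']; rfl
    rw [e1, h1, h2, e2]

theorem mp_add (a : ℤ_[2]) : MeasurePreserving (fun x : ℤ_[2] => x + a) haarTwoAdic haarTwoAdic :=
  measurePreserving_add_right haarTwoAdic a

/-- Translation: `(trOp a f) x = f (x + a)`. -/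
noncomputable def trOp (a : ℤ_[2]) : fibreSpace →ₗᵢ[ℂ] fibreSpace :=
  Lp.compMeasurePreservingₗᵢ ℂ (fun x : ℤ_[2] => x + a) (mp_add a)

theorem trOp_ae (a : ℤ_[2]) (f : fibreSpace) : ∀ᵐ x ∂haarTwoAdic,
    (trOp a f : ℤ_[2] → seqHilbert) x = f (x + a) :=
  Lp.coeFn_compMeasurePreserving f (mp_add a)

theorem ae_add {P : ℤ_[2] → Prop} (a : ℤ_[2]) (h : ∀ᵐ x ∂haarTwoAdic, P x) :
    ∀ᵐ x ∂haarTwoAdic, P (x + a) :=
  (mp_add a).quasiMeasurePreserving.ae h

/-- The operator `(V f)(x + 1) = A x (f x)`. -/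
noncomputable def backOp (A : ℤ_[2] → (seqHilbert →L[ℂ] seqHilbert)) (M : ℝ) (hA : MeasFam A M) :
    fibreSpace →L[ℂ] fibreSpace :=
  (trOp (-1)).toContinuousLinearMap.comp (fibOp A M hA)

theorem backOp_ae {A : ℤ_[2] → (seqHilbert →L[ℂ] seqHilbert)} {M : ℝ} (hA : MeasFam A M)
    (f : fibreSpace) : ∀ᵐ x ∂haarTwoAdic,
      (backOp A M hA f : ℤ_[2] → seqHilbert) (x + 1) = A x ((f : ℤ_[2] → seqHilbert) x) := by
  have h1 := ae_add 1 (trOp_ae (-1) (fibOp A M hA f))
  filter_upwards [h1, fibOp_ae hA f] with x hx h2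
  change (trOp (-1) (fibOp A M hA f) : ℤ_[2] → seqHilbert) (x + 1) = _
  rw [hx, add_neg_cancel_right, h2]

theorem backOp_norm_le {A : ℤ_[2] → (seqHilbert →L[ℂ] seqHilbert)} {M : ℝ} (hA : MeasFam A M) :
    ‖backOp A M hA‖ ≤ M := by
  apply ContinuousLinearMap.opNorm_le_bound _ hA.nonneg
  intro f
  change ‖trOp (-1) (fibOp A M hA f)‖ ≤ _
  rw [(trOp (-1)).norm_map]
  exact (fibOp A M hA).le_of_opNorm_le (fibOp_norm_le hA) f

/-- Families of weighted shifts with measurable weights are measurable families. -/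
theorem measFam_wsh (w : ℤ → ℤ_[2] → ℝ) (d : ℤ) (M : ℝ) (hw : ∀ x j, |w j x| ≤ M)
    (hm : ∀ j, Measurable (w j)) :
    MeasFam (fun x => wsh (fun j => w j x) d M (hw x)) M where
  bound := fun x => wsh_norm_le
  meas := by
    intro j
    have h : (fun x => wsh (fun j => w j x) d M (hw x) (basisVec j)) =
        fun x => ((w j x : ℝ) : ℂ) • (basisVec (j + d) : seqHilbert) := by
      funext x
      exact wsh_basis j
    rw [h]
    have h2 : AEStronglyMeasurable (fun x => ((w j x : ℝ) : ℂ)) haarTwoAdic :=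
      (Complex.measurable_ofReal.comp (hm j)).stronglyMeasurable.aestronglyMeasurable
    exact h2.smul aestronglyMeasurable_const

end Crest.Agent.R113.Two
end

-- ▼ part R113/TwoCost
section

/-!
# Row 113, S0150: the costs on the 2-adic odometer
-/

set_option autoImplicit false

namespace Crest.Agent.R113.Two

open Crest.AnalysisR.TwoAdic MeasureTheory Filter Topology

attribute [local instance] Crest.AnalysisR.TwoAdic.borelTwoAdic
  Crest.AnalysisR.TwoAdic.borelSpace_twoAdic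

/-- Growth of the costs. -/
noncomputable def Gc (m : ℕ) : ℝ := 10 * 32 ^ (m ^ 2)

theorem Gc_mono : Monotone Gc := by
  intro a b h
  unfold Gc
  have : (32 : ℝ) ^ (a ^ 2) ≤ 32 ^ (b ^ 2) :=
    pow_le_pow_right₀ (by norm_num) (Nat.pow_le_pow_left h 2)
  linarith

theorem Gc_zero : Gc 0 = 10 := by simp [Gc]

theorem Gc_ge_ten (m : ℕ) : 10 ≤ Gc m := by
  have := Gc_mono (Nat.zero_le m)
  rwa [Gc_zero] at this

theorem Gc_nonneg (m : ℕ) : 0 ≤ Gc m := le_trans (by norm_num) (Gc_ge_ten m)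

theorem Gc_ge (m : ℕ) : 10 * (2 ^ (m + 1) - 1 : ℝ) ≤ Gc m := by
  unfold Gc
  rcases Nat.eq_zero_or_pos m with h | h
  · subst h; norm_num
  · have h1 : (2 : ℝ) ^ (m + 1) ≤ 32 ^ (m ^ 2) := by
      have : (32 : ℝ) = 2 ^ 5 := by norm_num
      rw [this, ← pow_mul]
      apply pow_le_pow_right₀ (by norm_num)
      nlinarith
    linarith

/-- Valuation of `x + i`. -/
noncomputable def vv (x : ℤ_[2]) (i : ℤ) : ℕ := (x + (i : ℤ_[2])).valuation

/-- Maximal valuation over a window. -/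
noncomputable def lv (x : ℤ_[2]) (a b : ℤ) : ℕ := (Finset.Icc a b).sup (vv x)

/-- Running maximum of the valuations. -/
noncomputable def lev (x : ℤ_[2]) (j : ℤ) : ℕ := if 0 ≤ j then lv x 0 j else lv x j (-1)

/-- The cost. -/
noncomputable def cost (x : ℤ_[2]) (j : ℤ) : ℝ := Gc (lev x j)

/-- Generic points: those which are not integers. -/
def Gen (x : ℤ_[2]) : Prop := x ∉ Set.range (Int.cast : ℤ → ℤ_[2])

theorem Gen.add_ne {x : ℤ_[2]} (hx : Gen x) (i : ℤ) : x + (i : ℤ_[2]) ≠ 0 := by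
  intro h
  apply hx
  refine ⟨-i, ?_⟩
  push_cast
  exact (eq_neg_of_add_eq_zero_left h).symm

theorem Gen.add {x : ℤ_[2]} (hx : Gen x) (i : ℤ) : Gen (x + (i : ℤ_[2])) := by
  rintro ⟨j, hj⟩
  apply hx
  refine ⟨j - i, ?_⟩
  push_cast
  rw [hj]; ring

theorem Gen.add_one {x : ℤ_[2]} (hx : Gen x) : Gen (x + 1) := by
  have := hx.add 1
  simpa using this

theorem le_vv_iff {x : ℤ_[2]} (hx : Gen x) (i : ℤ) (k : ℕ) :
    k ≤ vv x i ↔ (x + (i : ℤ_[2])) ∈ (Ideal.span {((2 : ℕ) : ℤ_[2]) ^ k} : Ideal ℤ_[2]) :=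
  (PadicInt.mem_span_pow_iff_le_valuation _ (hx.add_ne i) k).symm

/-- Each window of length `2^k` contains a point of valuation at least `k`. -/
theorem exists_window {x : ℤ_[2]} (hx : Gen x) (k : ℕ) (a : ℤ) :
    ∃ i : ℤ, a ≤ i ∧ i < a + 2 ^ k ∧ k ≤ vv x i := by
  have h1 := PadicInt.appr_spec (p := 2) k x
  set r : ℤ := (x.appr k : ℤ) with hr
  set i : ℤ := a + ((-r - a) % (2 ^ k)) with hi
  have hpos : (0 : ℤ) < 2 ^ k := by positivity
  have h2 := Int.emod_nonneg (-r - a) hpos.ne'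
  have h3 := Int.emod_lt_of_pos (-r - a) hpos
  refine ⟨i, by omega, by omega, ?_⟩
  rw [le_vv_iff hx]
  -- x + i = (x - r) + (r + i), and 2^k ∣ r + i
  have h4 : (2 ^ k : ℤ) ∣ r + i := by
    have := Int.emod_add_mul_ediv (-r - a) (2 ^ k)
    refine ⟨-((-r - a) / 2 ^ k), ?_⟩
    rw [hi]
    linarith
  obtain ⟨q, hq⟩ := h4
  have h5 : x + (i : ℤ_[2]) = (x - (x.appr k : ℤ_[2])) + ((2 : ℕ) : ℤ_[2]) ^ k * (q : ℤ_[2]) := by
    have h6 : ((r + i : ℤ) : ℤ_[2]) = ((2 ^ k * q : ℤ) : ℤ_[2]) := by rw [hq]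
    push_cast at h6
    have h7 : (r : ℤ_[2]) = (x.appr k : ℤ_[2]) := by rw [hr]; push_cast; rfl
    rw [h7] at h6
    push_cast
    rw [← h6]
    ring
  rw [h5]
  exact Ideal.add_mem _ h1 (Ideal.mul_mem_right _ _ (Ideal.subset_span rfl))

theorem vv_le_lv {x : ℤ_[2]} {a b i : ℤ} (h1 : a ≤ i) (h2 : i ≤ b) : vv x i ≤ lv x a b :=
  Finset.le_sup (f := vv x) (Finset.mem_Icc.2 ⟨h1, h2⟩)

theorem lv_le {x : ℤ_[2]} {a b : ℤ} {m : ℕ} (h : ∀ i, a ≤ i → i ≤ b → vv x i ≤ m) :
    lv x a b ≤ m :=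
  Finset.sup_le fun i hi => h i (Finset.mem_Icc.1 hi).1 (Finset.mem_Icc.1 hi).2


theorem vv_shift (x : ℤ_[2]) (i : ℤ) : vv (x + 1) i = vv x (i + 1) := by
  unfold vv
  congr 1
  push_cast
  ring

theorem lv_shift (x : ℤ_[2]) (a b : ℤ) : lv (x + 1) a b = lv x (a + 1) (b + 1) := by
  apply le_antisymm
  · apply lv_le
    intro i h1 h2
    rw [vv_shift]
    exact vv_le_lv (by omega) (by omega)
  · apply lv_le
    intro i h1 h2
    have : vv x i = vv (x + 1) (i - 1) := by rw [vv_shift]; congr 1; ring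
    rw [this]
    exact vv_le_lv (by omega) (by omega)

/-- Lower bound for the costs. -/
theorem cost_ge {x : ℤ_[2]} (hx : Gen x) (j : ℤ) :
    10 * (if 0 ≤ j then (j : ℝ) + 1 else -(j : ℝ)) ≤ cost x j := by
  -- t = number of points of the window
  have key : ∀ (t : ℕ), 0 < t → ∀ (a b : ℤ), b = a + t - 1 → 10 * (t : ℝ) ≤ Gc (lv x a b) := by
    intro t ht a b hb
    set k := Nat.log 2 t with hk
    have h1 : 2 ^ k ≤ t := Nat.pow_log_le_self 2 ht.ne'
    have h2 : t < 2 ^ (k + 1) := Nat.lt_pow_succ_log_self (by norm_num) t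
    obtain ⟨i, hi1, hi2, hi3⟩ := exists_window hx k a
    have h4 : k ≤ lv x a b := by
      refine hi3.trans (vv_le_lv hi1 ?_)
      have : ((2 : ℤ) ^ k) ≤ t := by exact_mod_cast h1
      omega
    refine le_trans ?_ ((Gc_ge k).trans (Gc_mono h4))
    have h5 : (t : ℝ) + 1 ≤ 2 ^ (k + 1) := by exact_mod_cast h2
    linarith
  unfold cost lev
  split_ifs with h
  · have := key (j + 1).toNat (by omega) 0 j (by omega)
    have h3 : (((j + 1).toNat : ℕ) : ℝ) = (j : ℝ) + 1 := by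
      have : (((j + 1).toNat : ℕ) : ℤ) = j + 1 := Int.toNat_of_nonneg (by omega)
      exact_mod_cast this
    rwa [h3] at this
  · have := key (-j).toNat (by omega) j (-1) (by omega)
    have h3 : (((-j).toNat : ℕ) : ℝ) = -(j : ℝ) := by
      have : (((-j).toNat : ℕ) : ℤ) = -j := Int.toNat_of_nonneg (by omega)
      exact_mod_cast this
    rwa [h3] at this

theorem cost_ge_ten (x : ℤ_[2]) (j : ℤ) : 10 ≤ cost x j := Gc_ge_ten _

/-- Lower bound for window sums. -/
theorem cost_sum_ge {x : ℤ_[2]} (hx : Gen x) (j : ℤ) (n : ℕ) :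
    10 * (((n + 1) ^ 2 / 4 : ℕ) : ℝ) ≤ ∑ i ∈ Finset.range n, cost x (j + i) := by
  set hh : ℤ → ℤ := fun k => if 0 ≤ k then k + 1 else -k with hhh
  set Φ : ℤ → ℤ := fun k => k + k * |k| with hΦ
  have hstep : ∀ k : ℤ, Φ (k + 1) - Φ k = 2 * hh k := by
    intro k
    simp only [hΦ, hhh]
    split_ifs with h
    · rw [abs_of_nonneg h, abs_of_nonneg (by linarith : (0 : ℤ) ≤ k + 1)]
      ring
    · rw [abs_of_nonpos (by omega : k + 1 ≤ 0), abs_of_nonpos (by omega : k ≤ 0)]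
      ring
  have hsum : Φ (j + n) - Φ j = 2 * ∑ i ∈ Finset.range n, hh (j + i) := by
    induction n with
    | zero => simp
    | succ n ih =>
      rw [Finset.sum_range_succ]
      have h1 := hstep (j + n)
      have h3 : Φ (j + ((n + 1 : ℕ) : ℤ)) = Φ (j + n + 1) := by
        congr 1; push_cast; ring
      rw [h3]
      linarith
  have hcost : 10 * ((∑ i ∈ Finset.range n, hh (j + i) : ℤ) : ℝ) ≤
      ∑ i ∈ Finset.range n, cost x (j + i) := by
    push_cast
    rw [Finset.mul_sum]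
    apply Finset.sum_le_sum
    intro i _
    have h2 := cost_ge hx (j + i)
    refine le_trans (le_of_eq ?_) h2
    simp only [hhh]
    split_ifs with h <;> push_cast <;> ring
  refine le_trans ?_ hcost
  have hquad : ∀ (a : ℤ) (m : ℤ), 0 ≤ m → m ^ 2 ≤ 2 * ((a + m) * |a + m| - a * |a|) := by
    intro a m hm
    rcases le_total 0 a with h | h
    · rw [abs_of_nonneg h, abs_of_nonneg (by linarith)]
      nlinarith [mul_nonneg h hm]
    · rcases le_total 0 (a + m) with h2 | h2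
      · rw [abs_of_nonpos h, abs_of_nonneg h2]
        nlinarith [sq_nonneg (2 * a + m)]
      · rw [abs_of_nonpos h, abs_of_nonpos h2]
        nlinarith [mul_nonneg (neg_nonneg.2 h) hm, mul_nonneg (neg_nonneg.2 h2) hm]
  have h4 := hquad j n (by positivity)
  have h6 : 4 * ((n + 1) ^ 2 / 4) ≤ (n + 1) ^ 2 := Nat.mul_div_le _ _
  have h7 : ((((n + 1) ^ 2 / 4 : ℕ) : ℕ) : ℤ) ≤ ∑ i ∈ Finset.range n, hh (j + i) := by
    have h8 : 4 * ((((n + 1) ^ 2 / 4 : ℕ) : ℕ) : ℤ) ≤ ((n : ℤ) + 1) ^ 2 := by exact_mod_cast h6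
    have h9 : Φ (j + n) - Φ j = n + ((j + n) * |j + n| - j * |j|) := by
      simp only [hΦ]; ring
    generalize ((((n + 1) ^ 2 / 4 : ℕ) : ℕ) : ℤ) = F at *
    generalize ∑ i ∈ Finset.range n, hh (j + i) = s at *
    by_contra hcon
    push Not at hcon
    have h10 : s + 1 ≤ F := hcon
    nlinarith
  have h11 := (Int.cast_le (R := ℝ)).2 h7
  rw [Int.cast_natCast] at h11
  linarith

theorem Gc_growth {K m : ℕ} (h1 : K ≤ m) (h2 : 1 ≤ m) :
    (K : ℝ) * ((2 : ℝ) ^ (m + 2)) ^ 3 * (Gc m + 1) ≤ Gc (m + 1) := by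
  have hK : (K : ℝ) ≤ 2 ^ m := by
    have : K ≤ 2 ^ m := h1.trans (Nat.lt_two_pow_self).le
    exact_mod_cast this
  have hG : Gc m + 1 ≤ 2 * Gc m := by
    have := Gc_ge_ten m
    linarith
  have h3 : Gc (m + 1) = 2 ^ (10 * m + 5) * Gc m := by
    unfold Gc
    have e1 : (32 : ℝ) = 2 ^ 5 := by norm_num
    rw [e1, ← pow_mul, ← pow_mul]
    have e2 : 5 * (m + 1) ^ 2 = (10 * m + 5) + 5 * m ^ 2 := by ring
    rw [e2, pow_add]
    ring
  calc (K : ℝ) * ((2 : ℝ) ^ (m + 2)) ^ 3 * (Gc m + 1)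
      ≤ 2 ^ m * ((2 : ℝ) ^ (m + 2)) ^ 3 * (2 * Gc m) := by
        apply mul_le_mul _ hG (by linarith [Gc_nonneg m]) (by positivity)
        exact mul_le_mul_of_nonneg_right hK (by positivity)
    _ = 2 ^ (4 * m + 7) * Gc m := by
        rw [← pow_mul]
        have : (4 * m + 7) = m + (m + 2) * 3 + 1 := by ring
        rw [this, pow_add, pow_add, pow_one]
        ring
    _ ≤ 2 ^ (10 * m + 5) * Gc m := by
        apply mul_le_mul_of_nonneg_right _ (Gc_nonneg m)
        apply pow_le_pow_right₀ (by norm_num)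
        omega
    _ = Gc (m + 1) := h3.symm

/-- The costs of a generic point are valley shaped. -/
theorem valley_cost {x : ℤ_[2]} (hx : Gen x) : Valley (cost x) where
  nonneg := fun j => le_trans (by norm_num) (cost_ge_ten x j)
  lev := by
    intro K
    -- choose the level
    set m : ℕ := max (K + 1) (lv x (-K) K) with hm
    have hKm : K ≤ m := by omega
    have hm1 : 1 ≤ m := by omega
    have hlv : lv x (-K) K ≤ m := le_max_right _ _
    -- first bad point to the right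
    have hexR : ∃ t : ℕ, m + 1 ≤ vv x t := by
      obtain ⟨i, hi1, _, hi3⟩ := exists_window hx (m + 1) 0
      exact ⟨i.toNat, by rwa [Int.toNat_of_nonneg hi1]⟩
    have hexL : ∃ t : ℕ, m + 1 ≤ vv x (-1 - t) := by
      obtain ⟨i, _, hi2, hi3⟩ := exists_window hx (m + 1) (-2 ^ (m + 1))
      refine ⟨(-1 - i).toNat, ?_⟩
      rw [Int.toNat_of_nonneg (by omega)]
      have : (-1 - (-1 - i)) = i := by ring
      rwa [this]
    classical
    set R : ℕ := Nat.find hexR with hR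
    set t : ℕ := Nat.find hexL with ht
    have hRs : m + 1 ≤ vv x R := Nat.find_spec hexR
    have hts : m + 1 ≤ vv x (-1 - t) := Nat.find_spec hexL
    have hRm : ∀ i : ℤ, 0 ≤ i → i < R → vv x i ≤ m := by
      intro i h1 h2
      have h3 : i.toNat < R := by omega
      have := Nat.find_min hexR h3
      rw [Int.toNat_of_nonneg h1] at this
      omega
    have htm : ∀ i : ℤ, -(t : ℤ) ≤ i → i < 0 → vv x i ≤ m := by
      intro i h1 h2
      have h3 : (-1 - i).toNat < t := by omega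
      have := Nat.find_min hexL h3
      rw [Int.toNat_of_nonneg (by omega)] at this
      have h4 : (-1 - (-1 - i)) = i := by ring
      rw [h4] at this
      omega
    have hRle : (R : ℤ) < 2 ^ (m + 1) := by
      obtain ⟨i, hi1, hi2, hi3⟩ := exists_window hx (m + 1) 0
      by_contra hcon
      push Not at hcon
      have := hRm i hi1 (by omega)
      omega
    have htle : (t : ℤ) < 2 ^ (m + 1) := by
      obtain ⟨i, hi1, hi2, hi3⟩ := exists_window hx (m + 1) (-2 ^ (m + 1))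
      by_contra hcon
      push Not at hcon
      have := htm i (by omega) (by omega)
      omega
    have hRK : (K : ℤ) < R := by
      by_contra hcon
      push Not at hcon
      have h1 : vv x R ≤ lv x (-K) K := vv_le_lv (by omega) (by omega)
      omega
    have htK : (K : ℤ) ≤ t := by
      by_contra hcon
      push Not at hcon
      have h1 : vv x (-1 - t) ≤ lv x (-K) K := vv_le_lv (by omega) (by omega)
      omega
    refine ⟨-(t : ℤ), R, Gc m, Gc (m + 1), by omega, by omega, ?_, ?_, ?_, ?_⟩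
    · have h1 : (K : ℝ) ≤ 2 ^ m := by
        have : K ≤ 2 ^ m := hKm.trans (Nat.lt_two_pow_self).le
        exact_mod_cast this
      have h2 := Gc_ge m
      have h3 : (1 : ℝ) ≤ 2 ^ m := one_le_pow₀ (by norm_num)
      rw [pow_succ] at h2
      linarith
    · intro i h1 h2
      unfold cost lev
      apply Gc_mono
      split_ifs with h
      · exact lv_le fun k hk1 hk2 => hRm k hk1 (by omega)
      · exact lv_le fun k hk1 hk2 => htm k (by omega) (by omega)
    · intro i h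
      unfold cost lev
      apply Gc_mono
      rcases h with h | h
      · rw [if_neg (by omega)]
        exact hts.trans (vv_le_lv (by omega) (by omega))
      · rw [if_pos (by omega)]
        exact hRs.trans (vv_le_lv (by omega) (by omega))
    · refine le_trans ?_ (Gc_growth hKm hm1)
      apply mul_le_mul_of_nonneg_right _ (by linarith [Gc_nonneg m])
      apply mul_le_mul_of_nonneg_left _ (Nat.cast_nonneg K)
      have h5 : (R : ℤ) - (-(t : ℤ)) + 1 ≤ 2 ^ (m + 2) := by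
        have : (2 : ℤ) ^ (m + 2) = 2 ^ (m + 1) + 2 ^ (m + 1) := by ring
        omega
      have h6 : (((R : ℤ) - (-(t : ℤ)) : ℤ) + 1 : ℝ) ≤ 2 ^ (m + 2) := by exact_mod_cast h5
      apply pow_le_pow_left₀ _ h6
      have h7 : (0 : ℤ) ≤ (R : ℤ) - (-(t : ℤ)) + 1 := by omega
      exact_mod_cast h7

end Crest.Agent.R113.Two
end

-- ▼ part R113/TwoV
section

/-!
# Row 113, S0150: the backward intertwiner: weights and commutation
-/

set_option autoImplicit false

namespace Crest.Agent.R113.Two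

open Crest.AnalysisR.TwoAdic MeasureTheory Filter Topology

attribute [local instance] Crest.AnalysisR.TwoAdic.borelTwoAdic
  Crest.AnalysisR.TwoAdic.borelSpace_twoAdic

/-- Difference of the costs of the same position seen from `x` and from `x + 1`. -/
noncomputable def dl (x : ℤ_[2]) (j : ℤ) : ℝ := cost x j - cost (x + 1) (j - 1)

theorem lev_shift_pos {x : ℤ_[2]} {j : ℤ} (hj : 1 ≤ j) : lev (x + 1) (j - 1) = lv x 1 j := by
  unfold lev
  rw [if_pos (by omega), lv_shift]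
  congr 1 <;> ring

theorem lev_shift_nonpos {x : ℤ_[2]} {j : ℤ} (hj : j ≤ 0) : lev (x + 1) (j - 1) = lv x j 0 := by
  unfold lev
  rw [if_neg (by omega), lv_shift]
  congr 1; ring

theorem vv_zero (x : ℤ_[2]) : vv x 0 = x.valuation := by
  unfold vv; simp



theorem dl_le {x : ℤ_[2]} (hx : Gen x) {j : ℤ} (hj : 0 ≤ j) :
    dl x j ≤ if j < 2 ^ x.valuation then Gc x.valuation else 0 := by
  rcases eq_or_lt_of_le hj with h | h
  · subst h
    have : dl x 0 ≤ 0 := by
      unfold dl cost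
      rw [sub_nonpos]
      apply Gc_mono
      rw [lev_shift_nonpos le_rfl]
      unfold lev
      simp
    split_ifs
    · exact this.trans (Gc_nonneg _)
    · exact this
  · have h0 : lev x j ≤ max (vv x 0) (lv x 1 j) := by
      unfold lev
      rw [if_pos hj]
      apply lv_le
      intro i h1 h2
      rcases eq_or_lt_of_le h1 with h3 | h3
      · subst h3; exact le_max_left _ _
      · exact le_max_of_le_right (vv_le_lv (by omega) h2)
    unfold dl cost
    rw [lev_shift_pos (by omega)]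
    rw [vv_zero] at h0
    split_ifs with h2
    · rcases le_max_iff.1 h0 with h3 | h3
      · have := Gc_mono h3
        have := Gc_nonneg (lv x 1 j)
        linarith
      · have := Gc_mono h3
        have := Gc_nonneg x.valuation
        linarith
    · have h4 : x.valuation ≤ lv x 1 j := by
        obtain ⟨i, hi1, hi2, hi3⟩ := exists_window hx x.valuation 1
        exact hi3.trans (vv_le_lv hi1 (by omega))
      have h5 : lev x j ≤ lv x 1 j := h0.trans (max_le h4 le_rfl)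
      have := Gc_mono h5
      linarith

theorem dl_ge {x : ℤ_[2]} (hx : Gen x) {j : ℤ} (hj : j < 0) :
    -dl x j ≤ if -2 ^ x.valuation ≤ j then Gc x.valuation else 0 := by
  have h0 : lv x j 0 ≤ max (vv x 0) (lv x j (-1)) := by
    apply lv_le
    intro i h1 h2
    rcases eq_or_lt_of_le h2 with h3 | h3
    · subst h3; exact le_max_left _ _
    · exact le_max_of_le_right (vv_le_lv h1 (by omega))
  unfold dl cost
  rw [lev_shift_nonpos hj.le]
  have hlev : lev x j = lv x j (-1) := by unfold lev; rw [if_neg (by omega)]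
  rw [hlev]
  rw [vv_zero] at h0
  split_ifs with h2
  · rcases le_max_iff.1 h0 with h3 | h3
    · have := Gc_mono h3
      have := Gc_nonneg (lv x j (-1))
      linarith
    · have := Gc_mono h3
      have := Gc_nonneg x.valuation
      linarith
  · have h4 : x.valuation ≤ lv x j (-1) := by
      obtain ⟨i, hi1, hi2, hi3⟩ := exists_window hx x.valuation (-2 ^ x.valuation)
      exact hi3.trans (vv_le_lv (by omega) (by omega))
    have h5 : lv x j 0 ≤ lv x j (-1) := h0.trans (max_le h4 le_rfl)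
    have := Gc_mono h5
    linarith

/-- Primitive of `dl`. -/
noncomputable def BB (x : ℤ_[2]) (j : ℤ) : ℝ :=
  if 0 ≤ j then ∑ i ∈ Finset.Ico 0 j, dl x i else ∑ i ∈ Finset.Ico j 0, -dl x i

theorem BB_succ (x : ℤ_[2]) (j : ℤ) : BB x (j + 1) = BB x j + dl x j := by
  unfold BB
  rcases lt_trichotomy j (-1) with h | h | h
  · rw [if_neg (by omega), if_neg (by omega)]
    have : Finset.Ico j 0 = insert j (Finset.Ico (j + 1) 0) := by
      ext i; simp only [Finset.mem_insert, Finset.mem_Ico]; omega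
    rw [this, Finset.sum_insert (by simp)]
    ring
  · subst h
    rw [if_pos (by norm_num), if_neg (by norm_num)]
    have : Finset.Ico (-1 : ℤ) 0 = {-1} := by
      ext i; simp only [Finset.mem_singleton, Finset.mem_Ico]; omega
    rw [this]
    simp
  · rw [if_pos (by omega), if_pos (by omega)]
    have : Finset.Ico 0 (j + 1) = insert j (Finset.Ico 0 j) := by
      ext i; simp only [Finset.mem_insert, Finset.mem_Ico]; omega
    rw [this, Finset.sum_insert (by simp)]
    ring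

theorem BB_le {x : ℤ_[2]} (hx : Gen x) (j : ℤ) :
    BB x j ≤ 2 ^ x.valuation * Gc x.valuation := by
  unfold BB
  split_ifs with h
  · calc ∑ i ∈ Finset.Ico 0 j, dl x i
        ≤ ∑ i ∈ Finset.Ico 0 j, (if i < 2 ^ x.valuation then Gc x.valuation else 0) :=
          Finset.sum_le_sum fun i hi => dl_le hx (Finset.mem_Ico.1 hi).1
      _ = ∑ i ∈ (Finset.Ico 0 j).filter (fun i => i < 2 ^ x.valuation), Gc x.valuation := by
          rw [Finset.sum_filter]
      _ ≤ ∑ i ∈ Finset.Ico (0 : ℤ) (2 ^ x.valuation), Gc x.valuation := by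
          apply Finset.sum_le_sum_of_subset_of_nonneg
          · intro i hi
            simp only [Finset.mem_filter, Finset.mem_Ico] at hi ⊢
            exact ⟨hi.1.1, hi.2⟩
          · intro i _ _; exact Gc_nonneg _
      _ = 2 ^ x.valuation * Gc x.valuation := by
          rw [Finset.sum_const, Int.card_Ico, nsmul_eq_mul]
          congr 1
          have : ((2 : ℤ) ^ x.valuation - 0).toNat = 2 ^ x.valuation := by
            rw [sub_zero]
            exact_mod_cast Int.toNat_natCast (2 ^ x.valuation)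
          rw [this]
          push_cast; rfl
  · calc ∑ i ∈ Finset.Ico j 0, -dl x i
        ≤ ∑ i ∈ Finset.Ico j 0, (if -2 ^ x.valuation ≤ i then Gc x.valuation else 0) :=
          Finset.sum_le_sum fun i hi => dl_ge hx (Finset.mem_Ico.1 hi).2
      _ = ∑ i ∈ (Finset.Ico j 0).filter (fun i => -2 ^ x.valuation ≤ i), Gc x.valuation := by
          rw [Finset.sum_filter]
      _ ≤ ∑ i ∈ Finset.Ico (-2 ^ x.valuation : ℤ) 0, Gc x.valuation := by
          apply Finset.sum_le_sum_of_subset_of_nonneg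
          · intro i hi
            simp only [Finset.mem_filter, Finset.mem_Ico] at hi ⊢
            exact ⟨hi.2, hi.1.2⟩
          · intro i _ _; exact Gc_nonneg _
      _ = 2 ^ x.valuation * Gc x.valuation := by
          rw [Finset.sum_const, Int.card_Ico, nsmul_eq_mul]
          congr 1
          have : ((0 : ℤ) - (-2 ^ x.valuation)).toNat = 2 ^ x.valuation := by
            rw [sub_neg_eq_add, zero_add]
            exact_mod_cast Int.toNat_natCast (2 ^ x.valuation)
          rw [this]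
          push_cast; rfl

instance nebot_zero : (𝓝[≠] (0 : ℤ_[2])).NeBot := by
  rw [← mem_closure_iff_nhdsWithin_neBot, Metric.mem_closure_iff]
  intro ε hε
  obtain ⟨n, hn⟩ := exists_pow_lt_of_lt_one hε (by norm_num : (1 / 2 : ℝ) < 1)
  refine ⟨(2 : ℤ_[2]) ^ n, ?_, ?_⟩
  · intro h
    have h2 : (2 : ℤ_[2]) ^ n = 0 := h
    have h3 : ((2 : ℕ) : ℤ_[2]) ≠ 0 := by
      exact_mod_cast (PadicInt.prime_p (p := 2)).ne_zero
    exact pow_ne_zero n (by exact_mod_cast h3) h2
  · rw [dist_zero_left, norm_pow]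
    have h4 : ‖(2 : ℤ_[2])‖ = 1 / 2 := by
      have := PadicInt.norm_p (p := 2)
      push_cast at this
      rw [this]; norm_num
    rw [h4]
    exact hn

theorem ae_gen : ∀ᵐ x ∂haarTwoAdic, Gen x := by
  have h : (Set.range (Int.cast : ℤ → ℤ_[2])).Countable := Set.countable_range _
  have := h.measure_zero haarTwoAdic
  rw [ae_iff]
  have h2 : {a : ℤ_[2] | ¬ Gen a} = Set.range (Int.cast : ℤ → ℤ_[2]) := by
    ext a; unfold Gen; simp
  rw [h2]
  exact this

/-- A fixed generic point. -/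
theorem exists_gen : ∃ x : ℤ_[2], Gen x := ae_gen.exists

open Classical in
/-- Replace integers by a fixed generic point. -/
noncomputable def gen (x : ℤ_[2]) : ℤ_[2] := if Gen x then x else Classical.choose exists_gen

theorem gen_gen (x : ℤ_[2]) : Gen (gen x) := by
  unfold gen
  split_ifs with h
  · exact h
  · exact Classical.choose_spec exists_gen

theorem gen_eq {x : ℤ_[2]} (hx : Gen x) : gen x = x := if_pos hx

/-- Weights of the shift. -/
noncomputable def bet (j : ℤ) (x : ℤ_[2]) : ℝ := Real.exp (-cost (gen x) j)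

open Classical in
/-- Weights of the backward intertwiner. -/
noncomputable def bb (j : ℤ) (x : ℤ_[2]) : ℝ :=
  if Gen x then Real.exp (BB x j - 2 ^ x.valuation * Gc x.valuation) else 0

theorem bet_pos (j : ℤ) (x : ℤ_[2]) : 0 < bet j x := Real.exp_pos _

theorem bet_le (j : ℤ) (x : ℤ_[2]) : bet j x ≤ Real.exp (-10) :=
  Real.exp_le_exp.2 (neg_le_neg (cost_ge_ten _ _))

theorem bet_abs_le (x : ℤ_[2]) (j : ℤ) : |bet j x| ≤ Real.exp (-10) := by
  rw [abs_of_pos (bet_pos j x)]; exact bet_le j x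

theorem bb_nonneg (j : ℤ) (x : ℤ_[2]) : 0 ≤ bb j x := by
  unfold bb; split_ifs
  · exact (Real.exp_pos _).le
  · exact le_rfl

theorem bb_le_one (j : ℤ) (x : ℤ_[2]) : bb j x ≤ 1 := by
  unfold bb; split_ifs with h
  · rw [Real.exp_le_one_iff]
    linarith [BB_le h j]
  · norm_num

theorem bb_pos {x : ℤ_[2]} (hx : Gen x) (j : ℤ) : 0 < bb j x := by
  unfold bb; rw [if_pos hx]; exact Real.exp_pos _

theorem bb_abs_le (x : ℤ_[2]) (j : ℤ) : |bb j x| ≤ 1 := by
  rw [abs_of_nonneg (bb_nonneg j x)]; exact bb_le_one j x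

theorem measurable_valuation : Measurable (fun x : ℤ_[2] => x.valuation) := by
  apply measurable_to_countable'
  intro n
  have h : (fun x : ℤ_[2] => x.valuation) ⁻¹' {n} =
      ({x : ℤ_[2] | x ≠ 0} ∩ {x : ℤ_[2] | ‖x‖ = ((2 : ℕ) : ℝ) ^ (-(n : ℤ))}) ∪
        (if n = 0 then {0} else ∅) := by
    ext x
    simp only [Set.mem_preimage, Set.mem_singleton_iff, Set.mem_union, Set.mem_inter_iff,
      Set.mem_ofPred_eq]
    by_cases hx : x = 0
    · subst hx
      by_cases hn : n = 0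
      · simp [hn]
      · simp [hn, Ne.symm hn]
    · have h1 := PadicInt.norm_eq_zpow_neg_valuation hx
      constructor
      · intro h2
        left
        refine ⟨hx, ?_⟩
        rw [h1, h2]
      · rintro (⟨_, h2⟩ | h2)
        · rw [h1] at h2
          have h3 := zpow_right_injective₀ (by norm_num : (0 : ℝ) < ((2 : ℕ) : ℝ))
            (by norm_num : ((2 : ℕ) : ℝ) ≠ 1) h2
          have h4 : (-(x.valuation : ℤ)) = -(n : ℤ) := h3
          omega
        · split_ifs at h2 with hn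
          · exact absurd h2 hx
          · exact absurd h2 (by simp)
  rw [h]
  apply MeasurableSet.union
  · apply MeasurableSet.inter
    · exact (isOpen_ne).measurableSet
    · exact (isClosed_eq continuous_norm continuous_const).measurableSet
  · split_ifs
    · exact isClosed_singleton.measurableSet
    · exact MeasurableSet.empty

theorem measurable_vv (i : ℤ) : Measurable (fun x : ℤ_[2] => vv x i) :=
  measurable_valuation.comp (measurable_add_const _)

theorem measurable_lv (a b : ℤ) : Measurable (fun x : ℤ_[2] => lv x a b) := by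
  unfold lv
  generalize Finset.Icc a b = s
  classical
  induction s using Finset.induction_on with
  | empty => simp only [Finset.sup_empty]; exact measurable_const
  | insert a s ha ih =>
    simp only [Finset.sup_insert]
    exact (measurable_vv a).sup ih

theorem measurable_lev (j : ℤ) : Measurable (fun x : ℤ_[2] => lev x j) := by
  unfold lev
  split_ifs
  · exact measurable_lv _ _
  · exact measurable_lv _ _

theorem measurable_cost (j : ℤ) : Measurable (fun x : ℤ_[2] => cost x j) :=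
  (measurable_of_countable Gc).comp (measurable_lev j)

theorem measurableSet_gen : MeasurableSet {x : ℤ_[2] | Gen x} := by
  have h : (Set.range (Int.cast : ℤ → ℤ_[2])).Countable := Set.countable_range _
  exact h.measurableSet.compl

theorem measurable_gen : Measurable gen := by
  classical
  unfold gen
  exact Measurable.ite measurableSet_gen measurable_id measurable_const

theorem measurable_bet (j : ℤ) : Measurable (bet j) :=
  Real.measurable_exp.comp ((measurable_cost j).comp measurable_gen).neg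

theorem measurable_dl (j : ℤ) : Measurable (fun x => dl x j) :=
  (measurable_cost j).sub ((measurable_cost (j - 1)).comp (measurable_add_const _))

theorem measurable_BB (j : ℤ) : Measurable (fun x => BB x j) := by
  unfold BB
  split_ifs
  · exact Finset.measurable_fun_sum _ fun i _ => measurable_dl i
  · exact Finset.measurable_fun_sum _ fun i _ => (measurable_dl i).neg

theorem measurable_bb (j : ℤ) : Measurable (bb j) := by
  classical
  unfold bb
  refine Measurable.ite measurableSet_gen ?_ measurable_const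
  apply Real.measurable_exp.comp
  apply (measurable_BB j).sub
  exact (measurable_of_countable fun n : ℕ => (2 : ℝ) ^ n * Gc n).comp measurable_valuation

theorem bb_comm {x : ℤ_[2]} (hx : Gen x) (j : ℤ) :
    bb (j + 1) x * bet j x = bb j x * bet (j - 1) (x + 1) := by
  unfold bb bet
  rw [if_pos hx, if_pos hx, gen_eq hx, gen_eq hx.add_one, BB_succ, ← Real.exp_add, ← Real.exp_add]
  congr 1
  unfold dl
  ring

end Crest.Agent.R113.Two
end

-- ▼ part R113/TwoMain
section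

/-!
# Row 113, S0150: the operators and all clauses except unicellularity and transitivity
-/

set_option autoImplicit false

namespace Crest.Agent.R113.Two

open Crest.AnalysisR.TwoAdic MeasureTheory Filter Topology

attribute [local instance] Crest.AnalysisR.TwoAdic.borelTwoAdic
  Crest.AnalysisR.TwoAdic.borelSpace_twoAdic

/-- The fibre shifts. -/
noncomputable def Sf (x : ℤ_[2]) : seqHilbert →L[ℂ] seqHilbert :=
  wsh (fun j => bet j x) 1 (Real.exp (-10)) (bet_abs_le x)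

/-- The fibres of the intertwiner. -/
noncomputable def Vf (x : ℤ_[2]) : seqHilbert →L[ℂ] seqHilbert :=
  wsh (fun j => bb j x) (-1) 1 (bb_abs_le x)

theorem Sf_meas : MeasFam Sf (Real.exp (-10)) :=
  measFam_wsh bet 1 (Real.exp (-10)) bet_abs_le measurable_bet

theorem Vf_meas : MeasFam Vf 1 :=
  measFam_wsh bb (-1) 1 bb_abs_le measurable_bb

/-- The shift. -/
noncomputable def SS : fibreSpace →L[ℂ] fibreSpace := fibOp Sf _ Sf_meas

/-- The intertwiner. -/
noncomputable def VV : fibreSpace →L[ℂ] fibreSpace := backOp Vf _ Vf_meas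

theorem Sf_basis (x : ℤ_[2]) (j : ℤ) :
    Sf x (basisVec j) = ((bet j x : ℝ) : ℂ) • basisVec (j + 1) := wsh_basis j

theorem Sf_basis_exp (x : ℤ_[2]) (j : ℤ) :
    Sf x (basisVec j) = ((Real.exp (-cost (gen x) j) : ℝ) : ℂ) • basisVec (j + 1) := wsh_basis j

theorem Vf_basis (x : ℤ_[2]) (j : ℤ) :
    Vf x (basisVec j) = ((bb j x : ℝ) : ℂ) • basisVec (j - 1) := wsh_basis j

theorem SS_ae (f : fibreSpace) : ∀ᵐ x ∂haarTwoAdic,
    (SS f : ℤ_[2] → seqHilbert) x = Sf x ((f : ℤ_[2] → seqHilbert) x) := fibOp_ae Sf_meas f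

theorem VV_ae (f : fibreSpace) : ∀ᵐ x ∂haarTwoAdic,
    (VV f : ℤ_[2] → seqHilbert) (x + 1) = Vf x ((f : ℤ_[2] → seqHilbert) x) := backOp_ae Vf_meas f

theorem VV_norm : ‖VV‖ ≤ 1 := backOp_norm_le Vf_meas

theorem comm_fib {x : ℤ_[2]} (hx : Gen x) (v : seqHilbert) :
    Vf x (Sf x v) = Sf (x + 1) (Vf x v) := by
  apply lp.ext
  funext k
  unfold Vf Sf
  rw [wsh_apply, wsh_apply, wsh_apply, wsh_apply]
  have h := bb_comm hx k
  have e1 : k - -1 = k + 1 := by ring
  have e2 : k + 1 - 1 = k := by ring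
  have e3 : k - 1 - -1 = k := by ring
  rw [e1, e2, e3, ← mul_assoc, ← mul_assoc]
  congr 1
  rw [← Complex.ofReal_mul, ← Complex.ofReal_mul, h, mul_comm]

theorem VS_comm : VV * SS = SS * VV := by
  ext1 f
  change VV (SS f) = SS (VV f)
  apply Lp.ext
  have h : ∀ᵐ x ∂haarTwoAdic, (VV (SS f) : ℤ_[2] → seqHilbert) (x + 1) =
      (SS (VV f) : ℤ_[2] → seqHilbert) (x + 1) := by
    filter_upwards [ae_gen, VV_ae (SS f), SS_ae f, ae_add 1 (SS_ae (VV f)), VV_ae f]
      with x h1 h2 h3 h4 h5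
    rw [h2, h3, h4, h5, comm_fib h1]
  have h2 := ae_add (-1) h
  filter_upwards [h2] with x hx
  simpa using hx

theorem Sf_pow_norm {x : ℤ_[2]} (hx : Gen x) (n : ℕ) :
    ‖Sf x ^ n‖ ≤ Real.exp (-10 * (((n + 1) ^ 2 / 4 : ℕ) : ℝ)) := by
  unfold Sf
  apply wsh_pow_norm_le
  intro j
  have h1 : ∏ i ∈ Finset.range n, bet (j + i) x =
      Real.exp (-∑ i ∈ Finset.range n, cost x (j + i)) := by
    unfold bet
    rw [gen_eq hx, ← Finset.sum_neg_distrib, Real.exp_sum]
  rw [h1, abs_of_pos (Real.exp_pos _)]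
  apply Real.exp_le_exp.2
  have := cost_sum_ge hx j n
  linarith

theorem SS_pow_norm (n : ℕ) :
    ‖SS ^ n‖ ≤ Real.exp (-10 * (((n + 1) ^ 2 / 4 : ℕ) : ℝ)) := by
  apply norm_le_of_fib (fun f => pow_ae_of_fib SS_ae n f) (Real.exp_pos _).le
  filter_upwards [ae_gen] with x hx
  exact Sf_pow_norm hx n

/-- Units near `1`. -/
def OO : Set ℤ_[2] := {x : ℤ_[2] | ‖x - 1‖ < 1}

theorem isOpen_OO : IsOpen OO := isOpen_lt (by fun_prop) continuous_const

theorem val_OO {x : ℤ_[2]} (hx : x ∈ OO) : x.valuation = 0 := by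
  have h1 : ‖x - 1‖ < 1 := hx
  have h2 : ‖x‖ = 1 := by
    have h3 : x = 1 + (x - 1) := by ring
    rw [h3]
    have h4 : ‖(1 : ℤ_[2])‖ ≠ ‖x - 1‖ := by
      rw [norm_one]; exact h1.ne'
    rw [PadicInt.norm_add_eq_max_of_ne h4, norm_one]
    exact max_eq_left h1.le
  have h5 : x ≠ 0 := by
    intro h; rw [h, norm_zero] at h2; norm_num at h2
  have h6 := PadicInt.norm_eq_zpow_neg_valuation h5
  rw [h2] at h6
  have h7 : ((2 : ℕ) : ℝ) ^ (0 : ℤ) = ((2 : ℕ) : ℝ) ^ (-(x.valuation : ℤ)) := by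
    rw [zpow_zero]; exact h6
  have h3 := zpow_right_injective₀ (by norm_num : (0 : ℝ) < ((2 : ℕ) : ℝ))
    (by norm_num : ((2 : ℕ) : ℝ) ≠ 1) h7
  have h4 : (0 : ℤ) = -(x.valuation : ℤ) := h3
  omega

theorem OO_pos : 0 < haarTwoAdic OO :=
  isOpen_OO.measure_pos haarTwoAdic ⟨1, by simp [OO]⟩

theorem SS_norm : ‖SS‖ = Real.exp (-10) := by
  apply le_antisymm (fibOp_norm_le Sf_meas)
  set f : fibreSpace := indicatorConstLp 2 isOpen_OO.measurableSet (measure_ne_top _ _)
    (basisVec 0 : seqHilbert) with hf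
  have hfae : ∀ᵐ x ∂haarTwoAdic, (f : ℤ_[2] → seqHilbert) x =
      OO.indicator (fun _ => (basisVec 0 : seqHilbert)) x := indicatorConstLp_coeFn
  have hfn : 0 < ‖f‖ := by
    rw [norm_pos_iff]
    intro h0
    have h1 : ∀ᵐ x ∂haarTwoAdic, x ∉ OO := by
      have h2 : ∀ᵐ x ∂haarTwoAdic, (f : ℤ_[2] → seqHilbert) x = 0 := by
        rw [h0]; exact Lp.coeFn_zero _ _ _
      filter_upwards [hfae, h2] with x h3 h4 h5
      rw [h4, Set.indicator_of_mem h5] at h3
      have := norm_basisVec 0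
      rw [← h3, norm_zero] at this
      norm_num at this
    rw [ae_iff] at h1
    simp only [not_not] at h1
    exact OO_pos.ne' h1
  have hle : ‖f‖ ≤ Real.exp 10 * ‖SS f‖ := by
    apply Lp.norm_le_mul_norm_of_ae_le_mul
    filter_upwards [hfae, SS_ae f, ae_gen] with x h1 h2 h3
    by_cases hx : x ∈ OO
    · rw [h2, h1, Set.indicator_of_mem hx, Sf_basis, norm_smul, norm_basisVec, norm_basisVec,
        Complex.norm_real, Real.norm_eq_abs, abs_of_pos (bet_pos _ _)]
      unfold bet cost lev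
      rw [gen_eq h3, if_pos le_rfl]
      have h4 : lv x 0 0 = 0 := by
        unfold lv
        rw [Finset.Icc_self, Finset.sup_singleton, vv_zero, val_OO hx]
      rw [h4, Gc_zero, mul_one, ← Real.exp_add]
      norm_num
    · rw [h1, Set.indicator_of_notMem hx, norm_zero]
      positivity
  have h2 : ‖SS f‖ ≤ ‖SS‖ * ‖f‖ := SS.le_opNorm f
  have h3 : ‖f‖ ≤ Real.exp 10 * (‖SS‖ * ‖f‖) :=
    hle.trans (mul_le_mul_of_nonneg_left h2 (Real.exp_pos _).le)
  have h4 : 1 ≤ Real.exp 10 * ‖SS‖ := by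
    by_contra hcon
    push Not at hcon
    nlinarith
  have h5 : Real.exp (-10) ≤ ‖SS‖ := by
    rw [Real.exp_neg, inv_le_iff_one_le_mul₀' (Real.exp_pos _)]
    exact h4
  exact h5

theorem SS_ne : SS ≠ 0 := by
  intro h
  have := SS_norm
  rw [h, norm_zero] at this
  exact absurd this (Real.exp_pos _).ne

theorem closure_tail {x : ℤ_[2]} (hx : Gen x) (h : ℤ) :
    closure (Vf x '' (tailSpace h : Set seqHilbert)) = (tailSpace (h - 1) : Set seqHilbert) := by
  apply subset_antisymm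
  · apply closure_minimal
    · rintro _ ⟨v, hv, rfl⟩
      have hv' : v ∈ tailSpace h := hv
      change Vf x v ∈ tailSpace (h - 1)
      rw [mem_tail_iff] at hv' ⊢
      intro j hj
      unfold Vf
      rw [wsh_apply, hv' _ (by omega), mul_zero]
    · exact Submodule.isClosed_topologicalClosure _
  · have h1 : (Submodule.span ℂ (Set.range fun j : {j : ℤ // h - 1 ≤ j} => basisVec (j : ℤ))) ≤
        (tailSpace h).map (Vf x).toLinearMap := by
      rw [Submodule.span_le]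
      rintro _ ⟨⟨j, hj⟩, rfl⟩
      refine ⟨((bb (j + 1) x : ℝ) : ℂ)⁻¹ • basisVec (j + 1),
        Submodule.smul_mem _ _ (basisVec_mem_tail (by omega)), ?_⟩
      change Vf x _ = basisVec j
      rw [map_smul, Vf_basis, smul_smul, inv_mul_cancel₀, one_smul]
      · congr 1; ring
      · exact_mod_cast (bb_pos hx _).ne'
    have h2 : (tailSpace (h - 1) : Set seqHilbert) =
        closure ((Submodule.span ℂ (Set.range fun j : {j : ℤ // h - 1 ≤ j} => basisVec (j : ℤ)) :
          Submodule ℂ seqHilbert) : Set seqHilbert) := by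
      rw [tailSpace, Submodule.topologicalClosure_coe]
    rw [h2]
    exact closure_mono h1

theorem closure_range {x : ℤ_[2]} (hx : Gen x) : closure (Set.range (Vf x)) = Set.univ := by
  rw [Set.eq_univ_iff_forall]
  intro v
  have hcl : IsClosed (closure (Set.range (Vf x))) := isClosed_closure
  refine hcl.mem_of_tendsto (hasSum_basis v) (Filter.Eventually.of_forall fun s => ?_)
  apply subset_closure
  have : ∑ j ∈ s, v j • basisVec j ∈ LinearMap.range (Vf x).toLinearMap := by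
    apply Submodule.sum_mem
    intro j _
    apply Submodule.smul_mem
    refine ⟨((bb (j + 1) x : ℝ) : ℂ)⁻¹ • basisVec (j + 1), ?_⟩
    change Vf x _ = basisVec j
    rw [map_smul, Vf_basis, smul_smul, inv_mul_cancel₀, one_smul]
    · congr 1; ring
    · exact_mod_cast (bb_pos hx _).ne'
  exact this

end Crest.Agent.R113.Two
end

-- ▼ part R113/TwoTrans

/-!
# Row 113, S0150: transitivity
-/

set_option autoImplicit false

namespace Crest.Agent.R113.Two

open Crest.AnalysisR.TwoAdic MeasureTheory Filter Topology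

attribute [local instance] Crest.AnalysisR.TwoAdic.borelTwoAdic
  Crest.AnalysisR.TwoAdic.borelSpace_twoAdic

/-- Powers of the intertwiner move the coordinates to the left. -/
theorem back_coord {Vfib : ℤ_[2] → (seqHilbert →L[ℂ] seqHilbert)}
    {V : fibreSpace →L[ℂ] fibreSpace} {b : ℤ → ℤ_[2] → ℝ}
    (hVb : ∀ x j, Vfib x (basisVec j) = (b j x : ℂ) • basisVec (j - 1))
    (hbpos : ∀ᵐ x ∂haarTwoAdic, ∀ j, 0 < b j x)
    (hV : ∀ f : fibreSpace, ∀ᵐ x ∂haarTwoAdic,
      (V f : ℤ_[2] → seqHilbert) (x + 1) = Vfib x ((f : ℤ_[2] → seqHilbert) x))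
    (f : fibreSpace) (p : ℕ) : ∀ᵐ x ∂haarTwoAdic, ∀ j : ℤ,
      (f : ℤ_[2] → seqHilbert) x (j + p) ≠ 0 →
        (((V ^ p) f : fibreSpace) : ℤ_[2] → seqHilbert) (x + p) j ≠ 0 := by
  induction p with
  | zero =>
    refine Eventually.of_forall fun x j h => ?_
    simpa using h
  | succ p ih =>
    have h1 := ae_add (p : ℤ_[2]) (hV ((V ^ p) f))
    have h2 := ae_add (p : ℤ_[2]) hbpos
    filter_upwards [ih, h1, h2] with x h3 h4 h5 j hj
    have e1 : (V ^ (p + 1)) f = V ((V ^ p) f) := by rw [pow_succ']; rfl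
    have e2 : x + ((p + 1 : ℕ) : ℤ_[2]) = x + (p : ℤ_[2]) + 1 := by push_cast; ring
    rw [e1, e2, h4]
    have h6 := shift_apply_of_basis (Vfib (x + p)) (fun j => b j (x + p)) (-1)
      (fun j => hVb (x + p) j) ((((V ^ p) f : fibreSpace) : ℤ_[2] → seqHilbert) (x + p)) j
    rw [h6]
    have e3 : j - -1 = j + 1 := by ring
    rw [e3]
    apply mul_ne_zero
    · exact_mod_cast (h5 (j + 1)).ne'
    · apply h3
      have e4 : j + 1 + (p : ℤ) = j + ((p + 1 : ℕ) : ℤ) := by push_cast; ring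
      rwa [e4]

/-- Multiplier invariance localises orthogonality. -/
theorem inner_ae_zero (W : Submodule ℂ fibreSpace)
    (hW : ∀ g : ℤ_[2] → ℂ, Measurable g → (∃ C : ℝ, ∀ x, ‖g x‖ ≤ C) →
      ∀ f ∈ W, ∀ f' : fibreSpace,
        (∀ᵐ x ∂haarTwoAdic, (f' : ℤ_[2] → seqHilbert) x = g x • (f : ℤ_[2] → seqHilbert) x) →
          f' ∈ W)
    {f g : fibreSpace} (hf : f ∈ W) (hg : g ∈ Wᗮ) :
    ∀ᵐ x ∂haarTwoAdic, inner ℂ ((g : ℤ_[2] → seqHilbert) x) ((f : ℤ_[2] → seqHilbert) x) = 0 := by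
  have hint : Integrable (fun x => inner ℂ ((g : ℤ_[2] → seqHilbert) x)
      ((f : ℤ_[2] → seqHilbert) x)) haarTwoAdic := L2.integrable_inner g f
  have key : ∀ s, MeasurableSet s → ∫ x in s, inner ℂ ((g : ℤ_[2] → seqHilbert) x)
      ((f : ℤ_[2] → seqHilbert) x) ∂haarTwoAdic = 0 := by
    intro s hs
    have hm : MemLp (s.indicator (f : ℤ_[2] → seqHilbert)) 2 haarTwoAdic :=
      (Lp.memLp f).indicator hs
    have hf' : hm.toLp _ ∈ W := by
      refine hW (s.indicator fun _ => 1) (measurable_const.indicator hs) ⟨1, fun x => ?_⟩ f hf _ ?_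
      · by_cases hx : x ∈ s
        · rw [Set.indicator_of_mem hx]; simp
        · rw [Set.indicator_of_notMem hx]; simp
      · filter_upwards [hm.coeFn_toLp] with x hx
        rw [hx]
        by_cases hxs : x ∈ s
        · rw [Set.indicator_of_mem hxs, Set.indicator_of_mem hxs, one_smul]
        · rw [Set.indicator_of_notMem hxs, Set.indicator_of_notMem hxs, zero_smul]
    have h0 : inner ℂ g (hm.toLp _) = 0 :=
      (Submodule.mem_orthogonal' W g).1 hg _ hf'
    rw [L2.inner_def] at h0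
    rw [← integral_indicator hs, ← h0]
    apply integral_congr_ae
    filter_upwards [hm.coeFn_toLp] with x hx
    rw [hx]
    by_cases hxs : x ∈ s
    · rw [Set.indicator_of_mem hxs, Set.indicator_of_mem hxs]
    · rw [Set.indicator_of_notMem hxs, Set.indicator_of_notMem hxs, inner_zero_right]
  exact hint.ae_eq_zero_of_forall_setIntegral_eq_zero fun s hs _ => key s hs

theorem pow_mem_of_inv {W : Submodule ℂ fibreSpace} {T : fibreSpace →L[ℂ] fibreSpace}
    (hT : ∀ f ∈ W, T f ∈ W) (n : ℕ) : ∀ f ∈ W, (T ^ n) f ∈ W := by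
  induction n with
  | zero => intro f hf; simpa using hf
  | succ n ih =>
    intro f hf
    rw [pow_succ']
    exact hT _ (ih f hf)

/-- A nonzero element has a coordinate which is nonzero on a set of positive measure. -/
theorem exists_coord {f : fibreSpace} (hf : f ≠ 0) :
    ∃ j : ℤ, haarTwoAdic {x | (f : ℤ_[2] → seqHilbert) x j ≠ 0} ≠ 0 := by
  by_contra hcon
  push Not at hcon
  apply hf
  apply Lp.ext
  have h1 : ∀ᵐ x ∂haarTwoAdic, ∀ j : ℤ, (f : ℤ_[2] → seqHilbert) x j = 0 := by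
    rw [ae_all_iff]
    intro j
    rw [ae_iff]
    exact hcon j
  filter_upwards [h1, Lp.coeFn_zero seqHilbert 2 haarTwoAdic] with x h2 h3
  rw [h3]
  apply lp.ext
  funext j
  rw [h2 j]
  simp

theorem measurable_coord_set (f : fibreSpace) (j : ℤ) :
    MeasurableSet {x | (f : ℤ_[2] → seqHilbert) x j ≠ 0} := by
  have h1 : StronglyMeasurable (fun x => (f : ℤ_[2] → seqHilbert) x j) :=
    (coord_continuous j).comp_stronglyMeasurable (Lp.stronglyMeasurable f)
  exact (h1.measurable (measurableSet_singleton (0 : ℂ))).compl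

theorem ergodic_add_one : Ergodic (fun x : ℤ_[2] => 1 + x) haarTwoAdic := by
  apply ergodic_add_left_of_denseRange_nsmul
  have h := PadicInt.denseRange_natCast (p := 2)
  have e : (fun n : ℕ => n • (1 : ℤ_[2])) = fun n : ℕ => (n : ℤ_[2]) := by
    funext n; simp
  rw [e]
  exact h

/-- **Transitivity**. -/
theorem transitive {Sfib Vfib : ℤ_[2] → (seqHilbert →L[ℂ] seqHilbert)}
    {S V : fibreSpace →L[ℂ] fibreSpace} {b : ℤ → ℤ_[2] → ℝ}
    (hS : ∀ f : fibreSpace, ∀ᵐ x ∂haarTwoAdic,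
      (S f : ℤ_[2] → seqHilbert) x = Sfib x ((f : ℤ_[2] → seqHilbert) x))
    (hVb : ∀ x j, Vfib x (basisVec j) = (b j x : ℂ) • basisVec (j - 1))
    (hbpos : ∀ᵐ x ∂haarTwoAdic, ∀ j, 0 < b j x)
    (hV : ∀ f : fibreSpace, ∀ᵐ x ∂haarTwoAdic,
      (V f : ℤ_[2] → seqHilbert) (x + 1) = Vfib x ((f : ℤ_[2] → seqHilbert) x))
    (hU : ∀ (x : ℤ_[2]) (f g : seqHilbert) (j k : ℤ), j ≤ k → f j ≠ 0 → g k ≠ 0 →
      ∃ n : ℕ, inner ℂ g ((Sfib x ^ n) f) ≠ 0)
    (W : Submodule ℂ fibreSpace) (hWc : IsClosed (W : Set fibreSpace))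
    (hWS : ∀ f ∈ W, S f ∈ W) (hWV : ∀ f ∈ W, V f ∈ W)
    (hWm : ∀ g : ℤ_[2] → ℂ, Measurable g → (∃ C : ℝ, ∀ x, ‖g x‖ ≤ C) →
      ∀ f ∈ W, ∀ f' : fibreSpace,
        (∀ᵐ x ∂haarTwoAdic, (f' : ℤ_[2] → seqHilbert) x = g x • (f : ℤ_[2] → seqHilbert) x) →
          f' ∈ W) :
    W = ⊥ ∨ W = ⊤ := by
  by_contra hcon
  push Not at hcon
  obtain ⟨h1, h2⟩ := hcon
  obtain ⟨f, hf, hf0⟩ := (Submodule.ne_bot_iff W).1 h1
  have : CompleteSpace W := hWc.completeSpace_coe
  have h3 : Wᗮ ≠ ⊥ := by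
    intro h; exact h2 ((Submodule.orthogonal_eq_bot_iff).1 h)
  obtain ⟨g, hg, hg0⟩ := (Submodule.ne_bot_iff _).1 h3
  -- pointwise orthogonality
  have hae : ∀ᵐ x ∂haarTwoAdic, ∀ n p : ℕ, inner ℂ ((g : ℤ_[2] → seqHilbert) x)
      ((Sfib x ^ n) ((((V ^ p) f : fibreSpace) : ℤ_[2] → seqHilbert) x)) = 0 := by
    rw [ae_all_iff]; intro n
    rw [ae_all_iff]; intro p
    have h4 := inner_ae_zero W hWm (pow_mem_of_inv hWS n _ (pow_mem_of_inv hWV p f hf)) hg
    filter_upwards [h4, pow_ae_of_fib hS n ((V ^ p) f)] with x h5 h6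
    rwa [h6] at h5
  have hsep : ∀ᵐ x ∂haarTwoAdic, ∀ (p : ℕ) (j k : ℤ),
      (((V ^ p) f : fibreSpace) : ℤ_[2] → seqHilbert) x j ≠ 0 →
        (g : ℤ_[2] → seqHilbert) x k ≠ 0 → k < j := by
    filter_upwards [hae] with x hx p j k hj hk
    by_contra hlt
    push Not at hlt
    obtain ⟨n, hn⟩ := hU x _ _ j k hlt hj hk
    exact hn (hx n p)
  obtain ⟨j1, hj1⟩ := exists_coord hf0
  obtain ⟨k1, hk1⟩ := exists_coord hg0
  set A : Set ℤ_[2] := {x | (f : ℤ_[2] → seqHilbert) x j1 ≠ 0} with hA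
  set B : Set ℤ_[2] := {x | (g : ℤ_[2] → seqHilbert) x k1 ≠ 0} with hB
  have hAB : ∀ p : ℕ, j1 - k1 ≤ p → ∀ᵐ x ∂haarTwoAdic, x ∈ A → x + (p : ℤ_[2]) ∉ B := by
    intro p hp
    filter_upwards [back_coord hVb hbpos hV f p, ae_add (p : ℤ_[2]) hsep] with x h5 h6 hxA hxB
    have e : j1 - (p : ℤ) + p = j1 := by ring
    have h7 := h6 p (j1 - p) k1 (h5 (j1 - p) (by rw [e]; exact hxA)) hxB
    omega
  set N : ℕ := (j1 - k1).toNat with hN
  have hNp : ∀ p : ℕ, N ≤ p → j1 - k1 ≤ p := by intro p hp; omega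
  set D : Set ℤ_[2] := ⋃ p : {p : ℕ // N ≤ p}, (fun x : ℤ_[2] => x + ((p : ℕ) : ℤ_[2])) ⁻¹' B
    with hD
  have hBm : MeasurableSet B := measurable_coord_set g k1
  have hDm : MeasurableSet D :=
    MeasurableSet.iUnion fun p => (measurable_add_const _) hBm
  have hDsub : (fun x : ℤ_[2] => 1 + x) ⁻¹' D ⊆ D := by
    intro x hx
    simp only [hD, Set.mem_preimage, Set.mem_iUnion] at hx ⊢
    obtain ⟨⟨p, hp⟩, hxp⟩ := hx
    refine ⟨⟨p + 1, by omega⟩, ?_⟩
    have e : x + ((p + 1 : ℕ) : ℤ_[2]) = 1 + x + (p : ℤ_[2]) := by push_cast; ring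
    simp only [e]
    exact hxp
  rcases ergodic_add_one.ae_empty_or_univ_of_preimage_ae_le hDm.nullMeasurableSet
    hDsub.eventuallyLE with h5 | h5
  · have h6 : haarTwoAdic D = 0 := by
      rw [measure_congr h5]; exact measure_empty
    have h7 : haarTwoAdic ((fun x : ℤ_[2] => x + (N : ℤ_[2])) ⁻¹' B) = 0 := by
      apply measure_mono_null _ h6
      intro x hx
      simp only [hD, Set.mem_iUnion]
      exact ⟨⟨N, le_rfl⟩, hx⟩
    rw [(mp_add (N : ℤ_[2])).measure_preimage hBm.nullMeasurableSet] at h7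
    exact hk1 h7
  · have h6 : ∀ᵐ x ∂haarTwoAdic, x ∈ D := by
      filter_upwards [h5] with x hx
      have : (x ∈ D) = (x ∈ Set.univ) := hx
      rw [this]; trivial
    have h7 : ∀ᵐ x ∂haarTwoAdic, ∀ p : {p : ℕ // N ≤ p}, x ∈ A → x + ((p : ℕ) : ℤ_[2]) ∉ B := by
      rw [ae_all_iff]
      rintro ⟨p, hp⟩
      exact hAB p (hNp p hp)
    have h8 : ∀ᵐ x ∂haarTwoAdic, x ∉ A := by
      filter_upwards [h6, h7] with x h9 h10 hxA
      simp only [hD, Set.mem_iUnion] at h9
      obtain ⟨p, hp⟩ := h9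
      exact h10 p hxA hp
    rw [ae_iff] at h8
    simp only [not_not] at h8
    exact hj1 h8

end Crest.Agent.R113.Two
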